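import Vale.Agent.P226.Basic

/-! Tools for the standard Gaussian measure on a Euclidean space: fibres along a unit vector,
laws of linear functionals, the Cameron-Martin one-sided bound. -/

open MeasureTheory ProbabilityTheory Set Filter Topology Real
open scoped RealInnerProductSpace

namespace Vale.Agent.P226

variable {E : Type*} [NormedAddCommGroup E] [InnerProductSpace ℝ E] [FiniteDimensional ℝ E]
  [MeasurableSpace E] [BorelSpace E]

/-- Fibre lemma: replace the `e`-coordinate of a Gaussian vector by a fresh normal variable. -/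
lemma map_fibre (e : E) (he : ‖e‖ = 1) :
    ((stdGaussian E).prod (gaussianReal 0 1)).map
      (fun p : E × ℝ => p.1 - ⟪p.1, e⟫ • e + p.2 • e) = stdGaussian E := by
  have hm : Measurable (fun p : E × ℝ => p.1 - ⟪p.1, e⟫ • e + p.2 • e) := by fun_prop
  have := Measure.isProbabilityMeasure_map
    (μ := (stdGaussian E).prod (gaussianReal 0 1)) hm.aemeasurable
  apply Measure.ext_of_charFun
  ext t
  rw [charFun_apply, integral_map hm.aemeasurable (Measurable.aestronglyMeasurable (by fun_prop))]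
  have h : ∀ p : E × ℝ, Complex.exp ((⟪p.1 - ⟪p.1, e⟫ • e + p.2 • e, t⟫ : ℝ) * Complex.I) =
      Complex.exp ((⟪p.1, t - ⟪e, t⟫ • e⟫ : ℝ) * Complex.I) *
        Complex.exp ((⟪e, t⟫ : ℝ) * (p.2 : ℝ) * Complex.I) := by
    intro p
    rw [← Complex.exp_add]
    congr 1
    simp only [inner_add_left, inner_sub_left, inner_sub_right, real_inner_smul_left,
      real_inner_smul_right]
    push_cast
    ring
  simp_rw [h]
  rw [integral_prod_mul (fun x : E => Complex.exp ((⟪x, t - ⟪e, t⟫ • e⟫ : ℝ) * Complex.I))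
    (fun s : ℝ => Complex.exp ((⟪e, t⟫ : ℝ) * (s : ℝ) * Complex.I)), ← charFun_apply,
    ← charFun_apply_real, charFun_stdGaussian, charFun_stdGaussian, charFun_gaussianReal,
    ← Complex.exp_add]
  congr 1
  have h2 : ‖t - ⟪e, t⟫ • e‖ ^ 2 = ‖t‖ ^ 2 - ⟪e, t⟫ ^ 2 := by
    rw [@norm_sub_sq_real, norm_smul, real_inner_smul_right, he, real_inner_comm t e]
    simp only [Real.norm_eq_abs, mul_one, sq_abs]
    ring
  have h3 : ((‖t - ⟪e, t⟫ • e‖ : ℝ) : ℂ) ^ 2 = (‖t‖ : ℂ) ^ 2 - ((⟪e, t⟫ : ℝ) : ℂ) ^ 2 := by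
    exact_mod_cast h2
  rw [h3]
  simp
  ring

lemma measurePreserving_fibre (e : E) (he : ‖e‖ = 1) :
    MeasurePreserving (fun p : E × ℝ => p.1 - ⟪p.1, e⟫ • e + p.2 • e)
      ((stdGaussian E).prod (gaussianReal 0 1)) (stdGaussian E) :=
  ⟨by fun_prop, map_fibre e he⟩

lemma integral_fibre (e : E) (he : ‖e‖ = 1) {F : E → ℝ} (hF : Integrable F (stdGaussian E)) :
    ∫ x, F x ∂(stdGaussian E) =
      ∫ y, ∫ t, F (y - ⟪y, e⟫ • e + t • e) ∂(gaussianReal 0 1) ∂(stdGaussian E) := by
  have hp := measurePreserving_fibre e he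
  have h1 := hp.integrable_comp_of_integrable hF
  refine Eq.trans ?_ (integral_prod _ h1)
  conv_lhs => rw [← hp.map_eq]
  rw [integral_map hp.measurable.aemeasurable (by rw [hp.map_eq]; exact hF.aestronglyMeasurable)]
  rfl

lemma lintegral_fibre (e : E) (he : ‖e‖ = 1) {F : E → ENNReal} (hF : Measurable F) :
    ∫⁻ x, F x ∂(stdGaussian E) =
      ∫⁻ y, ∫⁻ t, F (y - ⟪y, e⟫ • e + t • e) ∂(gaussianReal 0 1) ∂(stdGaussian E) := by
  have hp := measurePreserving_fibre e he
  rw [← hp.lintegral_comp hF]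
  exact lintegral_prod _ (hF.comp hp.measurable).aemeasurable

lemma measureReal_fibre (e : E) (he : ‖e‖ = 1) {s : Set E} (hs : MeasurableSet s) :
    (stdGaussian E).real s =
      ∫ y, (gaussianReal 0 1).real {t | y - ⟪y, e⟫ • e + t • e ∈ s} ∂(stdGaussian E) := by
  rw [← integral_indicator_one hs,
    integral_fibre e he (F := s.indicator 1) ((integrable_const 1).indicator hs)]
  congr 1; ext y
  have hm : MeasurableSet {t : ℝ | y - ⟪y, e⟫ • e + t • e ∈ s} :=
    hs.preimage (f := fun t : ℝ => y - ⟪y, e⟫ • e + t • e) (by fun_prop)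
  rw [← integral_indicator_one hm]
  rfl

/-- an upper bound on a measure through upper bounds on the fibres -/
lemma measureReal_le_of_fibre (e : E) (he : ‖e‖ = 1) {s : Set E} (hs : MeasurableSet s)
    {G : E → ℝ} (hG : Integrable G (stdGaussian E))
    (h : ∀ y, (gaussianReal 0 1).real {t | y - ⟪y, e⟫ • e + t • e ∈ s} ≤ G y) :
    (stdGaussian E).real s ≤ ∫ y, G y ∂(stdGaussian E) := by
  rw [measureReal_fibre e he hs]
  exact integral_mono_of_nonneg (Eventually.of_forall fun _ => measureReal_nonneg) hG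
    (Eventually.of_forall h)

omit [FiniteDimensional ℝ E] [MeasurableSpace E] [BorelSpace E] in
lemma inner_fibre (e : E) (he : ‖e‖ = 1) (y : E) (t : ℝ) :
    ⟪y - ⟪y, e⟫ • e + t • e, e⟫ = t := by
  simp [inner_add_left, inner_sub_left, real_inner_smul_left, he]

omit [FiniteDimensional ℝ E] [MeasurableSpace E] [BorelSpace E] in
lemma inner_fibre' (e v y : E) (t : ℝ) :
    ⟪y - ⟪y, e⟫ • e + t • e, v⟫ = ⟪y, v - ⟪e, v⟫ • e⟫ + t * ⟪e, v⟫ := by
  simp only [inner_add_left, inner_sub_left, inner_sub_right, real_inner_smul_left,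
    real_inner_smul_right]
  ring

/-- the law of a unit linear functional -/
lemma measurePreserving_inner (e : E) (he : ‖e‖ = 1) :
    MeasurePreserving (fun x : E => ⟪x, e⟫) (stdGaussian E) (gaussianReal 0 1) := by
  refine ⟨by fun_prop, ?_⟩
  have hp := measurePreserving_fibre e he
  conv_lhs => rw [← hp.map_eq]
  rw [Measure.map_map (by fun_prop) hp.measurable]
  have : ((fun x : E => ⟪x, e⟫) ∘ fun p : E × ℝ => p.1 - ⟪p.1, e⟫ • e + p.2 • e) = Prod.snd := by
    ext p; exact inner_fibre e he p.1 p.2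
  rw [this]; simp

lemma integral_comp_inner (e : E) (he : ‖e‖ = 1) {F : ℝ → ℝ} (hF : Measurable F) :
    ∫ x, F ⟪x, e⟫ ∂(stdGaussian E) = ∫ t, F t ∂(gaussianReal 0 1) := by
  have hp := measurePreserving_inner e he
  rw [← hp.map_eq, integral_map hp.measurable.aemeasurable hF.aestronglyMeasurable]

lemma integrable_id_std : Integrable (fun x : E => x) (stdGaussian E) := IsGaussian.integrable_id

lemma integrable_inner (v : E) : Integrable (fun x : E => ⟪x, v⟫) (stdGaussian E) :=
  integrable_id_std.inner_const v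

lemma integral_inner_std (v : E) : ∫ x, ⟪x, v⟫ ∂(stdGaussian E) = 0 := by
  simp_rw [fun x : E => real_inner_comm v x]
  rw [integral_inner integrable_id_std, integral_id_stdGaussian, inner_zero_right]

lemma setIntegral_inner (v : E) (s : Set E) :
    ∫ x in s, ⟪x, v⟫ ∂(stdGaussian E) = ⟪∫ x in s, x ∂(stdGaussian E), v⟫ := by
  simp_rw [fun x : E => real_inner_comm v x]
  rw [integral_inner integrable_id_std.integrableOn]

omit [FiniteDimensional ℝ E] [MeasurableSpace E] [BorelSpace E] in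
lemma norm_unit {v : E} (hv : v ≠ 0) : ‖(‖v‖⁻¹ : ℝ) • v‖ = 1 := by
  rw [norm_smul, norm_inv, norm_norm, inv_mul_cancel₀ (norm_ne_zero_iff.2 hv)]

omit [FiniteDimensional ℝ E] [MeasurableSpace E] [BorelSpace E] in
lemma inner_eq_norm_mul_unit {v : E} (hv : v ≠ 0) (x : E) :
    ⟪x, v⟫ = ‖v‖ * ⟪x, (‖v‖⁻¹ : ℝ) • v⟫ := by
  rw [real_inner_smul_right, ← mul_assoc, mul_inv_cancel₀ (norm_ne_zero_iff.2 hv), one_mul]

/-- `E |⟪x, v⟫| = 2 ph 0 ‖v‖` -/
lemma integral_abs_inner (v : E) : ∫ x, |⟪x, v⟫| ∂(stdGaussian E) = 2 * ph 0 * ‖v‖ := by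
  rcases eq_or_ne v 0 with rfl | hv
  · simp
  simp_rw [inner_eq_norm_mul_unit hv, abs_mul, abs_norm]
  rw [integral_const_mul, integral_comp_inner _ (norm_unit hv) (F := fun t => |t|) (by fun_prop),
    integral_abs_g1]
  ring

/-- `E ⟪x, v⟫_+ = ph 0 ‖v‖` -/
lemma integral_posPart_inner (v : E) :
    ∫ x, max ⟪x, v⟫ 0 ∂(stdGaussian E) = ph 0 * ‖v‖ := by
  have h : (fun x : E => max ⟪x, v⟫ 0) = fun x => (|⟪x, v⟫| + ⟪x, v⟫) / 2 := by
    ext x
    rcases le_total 0 ⟪x, v⟫ with hx | hx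
    · simp [abs_of_nonneg hx, hx]
    · simp [abs_of_nonpos hx, hx]
  rw [h, integral_div, integral_add (integrable_inner v).abs (integrable_inner v),
    integral_abs_inner, integral_inner_std]
  ring

/-- hyperplanes are null -/
lemma measure_hyperplane {v : E} (hv : v ≠ 0) (c : ℝ) :
    stdGaussian E {x | ⟪x, v⟫ = c} = 0 := by
  have hp := measurePreserving_inner _ (norm_unit hv)
  have := nullSingletonClass_gaussianReal (μ := 0) (v := 1) (by simp)
  have h0 : gaussianReal 0 1 {‖v‖⁻¹ * c} = 0 := measure_singleton _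
  rw [← hp.measure_preimage (measurableSet_singleton _).nullMeasurableSet] at h0
  refine measure_mono_null (fun x hx => ?_) h0
  simp only [mem_ofPred_eq] at hx
  simp [real_inner_smul_right, hx]

/-- half-spaces -/
lemma measureReal_halfspace {v : E} (hv : v ≠ 0) :
    (stdGaussian E).real {x | 0 ≤ ⟪x, v⟫} = 1 / 2 := by
  have hp := measurePreserving_inner _ (norm_unit hv)
  have h := hp.measureReal_preimage (s := Ici 0) measurableSet_Ici.nullMeasurableSet
  rw [g1_Ici, neg_zero, Ph_zero] at h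
  rw [← h]
  congr 1
  ext x
  have : 0 < ‖v‖⁻¹ := inv_pos.2 (norm_pos_iff.2 hv)
  simp [real_inner_smul_right, mul_nonneg_iff_of_pos_left this]

end Vale.Agent.P226
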