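import Vale.Agent.P226.Ehrhard1
import Vale.Agent.P226.Tools

/-! TASK A2. Functional Ehrhard inequality in any dimension and the gain bound.

`ehrhard_pi`: induction on `n` over `Measure.pi` on `Fin n → ℝ` (sup norm; use
`measurePreserving_piFinSuccAbove` or `MeasureTheory.integral_fintype...`/`Fin.cons`): for `F` on
`Fin (n+1) → ℝ` put `F' x = Pinv ∫ Ph (F (Fin.cons s x)) ds`; it is `L`-Lipschitz by `shift`, and the
three `F'` satisfy the hypothesis by `ehrhard_one` applied to the sections.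
`ehrhard_std`: transfer through the definition of `stdGaussian` (the coordinate map is linear and
Lipschitz for some constant).
`ehrhard_gain`: `u s = Pinv ∫ Ph (f - s)` is concave in `s` by `ehrhard_std`, `u 0 = -τ`,
`u' 0 = -m` with `m * ph τ = ∫ ph f > 0`; so `u s ≤ -τ - m s`;
`ps v = ∫ s in Ioi 0, Ph (-v - s)`, Fubini: `∫ ps (-f) = ∫ s in Ioi 0, Ph (u s) ≤ ps τ / m`. -/

open MeasureTheory ProbabilityTheory Set Filter Topology Real
open scoped RealInnerProductSpace

namespace Vale.Agent.P226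

lemma lip_cons {n : ℕ} {f : (Fin (n + 1) → ℝ) → ℝ} {L : NNReal} (hf : LipschitzWith L f)
    (x : Fin n → ℝ) : LipschitzWith L (fun s : ℝ => f (Fin.cons s x)) :=
  LipschitzWith.of_dist_le_mul fun s r => (hf.dist_le_mul _ _).trans (by
    gcongr
    refine (dist_pi_le_iff dist_nonneg).2 fun i => ?_
    refine Fin.cases ?_ (fun j => ?_) i <;> simp)

lemma lip_sec {n : ℕ} {f : (Fin (n + 1) → ℝ) → ℝ} {L : NNReal} (hf : LipschitzWith L f) :
    LipschitzWith L (fun x : Fin n → ℝ => Pinv (∫ s, Ph (f (Fin.cons s x)) ∂(gaussianReal 0 1))) :=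
  LipschitzWith.of_dist_le_mul fun x y => by
    rw [Real.dist_eq]
    refine shift_abs _ (lip_cons hf x).continuous.measurable (lip_cons hf y).continuous.measurable
      (by positivity) fun s => ?_
    refine (hf.dist_le_mul _ _).trans ?_
    gcongr
    refine (dist_pi_le_iff dist_nonneg).2 fun i => ?_
    refine Fin.cases ?_ (fun j => ?_) i
    · simp
    · simpa using dist_le_pi_dist x y j

lemma integral_sec {n : ℕ} {f : (Fin (n + 1) → ℝ) → ℝ} {L : NNReal} (hf : LipschitzWith L f) :
    ∫ x, Ph (Pinv (∫ s, Ph (f (Fin.cons s x)) ∂(gaussianReal 0 1)))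
        ∂(Measure.pi fun _ : Fin n => gaussianReal 0 1)
      = ∫ x, Ph (f x) ∂(Measure.pi fun _ : Fin (n + 1) => gaussianReal 0 1) := by
  simp only [← Ph_Pinv_integral _ (lip_cons hf _).continuous.measurable]
  have hp := (measurePreserving_piFinSuccAbove (fun _ : Fin (n + 1) => gaussianReal 0 1) 0).symm
  rw [← hp.integral_comp', integral_prod_symm]
  · simp [MeasurableEquiv.piFinSuccAbove, Fin.consEquiv]
  · exact integrable_Ph_comp _ (hf.continuous.measurable.comp hp.measurable)

theorem ehrhard_pi (n : ℕ) {f f0 f1 : (Fin n → ℝ) → ℝ} {L : NNReal} (hf : LipschitzWith L f)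
    (hf0 : LipschitzWith L f0) (hf1 : LipschitzWith L f1) {l : ℝ} (hl0 : 0 ≤ l) (hl1 : l ≤ 1)
    (h : ∀ x y, l * f0 x + (1 - l) * f1 y ≤ f (l • x + (1 - l) • y)) {t t0 t1 : ℝ}
    (ht : ∫ x, Ph (f x) ∂(Measure.pi fun _ : Fin n => gaussianReal 0 1) = Ph t)
    (ht0 : ∫ x, Ph (f0 x) ∂(Measure.pi fun _ : Fin n => gaussianReal 0 1) = Ph t0)
    (ht1 : ∫ x, Ph (f1 x) ∂(Measure.pi fun _ : Fin n => gaussianReal 0 1) = Ph t1) :
    l * t0 + (1 - l) * t1 ≤ t := by
  induction n generalizing t t0 t1 with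
  | zero =>
    have e : ∀ g : (Fin 0 → ℝ) → ℝ, ∀ u,
        ∫ x, Ph (g x) ∂(Measure.pi fun _ : Fin 0 => gaussianReal 0 1) = Ph u → u = g 0 := by
      intro g u hu
      have : (fun x => Ph (g x)) = fun _ => Ph (g 0) := by
        ext x; rw [Subsingleton.elim x 0]
      rw [this] at hu
      exact strictMono_Ph.injective (by simpa using hu.symm)
    rw [e f t ht, e f0 t0 ht0, e f1 t1 ht1]
    simpa using h 0 0
  | succ n ih =>
    refine ih (lip_sec hf) (lip_sec hf0) (lip_sec hf1) (fun x y => ?_)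
      ((integral_sec hf).trans ht) ((integral_sec hf0).trans ht0) ((integral_sec hf1).trans ht1)
    refine ehrhard_one (lip_cons hf (l • x + (1 - l) • y)) (lip_cons hf0 x) (lip_cons hf1 y) hl0 hl1
      (fun a b => ?_) (Ph_Pinv_integral _ (lip_cons hf _).continuous.measurable)
      (Ph_Pinv_integral _ (lip_cons hf0 _).continuous.measurable)
      (Ph_Pinv_integral _ (lip_cons hf1 _).continuous.measurable)
    refine (h _ _).trans (le_of_eq ?_)
    congr 1
    ext i
    refine Fin.cases ?_ (fun j => ?_) i <;> simp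

variable {E : Type*} [NormedAddCommGroup E] [InnerProductSpace ℝ E] [FiniteDimensional ℝ E]
  [MeasurableSpace E] [BorelSpace E]

theorem ehrhard_std {f f0 f1 : E → ℝ} {L : NNReal} (hf : LipschitzWith L f)
    (hf0 : LipschitzWith L f0) (hf1 : LipschitzWith L f1) {l : ℝ} (hl0 : 0 ≤ l) (hl1 : l ≤ 1)
    (h : ∀ x y, l * f0 x + (1 - l) * f1 y ≤ f (l • x + (1 - l) • y)) {t t0 t1 : ℝ}
    (ht : ∫ x, Ph (f x) ∂(stdGaussian E) = Ph t)
    (ht0 : ∫ x, Ph (f0 x) ∂(stdGaussian E) = Ph t0)
    (ht1 : ∫ x, Ph (f1 x) ∂(stdGaussian E) = Ph t1) :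
    l * t0 + (1 - l) * t1 ≤ t := by
  let T : (Fin (Module.finrank ℝ E) → ℝ) →L[ℝ] E :=
    ∑ i, (ContinuousLinearMap.proj i).smulRight (stdOrthonormalBasis ℝ E i)
  have hT : ∀ x, T x = ∑ i, x i • stdOrthonormalBasis ℝ E i := fun x => by simp [T]
  have e : ∀ g : E → ℝ, Continuous g → ∫ x, Ph (g x) ∂(stdGaussian E)
      = ∫ x, Ph ((g ∘ T) x) ∂(Measure.pi fun _ => gaussianReal 0 1) := by
    intro g hg
    rw [stdGaussian, integral_map (Measurable.aemeasurable (by fun_prop))
      (Continuous.aestronglyMeasurable (by fun_prop))]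
    simp only [Function.comp, hT]
  rw [e _ hf.continuous] at ht
  rw [e _ hf0.continuous] at ht0
  rw [e _ hf1.continuous] at ht1
  refine ehrhard_pi _ (hf.comp T.lipschitz) (hf0.comp T.lipschitz) (hf1.comp T.lipschitz) hl0 hl1
    (fun x y => ?_) ht ht0 ht1
  simpa using h (T x) (T y)

lemma ps_tail (v : ℝ) {m : ℝ} (hm : 0 < m) :
    IntegrableOn (fun s => Ph (-(v + m * s))) (Ioi 0) ∧
      ∫ s in Ioi (0 : ℝ), Ph (-(v + m * s)) = ps v / m := by
  have hd : ∀ s ∈ Ici (0 : ℝ), HasDerivAt (fun s => -ps (v + m * s) / m) (Ph (-(v + m * s))) s := by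
    intro s _
    have := (((hasDerivAt_ps (v + m * s)).comp s
      (((hasDerivAt_id s).const_mul m).const_add v)).neg).div_const m
    exact this.congr_deriv (by field_simp)
  have hl : Tendsto (fun s => -ps (v + m * s) / m) atTop (𝓝 (-0 / m)) :=
    ((tendsto_ps_atTop.comp (tendsto_atTop_add_const_left _ v
      (tendsto_id.const_mul_atTop hm))).neg).div_const m
  refine ⟨integrableOn_Ioi_deriv_of_nonneg' hd (fun s _ => Ph_nonneg _) hl, ?_⟩
  rw [integral_Ioi_of_hasDerivAt_of_nonneg' hd (fun s _ => Ph_nonneg _) hl]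
  simp [neg_div]

/-- the gain bound -/
theorem ehrhard_gain {f : E → ℝ} {L : NNReal} (hL : LipschitzWith L f)
    (hc : ConcaveOn ℝ univ f) {τ : ℝ} (hτ : ∫ y, Ph (f y) ∂(stdGaussian E) = Ph (-τ)) :
    (∫ y, ph (f y) ∂(stdGaussian E)) * (∫ y, ps (-f y) ∂(stdGaussian E)) ≤ ph τ * ps τ := by
  have hfc := hL.continuous
  have hm : ∀ s : ℝ, Measurable (fun y => f y - s) := fun s => by fun_prop
  have hLs : ∀ s : ℝ, LipschitzWith L (fun y => f y - s) := fun s =>
    LipschitzWith.of_dist_le_mul fun x y => by simpa using hL.dist_le_mul x y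
  let G : ℝ → ℝ := fun s => ∫ y, Ph (f y - s) ∂(stdGaussian E)
  have hG : ∀ s, G s = Ph (Pinv (G s)) := fun s => Ph_Pinv_integral _ (hm s)
  have hconc : ConcaveOn ℝ univ (fun s => Pinv (G s)) := by
    refine ⟨convex_univ, fun s _ r _ a b ha hb hab => ?_⟩
    obtain rfl : b = 1 - a := by linarith
    refine ehrhard_std (hLs _) (hLs s) (hLs r) ha (by linarith) (fun x y => ?_) (hG _) (hG s) (hG r)
    have := hc.2 (mem_univ x) (mem_univ y) ha hb hab
    simp only [smul_eq_mul] at this ⊢
    linarith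
  set I := ∫ y, ph (f y) ∂(stdGaussian E) with hI
  have hG0 : Pinv (G 0) = -τ := by simp only [G, sub_zero, hτ, Pinv_Ph]
  have hd := hasDerivAt_integral_of_dominated_loc_of_deriv_le (μ := stdGaussian E)
    (F := fun s y => Ph (f y - s)) (F' := fun s y => -ph (f y - s)) (x₀ := 0)
    (bound := fun _ => ph 0) univ_mem
    (Eventually.of_forall fun s => Continuous.aestronglyMeasurable (by fun_prop))
    (integrable_Ph_comp _ (hm 0)) (Continuous.aestronglyMeasurable (by fun_prop))
    (Eventually.of_forall fun y s _ => by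
      rw [norm_neg, Real.norm_eq_abs, abs_of_pos (ph_pos _)]; exact ph_le_ph_zero _)
    (integrable_const _) (Eventually.of_forall fun y s _ =>
      ((hasDerivAt_Ph (f y - s)).comp s ((hasDerivAt_id s).const_sub (f y))).congr_deriv (by simp))
  simp only [sub_zero, integral_neg, ← hI] at hd
  have hIpos : 0 < I := by
    rw [hI, integral_pos_iff_support_of_nonneg (fun x => (ph_pos _).le) (by simpa using hd.1.neg)]
    have : (Function.support fun x => ph (f x)) = univ := by
      ext x; simp [(ph_pos _).ne']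
    simp [this]
  have hu := (hasDerivAt_Pinv (integral_Ph_pos _ (hm 0)) (integral_Ph_lt_one _ (hm 0))).comp 0 hd.2
  set m := I / ph τ with hmdef
  have hτp := ph_pos τ
  have hm0 : 0 < m := by positivity
  have hle : ∀ s, 0 < s → G s ≤ Ph (-(τ + m * s)) := by
    intro s hs
    have h1 := hconc.slope_le_of_hasDerivAt (mem_univ 0) (mem_univ s) hs hu
    change slope _ 0 s ≤ (ph (Pinv (G 0)))⁻¹ * -I at h1
    rw [slope_def_field, hG0, ph_neg, sub_zero, div_le_iff₀ hs] at h1
    rw [hG s]
    refine strictMono_Ph.monotone ?_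
    have : (ph τ)⁻¹ * -I = -m := by rw [hmdef]; ring
    rw [this] at h1
    linarith
  have hint : Integrable (fun p : E × ℝ => Ph (f p.1 - p.2))
      ((stdGaussian E).prod (volume.restrict (Ioi 0))) := by
    rw [integrable_prod_iff (Continuous.aestronglyMeasurable (by fun_prop))]
    refine ⟨Eventually.of_forall fun y => ?_, ?_⟩
    · simpa [IntegrableOn, sub_eq_add_neg, add_comm] using (ps_tail (-f y) one_pos).1
    · have e : ∀ y, ∫ s in Ioi (0 : ℝ), ‖Ph (f y - s)‖ = ps (-f y) := fun y => by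
        simp only [Real.norm_eq_abs, abs_of_pos (Ph_pos _)]
        simpa [sub_eq_add_neg, add_comm] using (ps_tail (-f y) one_pos).2
      simp only [e]
      refine ((integrable_const (ph 0 + |f 0|)).add (integrable_id_std.norm.const_mul L)).mono'
        (Continuous.aestronglyMeasurable (by fun_prop)) (Eventually.of_forall fun y => ?_)
      rw [Real.norm_eq_abs, abs_of_nonneg (ps_nonneg _)]
      have h1 := ps_le_abs (-f y)
      have h2 := hL.dist_le_mul y 0
      rw [Real.dist_eq, dist_zero_right] at h2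
      have h3 := abs_sub_abs_le_abs_sub (f y) (f 0)
      rw [abs_neg] at h1
      simp only [Pi.add_apply]
      linarith
  have h1 : ∫ y, ps (-f y) ∂(stdGaussian E) = ∫ s in Ioi (0 : ℝ), G s := by
    rw [← integral_integral_swap (f := fun y s => Ph (f y - s)) hint]
    congr 1; ext y
    simpa [sub_eq_add_neg, add_comm] using (ps_tail (-f y) one_pos).2.symm
  have h2 : ∫ s in Ioi (0 : ℝ), G s ≤ ps τ / m := by
    rw [← (ps_tail τ hm0).2]
    exact setIntegral_mono_on hint.integral_prod_right (ps_tail τ hm0).1 measurableSet_Ioi hle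
  rw [h1]
  calc I * ∫ s in Ioi (0 : ℝ), G s ≤ I * (ps τ / m) := by gcongr
    _ = ph τ * ps τ := by rw [hmdef]; field_simp

end Vale.Agent.P226

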