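import Mathlib

/-! One-dimensional Gaussian calculus: density `ph`, distribution function `Ph`,
and `ps t = E (g - t)_+`. -/

open MeasureTheory ProbabilityTheory Set Filter Topology Real

namespace Vale.Agent.P226

/-- standard normal density -/
noncomputable def ph (t : ℝ) : ℝ := (√(2 * π))⁻¹ * Real.exp (-t ^ 2 / 2)

/-- standard normal distribution function -/
noncomputable def Ph (t : ℝ) : ℝ := (gaussianReal 0 1).real (Iic t)

/-- `ps t = E (g - t)_+` -/
noncomputable def ps (t : ℝ) : ℝ := ph t - t * Ph (-t)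

lemma ph_eq (t : ℝ) : gaussianPDFReal 0 1 t = ph t := by
  simp [gaussianPDFReal, ph]

lemma sqrt_two_pi_pos : 0 < √(2 * π) := Real.sqrt_pos.2 (by positivity)

lemma ph_pos (t : ℝ) : 0 < ph t := by
  unfold ph; have := sqrt_two_pi_pos; positivity

lemma ph_neg (t : ℝ) : ph (-t) = ph t := by simp [ph]

lemma ph_zero : ph 0 = (√(2 * π))⁻¹ := by simp [ph]

lemma ph_zero_sq : ph 0 ^ 2 = 1 / (2 * π) := by
  rw [ph_zero, inv_pow, Real.sq_sqrt (by positivity)]; simp

lemma ph_eq_mul (t : ℝ) : ph t = ph 0 * Real.exp (-t ^ 2 / 2) := by simp [ph]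

lemma ph_le_ph_zero (t : ℝ) : ph t ≤ ph 0 := by
  rw [ph_eq_mul t]
  have h : Real.exp (-t ^ 2 / 2) ≤ 1 := Real.exp_le_one_iff.2 (by nlinarith [sq_nonneg t])
  nlinarith [ph_pos 0]

lemma hasDerivAt_ph (t : ℝ) : HasDerivAt ph (-t * ph t) t := by
  have h1 : HasDerivAt (fun t : ℝ => -t ^ 2 / 2) (-t) t := by
    have := ((hasDerivAt_pow 2 t).neg).div_const 2
    refine this.congr_deriv ?_
    simp; ring
  have := (h1.exp).const_mul (√(2 * π))⁻¹
  refine this.congr_deriv ?_
  unfold ph; ring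

@[fun_prop] lemma continuous_ph : Continuous ph := by unfold ph; fun_prop

@[fun_prop] lemma measurable_ph : Measurable ph := continuous_ph.measurable

lemma integrable_ph : Integrable ph := by
  have := integrable_gaussianPDFReal 0 1
  exact this.congr (Eventually.of_forall fun t => ph_eq t)

lemma integral_g1 (F : ℝ → ℝ) : ∫ t, F t ∂(gaussianReal 0 1) = ∫ t, ph t * F t := by
  rw [integral_gaussianReal_eq_integral_smul (by simp)]
  simp [ph_eq]

lemma setIntegral_g1 (F : ℝ → ℝ) {s : Set ℝ} (hs : MeasurableSet s) :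
    ∫ t in s, F t ∂(gaussianReal 0 1) = ∫ t in s, ph t * F t := by
  rw [← integral_indicator hs, integral_g1, ← integral_indicator hs]
  congr 1; ext t
  by_cases h : t ∈ s <;> simp [h]

lemma g1_real {s : Set ℝ} (hs : MeasurableSet s) :
    (gaussianReal 0 1).real s = ∫ t in s, ph t := by
  have := setIntegral_g1 (fun _ => 1) hs
  simpa using this

lemma Ph_eq_integral (t : ℝ) : Ph t = ∫ x in Iic t, ph x := g1_real measurableSet_Iic

lemma hasDerivAt_Ph (t : ℝ) : HasDerivAt Ph (ph t) t := by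
  have h : Ph = fun t => (∫ x in Iic 0, ph x) + ∫ x in (0:ℝ)..t, ph x := by
    ext t
    rw [Ph_eq_integral, ← intervalIntegral.integral_Iic_sub_Iic integrable_ph.integrableOn
      integrable_ph.integrableOn]
    ring
  rw [h]
  exact (intervalIntegral.integral_hasDerivAt_right
    (continuous_ph.intervalIntegrable _ _) (continuous_ph.stronglyMeasurableAtFilter _ _)
    continuous_ph.continuousAt).const_add _

@[fun_prop] lemma continuous_Ph : Continuous Ph :=
  continuous_iff_continuousAt.2 fun t => (hasDerivAt_Ph t).continuousAt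

@[fun_prop] lemma measurable_Ph : Measurable Ph := continuous_Ph.measurable

lemma strictMono_Ph : StrictMono Ph :=
  strictMono_of_deriv_pos fun t => by rw [(hasDerivAt_Ph t).deriv]; exact ph_pos t

lemma tendsto_Ph_atBot : Tendsto Ph atBot (𝓝 0) := by
  have := tendsto_cdf_atBot (gaussianReal 0 1)
  refine this.congr fun t => cdf_eq_real _ t

lemma tendsto_Ph_atTop : Tendsto Ph atTop (𝓝 1) := by
  have := tendsto_cdf_atTop (gaussianReal 0 1)
  refine this.congr fun t => cdf_eq_real _ t

lemma Ph_nonneg (t : ℝ) : 0 ≤ Ph t := measureReal_nonneg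

lemma Ph_le_one (t : ℝ) : Ph t ≤ 1 := measureReal_le_one

lemma Ph_pos (t : ℝ) : 0 < Ph t :=
  lt_of_le_of_lt (Ph_nonneg (t - 1)) (strictMono_Ph (by linarith))

lemma Ph_lt_one (t : ℝ) : Ph t < 1 :=
  lt_of_lt_of_le (strictMono_Ph (by linarith : t < t + 1)) (Ph_le_one _)

lemma Ph_neg (t : ℝ) : Ph (-t) = 1 - Ph t := by
  have hd : ∀ s, HasDerivAt (fun s => Ph (-s) + Ph s) 0 s := fun s => by
    have h1 := (hasDerivAt_Ph (-s)).comp s (hasDerivAt_neg s)
    have := h1.add (hasDerivAt_Ph s)
    refine this.congr_deriv ?_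
    simp [ph_neg]
  have hc : ∀ s, Ph (-s) + Ph s = Ph (-t) + Ph t := fun s =>
    is_const_of_deriv_eq_zero (fun s => (hd s).differentiableAt) (fun s => (hd s).deriv) s t
  have hl : Tendsto (fun s => Ph (-s) + Ph s) atTop (𝓝 (0 + 1)) :=
    (tendsto_Ph_atBot.comp tendsto_neg_atTop_atBot).add tendsto_Ph_atTop
  simp only [hc] at hl
  have := tendsto_nhds_unique hl tendsto_const_nhds
  linarith

lemma Ph_zero : Ph 0 = 1 / 2 := by
  have := Ph_neg 0
  rw [neg_zero] at this; linarith

lemma Ph_sub_le {s t : ℝ} (h : s ≤ t) : Ph t - Ph s ≤ ph 0 * (t - s) := by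
  have hd : ∀ u, HasDerivAt (fun u => ph 0 * u - Ph u) (ph 0 - ph u) u := fun u =>
    (((hasDerivAt_id u).const_mul (ph 0)).sub (hasDerivAt_Ph u)).congr_deriv (by simp)
  have : Monotone (fun u => ph 0 * u - Ph u) :=
    monotone_of_deriv_nonneg (fun u => (hd u).differentiableAt) fun u => by
      rw [(hd u).deriv]; linarith [ph_le_ph_zero u]
  have := this h
  simp only at this
  linarith

lemma Ph_le_half_add {x : ℝ} (hx : 0 ≤ x) : Ph x ≤ 1 / 2 + ph 0 * x := by
  have := Ph_sub_le hx
  rw [Ph_zero] at this; linarith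

/-- every `a ∈ (0,1)` is a value of `Ph` -/
lemma exists_Ph_eq {a : ℝ} (h0 : 0 < a) (h1 : a < 1) : ∃ t, Ph t = a := by
  obtain ⟨s, hs⟩ := (tendsto_Ph_atBot.eventually (gt_mem_nhds h0)).exists
  obtain ⟨t, ht⟩ := (tendsto_Ph_atTop.eventually (lt_mem_nhds h1)).exists
  exact mem_range_of_exists_le_of_exists_ge continuous_Ph ⟨s, hs.le⟩ ⟨t, ht.le⟩

lemma exists_tau {a : ℝ} (h0 : 0 < a) (h1 : a ≤ 1 / 2) : ∃ τ, 0 ≤ τ ∧ a = Ph (-τ) := by
  obtain ⟨t, ht⟩ := exists_Ph_eq h0 (by linarith)
  refine ⟨-t, ?_, by simp [ht]⟩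
  have : Ph t ≤ Ph 0 := by rw [ht, Ph_zero]; exact h1
  have := strictMono_Ph.le_iff_le.1 this
  linarith

lemma g1_Iio (t : ℝ) : (gaussianReal 0 1).real (Iio t) = Ph t := by
  have := nullSingletonClass_gaussianReal (μ := 0) (v := 1) (by simp)
  unfold Ph
  exact measureReal_congr Iio_ae_eq_Iic

lemma g1_Ici (t : ℝ) : (gaussianReal 0 1).real (Ici t) = Ph (-t) := by
  rw [Ph_neg, ← g1_Iio, ← compl_Iio, measureReal_compl measurableSet_Iio]; simp

lemma g1_Ico_le (a δ : ℝ) (hδ : 0 ≤ δ) : (gaussianReal 0 1).real (Ico a (a + δ)) ≤ ph 0 * δ := by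
  have h1 : (gaussianReal 0 1).real (Ico a (a + δ)) = Ph (a + δ) - Ph a := by
    have he : Ico a (a + δ) = Iio (a + δ) \ Iio a := by
      ext x; simp
    rw [← g1_Iio, ← g1_Iio, he,
      measureReal_sdiff (Iio_subset_Iio (by linarith)) measurableSet_Iio]
  have := Ph_sub_le (show a ≤ a + δ by linarith)
  rw [h1]; simpa using this

lemma tendsto_ph_atTop : Tendsto ph atTop (𝓝 0) := by
  have h : Tendsto (fun t : ℝ => -t ^ 2 / 2) atTop atBot :=
    (tendsto_neg_atTop_atBot.comp (tendsto_pow_atTop two_ne_zero)).atBot_div_const (by norm_num)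
  have := (Real.tendsto_exp_atBot.comp h).const_mul (√(2 * π))⁻¹
  rw [mul_zero] at this
  exact this

lemma integrable_g1_id : Integrable (fun x : ℝ => x) (gaussianReal 0 1) :=
  (memLp_id_gaussianReal' 1 (by simp)).integrable le_rfl

lemma integrable_g1_pow (n : ℕ) : Integrable (fun x : ℝ => x ^ n) (gaussianReal 0 1) := by
  have h := memLp_id_gaussianReal' (μ := 0) (v := 1) n (by simp)
  rcases Nat.eq_zero_or_pos n with rfl | hn
  · simp
  have := h.integrable_norm_pow (by omega)
  refine this.mono' (by fun_prop) (Eventually.of_forall fun x => by simp)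

lemma integrable_ph_mul {F : ℝ → ℝ} (hF : Integrable F (gaussianReal 0 1)) :
    Integrable (fun t => ph t * F t) := by
  rw [gaussianReal_of_var_ne_zero _ (by simp),
    integrable_withDensity_iff_integrable_smul' (measurable_gaussianPDF _ _)
      (Eventually.of_forall fun _ => gaussianPDF_lt_top)] at hF
  simpa [ph_eq] using hF

/-- `E[g; g ≥ t] = ph t` -/
lemma integral_Ici_id (t : ℝ) : ∫ x in Ici t, x ∂(gaussianReal 0 1) = ph t := by
  rw [setIntegral_g1 _ measurableSet_Ici, integral_Ici_eq_integral_Ioi]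
  have := integral_Ioi_of_hasDerivAt_of_tendsto' (f := fun x => -ph x) (f' := fun x => ph x * x)
    (a := t) (m := -0) (fun x _ => by
      have := (hasDerivAt_ph x).neg
      refine this.congr_deriv (by ring))
    (integrable_ph_mul integrable_g1_id).integrableOn tendsto_ph_atTop.neg
  simpa using this

lemma integrable_g1_posPart (t : ℝ) : Integrable (fun x : ℝ => max (x - t) 0) (gaussianReal 0 1) :=
  (integrable_g1_id.sub (integrable_const t)).pos_part

/-- `E (g - t)_+ = ps t` -/
lemma integral_posPart (t : ℝ) : ∫ x, max (x - t) 0 ∂(gaussianReal 0 1) = ps t := by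
  have h : (fun x : ℝ => max (x - t) 0) = (Ici t).indicator (fun x => x - t) := by
    ext x
    by_cases hx : t ≤ x
    · simp [hx]
    · have : x - t ≤ 0 := by linarith [not_le.1 hx]
      simp [hx, this]
  rw [h, integral_indicator measurableSet_Ici, integral_sub integrable_g1_id.integrableOn
    (integrable_const t).integrableOn, integral_Ici_id]
  simp [ps, g1_Ici, mul_comm]

lemma ps_nonneg (t : ℝ) : 0 ≤ ps t := by
  rw [← integral_posPart]; exact integral_nonneg fun x => le_max_right _ _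

lemma ps_zero : ps 0 = ph 0 := by simp [ps]

lemma hasDerivAt_ps (t : ℝ) : HasDerivAt ps (-Ph (-t)) t := by
  have h1 := (hasDerivAt_Ph (-t)).comp t (hasDerivAt_neg t)
  have := (hasDerivAt_ph t).sub ((hasDerivAt_id t).mul h1)
  refine this.congr_deriv ?_
  simp [ph_neg]

@[fun_prop] lemma continuous_ps : Continuous ps := by unfold ps; fun_prop

@[fun_prop] lemma measurable_ps : Measurable ps := continuous_ps.measurable

lemma antitone_ps : Antitone ps :=
  antitone_of_deriv_nonpos (fun t => (hasDerivAt_ps t).differentiableAt) fun t => by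
    rw [(hasDerivAt_ps t).deriv]; linarith [Ph_pos (-t)]

lemma ps_le_ph {t : ℝ} (ht : 0 ≤ t) : ps t ≤ ph t := by
  unfold ps; nlinarith [Ph_pos (-t)]

lemma tendsto_ps_atTop : Tendsto ps atTop (𝓝 0) :=
  tendsto_of_tendsto_of_tendsto_of_le_of_le' tendsto_const_nhds tendsto_ph_atTop
    (Eventually.of_forall ps_nonneg) ((eventually_ge_atTop 0).mono fun _ h => ps_le_ph h)

lemma ps_le_abs (t : ℝ) : ps t ≤ ph 0 + |t| := by
  unfold ps
  have h1 := ph_le_ph_zero t
  have h2 : -(t * Ph (-t)) ≤ |t| := by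
    calc -(t * Ph (-t)) ≤ |t * Ph (-t)| := neg_le_abs _
      _ = |t| * Ph (-t) := by rw [abs_mul, abs_of_pos (Ph_pos _)]
      _ ≤ |t| * 1 := by gcongr; exact Ph_le_one _
      _ = |t| := mul_one _
  linarith

/-- `E |g| = 2 ph 0` -/
lemma integral_abs_g1 : ∫ x, |x| ∂(gaussianReal 0 1) = 2 * ph 0 := by
  have h : (fun x : ℝ => |x|) = fun x => 2 * max (x - 0) 0 - x := by
    ext x
    rcases le_total 0 x with hx | hx
    · simp [abs_of_nonneg hx, hx]; ring
    · simp [abs_of_nonpos hx, hx]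
  rw [h, integral_sub ((integrable_g1_posPart 0).const_mul 2) integrable_g1_id, integral_const_mul,
    integral_posPart, ps_zero]
  simp

/-- `E g_+^3 = 2 ph 0` -/
lemma integral_posPart_cube : ∫ x, (max x 0) ^ 3 ∂(gaussianReal 0 1) = 2 * ph 0 := by
  have h : (fun x : ℝ => (max x 0) ^ 3) = (Ioi 0).indicator (fun x => x ^ 3) := by
    ext x
    by_cases hx : 0 < x
    · simp [hx, hx.le]
    · simp [hx, not_lt.1 hx]
  rw [h, integral_indicator measurableSet_Ioi, setIntegral_g1 _ measurableSet_Ioi]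
  have hlim : Tendsto (fun x : ℝ => -((x ^ 2 + 2) * ph x)) atTop (𝓝 (-0)) := by
    refine Tendsto.neg ?_
    have h1 : Tendsto (fun x : ℝ => x ^ 2 / 2) atTop atTop :=
      (tendsto_pow_atTop two_ne_zero).atTop_div_const (by norm_num)
    have h2 := ((Real.tendsto_pow_mul_exp_neg_atTop_nhds_zero 1).comp h1).const_mul (2 * ph 0)
    have h3 := h2.add (tendsto_ph_atTop.const_mul 2)
    simp only [mul_zero, add_zero] at h3
    refine h3.congr fun x => ?_
    simp only [Function.comp]
    rw [ph_eq_mul x, neg_div]; ring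
  have := integral_Ioi_of_hasDerivAt_of_tendsto' (f := fun x => -((x ^ 2 + 2) * ph x))
    (f' := fun x => ph x * x ^ 3) (a := 0) (m := -0) (fun x _ => by
      have := (((hasDerivAt_pow 2 x).add_const 2).mul (hasDerivAt_ph x)).neg
      refine this.congr_deriv (by simp; ring))
    (integrable_ph_mul (integrable_g1_pow 3)).integrableOn hlim
  rw [this]; simp

end Vale.Agent.P226
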