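import Vale.Agent.P226.Dual

/-! Critical configurations: existence, obtuse angles, affine independence. -/

open MeasureTheory ProbabilityTheory Set Filter Topology Real
open scoped RealInnerProductSpace

namespace Vale.Agent.P226

variable {E : Type*} [NormedAddCommGroup E] [InnerProductSpace ℝ E] [FiniteDimensional ℝ E]
  [MeasurableSpace E] [BorelSpace E]

/-- a configuration that is its own family of moments and beats the propeller -/
structure Crit {K : ℕ} (z : Fin K → E) : Prop where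
  inj : Function.Injective z
  cen : ∀ i, ∫ x in cell z i, x ∂(stdGaussian E) = z i
  big : (3 / 2 * ph 0) ^ 2 < ∑ i, ‖z i‖ ^ 2

lemma sum_sub_eq {n : ℕ} (j : Fin (n + 1)) (f : Fin (n + 1) → ℝ) :
    ∑ i : {i // i ≠ j}, f i = ∑ i, f i - f j := by
  rw [← Finset.add_sum_erase _ _ (Finset.mem_univ j), add_sub_cancel_left]
  exact (Finset.sum_subtype (Finset.univ.erase j) (by simp) f).symm

omit [BorelSpace E] in
lemma DualLe.erase {n : ℕ} (h : DualLe E n) (j : Fin (n + 1)) (v : Fin (n + 1) → E) :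
    hh (fun i : {i // i ≠ j} => v i) ≤ 3 / 2 * ph 0 * √(∑ i, ‖v i‖ ^ 2 - ‖v j‖ ^ 2) := by
  have := h {i // i ≠ j} (by simp) (fun i => v i)
  rwa [sum_sub_eq j (fun i => ‖v i‖ ^ 2)] at this

lemma DualLe.of_eq {n : ℕ} (h : DualLe E n) {i j : Fin (n + 1)} (hij : i ≠ j) (v : Fin (n + 1) → E)
    (hv : v i = v j) : hh v ≤ 3 / 2 * ph 0 * √(∑ i, ‖v i‖ ^ 2 - ‖v j‖ ^ 2) := by
  refine le_trans (hh_le_of_le fun x => mxf_le fun l => ?_) (h.erase j v)
  by_cases hl : l = j
  · rw [hl, ← hv]; exact le_mxf (fun i : {i // i ≠ j} => v i) x ⟨i, hij⟩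
  · exact le_mxf (fun i : {i // i ≠ j} => v i) x ⟨l, hl⟩

lemma exists_crit {n : ℕ} (h : DualLe E n) (v0 : Fin (n + 1) → E)
    (h0 : 3 / 2 * ph 0 * √(∑ i, ‖v0 i‖ ^ 2) < hh v0) : ∃ z : Fin (n + 1) → E, Crit z := by
  have hc : 0 < 3 / 2 * ph 0 := by have := ph_pos 0; positivity
  have norm1 : ∀ u : Fin (n + 1) → E, 0 < ∑ i, ‖u i‖ ^ 2 →
      ∑ i, ‖(√(∑ i, ‖u i‖ ^ 2))⁻¹ • u i‖ ^ 2 = 1 := fun u hu => by
    simp_rw [norm_smul, mul_pow, ← Finset.mul_sum, Real.norm_eq_abs, sq_abs, inv_pow,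
      Real.sq_sqrt hu.le]
    exact inv_mul_cancel₀ hu.ne'
  have zero : ∀ u : Fin (n + 1) → E, ¬ 0 < ∑ i, ‖u i‖ ^ 2 → hh u = 0 := fun u hu => by
    have h1 : ∑ i, ‖u i‖ ^ 2 = 0 :=
      le_antisymm (not_lt.1 hu) (Finset.sum_nonneg fun i _ => sq_nonneg _)
    have h2 : ∀ i, u i = 0 := fun i => by
      simpa using (Finset.sum_eq_zero_iff_of_nonneg fun i _ => sq_nonneg _).1 h1 i (Finset.mem_univ i)
    simp [hh, mxf, h2]
  have hS0 : 0 < ∑ i, ‖v0 i‖ ^ 2 := by
    by_contra hn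
    rw [zero v0 hn] at h0
    have := Real.sqrt_nonneg (∑ i, ‖v0 i‖ ^ 2)
    nlinarith
  have hK : IsCompact {v : Fin (n + 1) → E | ∑ i, ‖v i‖ ^ 2 = 1} := by
    refine Metric.isCompact_of_isClosed_isBounded (isClosed_eq (by fun_prop) continuous_const) ?_
    refine (Metric.isBounded_closedBall (x := 0) (r := 1)).subset fun v hv => ?_
    rw [mem_closedBall_zero_iff, pi_norm_le_iff_of_nonneg zero_le_one]
    intro i
    have : ‖v i‖ ^ 2 ≤ 1 := hv ▸ Finset.single_le_sum (f := fun i => ‖v i‖ ^ 2)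
      (fun i _ => sq_nonneg _) (Finset.mem_univ i)
    nlinarith [norm_nonneg (v i)]
  obtain ⟨v, hv, hmax⟩ := hK.exists_isMaxOn ⟨_, norm1 v0 hS0⟩ continuous_hh.continuousOn
  have hv : ∑ i, ‖v i‖ ^ 2 = 1 := hv
  have hall : ∀ u : Fin (n + 1) → E, hh u ≤ hh v * √(∑ i, ‖u i‖ ^ 2) := fun u => by
    by_cases hu : 0 < ∑ i, ‖u i‖ ^ 2
    · have h1 : hh (fun i => (√(∑ i, ‖u i‖ ^ 2))⁻¹ • u i) ≤ hh v := hmax (norm1 u hu)
      have h2 := Real.sqrt_pos.2 hu
      rwa [hh_smul _ (inv_nonneg.2 h2.le), inv_mul_le_iff₀ h2, mul_comm] at h1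
    · rw [zero u hu, Real.sqrt_eq_zero'.2 (not_lt.1 hu), mul_zero]
  have hl : 3 / 2 * ph 0 < hh v :=
    lt_of_mul_lt_mul_right (h0.trans_le (hall v0)) (Real.sqrt_nonneg _)
  have hinj : Function.Injective v := fun i j hij => by
    by_contra hne
    have h1 := h.of_eq hne v hij
    have h2 : √(∑ i, ‖v i‖ ^ 2 - ‖v j‖ ^ 2) ≤ 1 :=
      Real.sqrt_le_iff.2 ⟨zero_le_one, by linarith [sq_nonneg ‖v j‖]⟩
    nlinarith
  set z : Fin (n + 1) → E := fun i => ∫ x in cell v i, x ∂(stdGaussian E) with hz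
  have e1 : hh v = ∑ i, ⟪z i, v i⟫ := hh_eq_sum hinj
  have e2 : ∑ i, ‖z i‖ ^ 2 ≤ hh v * √(∑ i, ‖z i‖ ^ 2) := by
    refine le_trans ?_ (hall z)
    simp_rw [← real_inner_self_eq_norm_sq]
    exact (isPart_cell hinj).sum_inner_le z
  have hZ : 0 ≤ ∑ i, ‖z i‖ ^ 2 := Finset.sum_nonneg fun i _ => sq_nonneg _
  have e3 : ∑ i, ‖z i‖ ^ 2 ≤ hh v ^ 2 := by
    nlinarith [Real.sq_sqrt hZ, sq_nonneg (hh v - √(∑ i, ‖z i‖ ^ 2))]
  have e4 : ∑ i, ‖z i - hh v • v i‖ ^ 2 ≤ 0 := by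
    simp_rw [@norm_sub_sq_real E, real_inner_smul_right, norm_smul, mul_pow, Real.norm_eq_abs, sq_abs]
    rw [Finset.sum_add_distrib, Finset.sum_sub_distrib, ← Finset.mul_sum, ← Finset.mul_sum,
      ← Finset.mul_sum, ← e1, hv]
    nlinarith
  have e5 : ∀ i, z i = hh v • v i := fun i => by
    have := (Finset.sum_eq_zero_iff_of_nonneg fun i _ => sq_nonneg _).1
      (le_antisymm e4 (Finset.sum_nonneg fun i _ => sq_nonneg _)) i (Finset.mem_univ i)
    simpa [sub_eq_zero] using this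
  have hp : 0 < hh v := hc.trans hl
  have e6 : ∀ i, cell z i = cell v i := fun i => by
    ext x
    simp only [cell, mem_ofPred_eq, e5, real_inner_smul_right, mul_le_mul_iff_right₀ hp]
  refine ⟨z, fun i j hij => hinj ?_, fun i => by rw [e6], ?_⟩
  · rw [e5, e5] at hij
    exact smul_right_injective E hp.ne' hij
  · simp_rw [e5, norm_smul, mul_pow, ← Finset.mul_sum, hv, Real.norm_eq_abs, sq_abs]
    nlinarith

variable {n : ℕ} {z : Fin (n + 1) → E}

lemma Crit.hh_eq (h : Crit z) : hh z = ∑ i, ‖z i‖ ^ 2 := by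
  rw [hh_eq_sum h.inj]
  simp_rw [h.cen, real_inner_self_eq_norm_sq]

lemma Crit.sum_zero (h : Crit z) : ∑ i, z i = 0 := by
  have := (isPart_cell h.inj).integral_eq (integrable_id_std (E := E))
  simp_rw [h.cen] at this
  rw [← this, integral_id_stdGaussian]

lemma Crit.sum_inner (h : Crit z) (x : E) : ∑ i, ⟪x, z i⟫ = 0 := by
  rw [← inner_sum, h.sum_zero, inner_zero_right]

lemma Crit.neg (h : Crit z) (hd : DualLe E n) {i j : Fin (n + 1)} (hij : i ≠ j) :
    ⟪z i, z j⟫ < 0 := by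
  classical
  set u : Fin (n + 1) → E := fun l => if l = i ∨ l = j then z i + z j else z l with hu
  have ui : u i = z i + z j := by simp [hu]
  have uj : u j = z i + z j := by simp [hu]
  have split : ∀ f g : Fin (n + 1) → ℝ, (∀ l, l ≠ i → l ≠ j → f l = g l) →
      ∑ l, f l = ∑ l, g l + (f i - g i) + (f j - g j) := fun f g hfg => by
    have : ∑ l, (f l - g l) = ∑ l ∈ {i, j}, (f l - g l) :=
      (Finset.sum_subset (Finset.subset_univ _) fun l _ hl => by
        simp only [Finset.mem_insert, Finset.mem_singleton, not_or] at hl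
        rw [hfg l hl.1 hl.2, sub_self]).symm
    rw [Finset.sum_pair hij, Finset.sum_sub_distrib] at this
    linarith
  have a1 := (isPart_cell h.inj).sum_inner_le u
  simp_rw [h.cen] at a1
  rw [split (fun l => ⟪z l, u l⟫) (fun l => ‖z l‖ ^ 2) (fun l h1 h2 => by
    simp [hu, h1, h2])] at a1
  have a2 := hd.of_eq hij u (ui.trans uj.symm)
  rw [split (fun l => ‖u l‖ ^ 2) (fun l => ‖z l‖ ^ 2) (fun l h1 h2 => by simp [hu, h1, h2])] at a2
  simp only [ui, uj, inner_add_right, real_inner_self_eq_norm_sq, @norm_add_sq_real E,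
    real_inner_comm (z i) (z j)] at a1 a2
  have hb := h.big
  generalize ∑ l, ‖z l‖ ^ 2 = F at *
  by_contra hn
  have hn := not_lt.1 hn
  have hc : 0 < 3 / 2 * ph 0 := by have := ph_pos 0; positivity
  have a3 : F + 2 * ⟪z i, z j⟫ ≤ 3 / 2 * ph 0 * √(F + 2 * ⟪z i, z j⟫) := by
    refine le_trans (le_of_eq (by ring)) (a1.trans (a2.trans_eq ?_))
    congr 2; ring
  have a4 : 0 ≤ F + 2 * ⟪z i, z j⟫ := by nlinarith
  nlinarith [Real.sq_sqrt a4, sq_nonneg (√(F + 2 * ⟪z i, z j⟫) - 3 / 2 * ph 0)]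

lemma Crit.norm_sq_eq (h : Crit z) (i : Fin (n + 1)) :
    ‖z i‖ ^ 2 = ∑ l ∈ Finset.univ.erase i, -⟪z i, z l⟫ := by
  have := h.sum_inner (z i)
  rw [← Finset.add_sum_erase _ _ (Finset.mem_univ i), real_inner_self_eq_norm_sq] at this
  rw [Finset.sum_neg_distrib]; linarith

lemma Crit.indep (h : Crit z) (hd : DualLe E n) (a : Fin (n + 1) → ℝ) (ha : ∑ l, a l • z l = 0)
    (l m : Fin (n + 1)) : a l = a m := by
  obtain ⟨p, hp⟩ := Finite.exists_max a
  suffices hs : ∀ l, a l = a p by rw [hs l, hs m]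
  have e1 : ∑ l, (a p - a l) * -⟪z p, z l⟫ = 0 := by
    have h1 : ∑ l, a l * ⟪z p, z l⟫ = 0 := by
      simp_rw [← real_inner_smul_right]
      rw [← inner_sum, ha, inner_zero_right]
    simp_rw [mul_neg, sub_mul]
    rw [Finset.sum_neg_distrib, Finset.sum_sub_distrib, ← Finset.mul_sum, h.sum_inner, h1]; simp
  have nn : ∀ l ∈ Finset.univ, 0 ≤ (a p - a l) * -⟪z p, z l⟫ := fun l _ => by
    by_cases hl : p = l
    · simp [hl]
    · exact mul_nonneg (sub_nonneg.2 (hp l)) (neg_nonneg.2 (h.neg hd hl).le)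
  intro l
  by_cases hl : p = l
  · rw [hl]
  · have := (Finset.sum_eq_zero_iff_of_nonneg nn).1 e1 l (Finset.mem_univ l)
    rcases mul_eq_zero.1 this with h1 | h1
    · linarith
    · linarith [h.neg hd hl]

lemma Crit.exists_dual (h : Crit z) (hd : DualLe E n) (i : Fin (n + 1)) (θ : Fin (n + 1) → ℝ) :
    ∃ b : E, (∀ m, m ≠ i → ⟪b, z i - z m⟫ = θ m) ∧
      ⟪b, z i⟫ = (∑ m ∈ Finset.univ.erase i, θ m) / (n + 1) := by
  classical
  have li : LinearIndependent ℝ (fun m : {m // m ≠ i} => z i - z m) := by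
    rw [Fintype.linearIndependent_iff]
    intro g hg m
    set a : Fin (n + 1) → ℝ := fun l => if hl : l = i then ∑ m, g m else -g ⟨l, hl⟩ with ha
    have sp : ∀ {M : Type _} [AddCommGroup M] (f : Fin (n + 1) → M),
        ∑ l, f l = f i + ∑ m : {m // m ≠ i}, f m := fun f => by
      rw [← Finset.add_sum_erase _ _ (Finset.mem_univ i)]
      rw [Finset.sum_subtype (Finset.univ.erase i) (p := fun m => m ≠ i) (by simp) f]
    have am : ∀ m : {m // m ≠ i}, a m = -g m := fun m => by simp [ha, m.2]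
    have ai : a i = ∑ m, g m := by simp [ha]
    have e1 : ∑ l, a l • z l = 0 := by
      rw [sp, ← hg, ai, Finset.sum_smul, ← Finset.sum_add_distrib]
      exact Finset.sum_congr rfl fun m _ => by rw [am, smul_sub, neg_smul, sub_eq_add_neg]
    have e2 : ∑ l, a l = 0 := by
      rw [← Finset.add_sum_erase _ _ (Finset.mem_univ i),
        Finset.sum_subtype (Finset.univ.erase i) (p := fun m => m ≠ i) (by simp) a, ai,
        ← Finset.sum_add_distrib]
      exact Finset.sum_eq_zero fun m _ => by rw [am, add_neg_cancel]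
    have e3 : ∑ l, a l = ∑ _l : Fin (n + 1), a m := Finset.sum_congr rfl fun l _ => h.indep hd a e1 l m
    rw [e2, Finset.sum_const, Finset.card_univ, Fintype.card_fin, nsmul_eq_mul, am] at e3
    have : ((n + 1 : ℕ) : ℝ) ≠ 0 := by positivity
    simpa using (mul_eq_zero.1 e3.symm).resolve_left this
  obtain ⟨g, hg⟩ := LinearMap.exists_extend ((Module.Basis.span li).constr ℝ fun m => θ m)
  refine ⟨(InnerProductSpace.toDual ℝ E).symm (LinearMap.toContinuousLinearMap g), ?_⟩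
  have hb : ∀ m, m ≠ i → ⟪(InnerProductSpace.toDual ℝ E).symm (LinearMap.toContinuousLinearMap g),
      z i - z m⟫ = θ m := fun m hm => by
    rw [InnerProductSpace.toDual_symm_apply]
    have h1 := LinearMap.congr_fun hg (Module.Basis.span li ⟨m, hm⟩)
    rw [Module.Basis.constr_basis] at h1
    simpa using h1
  refine ⟨hb, ?_⟩
  generalize (InnerProductSpace.toDual ℝ E).symm (LinearMap.toContinuousLinearMap g) = b at hb
  have e1 : ∑ m ∈ Finset.univ.erase i, θ m = ∑ m, ⟪b, z i - z m⟫ := by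
    rw [← Finset.add_sum_erase _ _ (Finset.mem_univ i), sub_self, inner_zero_right, zero_add]
    exact Finset.sum_congr rfl fun m hm => (hb m (Finset.ne_of_mem_erase hm)).symm
  rw [e1]
  simp_rw [inner_sub_right]
  rw [Finset.sum_sub_distrib, h.sum_inner, Finset.sum_const, Finset.card_univ, Fintype.card_fin,
    nsmul_eq_mul]
  push_cast
  field_simp
  ring

end Vale.Agent.P226
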