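import Vale.Agent.P226.Tools

/-! The dual functional `hh v = E max_i ⟪x, v i⟫`, partitions, and the case of three vectors. -/

open MeasureTheory ProbabilityTheory Set Filter Topology Real
open scoped RealInnerProductSpace

namespace Vale.Agent.P226

section pointwise

variable {E : Type*} [NormedAddCommGroup E] [InnerProductSpace ℝ E] {ι : Type*} [Fintype ι]

/-- pointwise maximum of the linear forms -/
noncomputable def mxf (v : ι → E) (x : E) : ℝ := ⨆ i, ⟪x, v i⟫

lemma le_mxf (v : ι → E) (x : E) (i : ι) : ⟪x, v i⟫ ≤ mxf v x :=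
  le_ciSup (f := fun i => ⟪x, v i⟫) (Finite.bddAbove_range _) i

omit [Fintype ι] in
lemma mxf_le [Nonempty ι] {v : ι → E} {x : E} {c : ℝ} (h : ∀ i, ⟪x, v i⟫ ≤ c) : mxf v x ≤ c :=
  ciSup_le h

lemma exists_mxf [Nonempty ι] (v : ι → E) (x : E) : ∃ i, ⟪x, v i⟫ = mxf v x :=
  exists_eq_ciSup_of_finite (f := fun i => ⟪x, v i⟫)

omit [Fintype ι] in
lemma mxf_empty [IsEmpty ι] (v : ι → E) (x : E) : mxf v x = 0 := by simp [mxf]

lemma mxf_sub_le [Nonempty ι] (v w : ι → E) (x y : E) {c : ℝ}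
    (h : ∀ i, ⟪x, v i⟫ ≤ ⟪y, w i⟫ + c) : mxf v x ≤ mxf w y + c :=
  mxf_le fun i => (h i).trans (by linarith [le_mxf w y i])

lemma mxf_eq_add [Nonempty ι] (v w : ι → E) (x y : E) {c : ℝ}
    (h : ∀ i, ⟪x, v i⟫ = ⟪y, w i⟫ + c) : mxf v x = mxf w y + c := by
  have h1 := mxf_sub_le v w x y fun i => (h i).le
  have h2 := mxf_sub_le w v y x (c := -c) fun i => by linarith [h i]
  linarith

lemma lipschitz_mxf (v : ι → E) : LipschitzWith (∑ i, ‖v i‖₊) (mxf v) := by
  rcases isEmpty_or_nonempty ι with h | h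
  · exact LipschitzWith.of_dist_le_mul fun x y => by simp [mxf_empty]
  refine LipschitzWith.of_le_add_mul _ fun x y => mxf_sub_le v v x y fun i => ?_
  have h1 : ⟪x - y, v i⟫ ≤ ‖x - y‖ * ‖v i‖ := real_inner_le_norm _ _
  have h2 : ‖v i‖ ≤ ∑ i, ‖v i‖ :=
    Finset.single_le_sum (f := fun i => ‖v i‖) (fun i _ => norm_nonneg _) (Finset.mem_univ i)
  rw [inner_sub_left] at h1
  rw [dist_eq_norm]
  push_cast
  nlinarith [norm_nonneg (x - y)]

@[fun_prop] lemma continuous_mxf (v : ι → E) : Continuous (mxf v) := (lipschitz_mxf v).continuous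

lemma mxf_smul [Nonempty ι] (v : ι → E) (x : E) {t : ℝ} (ht : 0 ≤ t) :
    mxf (fun i => t • v i) x = t * mxf v x := by
  obtain ⟨i, hi⟩ := exists_mxf v x
  refine le_antisymm (mxf_le fun j => ?_) ?_
  · rw [real_inner_smul_right]; exact mul_le_mul_of_nonneg_left (le_mxf v x j) ht
  · rw [← hi, ← real_inner_smul_right]; exact le_mxf (fun i => t • v i) x i

lemma convexOn_mxf [Nonempty ι] (v : ι → E) : ConvexOn ℝ univ (mxf v) := by
  refine ⟨convex_univ, fun x _ y _ a b ha hb _ => mxf_le fun i => ?_⟩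
  rw [inner_add_left, real_inner_smul_left, real_inner_smul_left, smul_eq_mul, smul_eq_mul]
  exact add_le_add (mul_le_mul_of_nonneg_left (le_mxf v x i) ha)
    (mul_le_mul_of_nonneg_left (le_mxf v y i) hb)

/-- the cell of the `i`-th vector -/
def cell (v : ι → E) (i : ι) : Set E := {x | ∀ m, ⟪x, v m⟫ ≤ ⟪x, v i⟫}

omit [Fintype ι] in
lemma isClosed_cell (v : ι → E) (i : ι) : IsClosed (cell v i) := by
  unfold cell
  rw [ofPred_forall]
  exact isClosed_iInter fun m => isClosed_le (by fun_prop) (by fun_prop)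

lemma iUnion_cell [Nonempty ι] (v : ι → E) : ⋃ i, cell v i = univ := by
  refine eq_univ_of_forall fun x => ?_
  obtain ⟨i, hi⟩ := exists_mxf v x
  exact mem_iUnion.2 ⟨i, fun m => hi ▸ le_mxf v x m⟩

lemma mxf_of_mem_cell {v : ι → E} {i : ι} {x : E} (h : x ∈ cell v i) : mxf v x = ⟪x, v i⟫ := by
  have : Nonempty ι := ⟨i⟩
  exact le_antisymm (mxf_le h) (le_mxf v x i)

end pointwise

variable {E : Type*} [NormedAddCommGroup E] [InnerProductSpace ℝ E] [FiniteDimensional ℝ E]
  [MeasurableSpace E] [BorelSpace E] {ι : Type*} [Fintype ι]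

lemma integrable_lip {f : E → ℝ} {L : NNReal} (hf : LipschitzWith L f) :
    Integrable f (stdGaussian E) := by
  refine ((integrable_const |f 0|).add (integrable_id_std.norm.const_mul L)).mono'
    hf.continuous.aestronglyMeasurable (Eventually.of_forall fun x => ?_)
  have := hf.dist_le_mul x 0
  rw [dist_zero_right, Real.dist_eq] at this
  have h2 := abs_sub_abs_le_abs_sub (f x) (f 0)
  simp only [Real.norm_eq_abs, Pi.add_apply]
  linarith

lemma integrable_mxf (v : ι → E) : Integrable (mxf v) (stdGaussian E) :=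
  integrable_lip (lipschitz_mxf v)

/-- the dual functional -/
noncomputable def hh (v : ι → E) : ℝ := ∫ x, mxf v x ∂(stdGaussian E)

omit [BorelSpace E] in
lemma hh_smul [Nonempty ι] (v : ι → E) {t : ℝ} (ht : 0 ≤ t) : hh (fun i => t • v i) = t * hh v := by
  unfold hh
  simp_rw [mxf_smul v _ ht]
  exact integral_const_mul _ _

lemma hh_add_const [Nonempty ι] (v : ι → E) (w : E) : hh (fun i => v i + w) = hh v := by
  unfold hh
  have : ∀ x, mxf (fun i => v i + w) x = mxf v x + ⟪x, w⟫ := fun x =>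
    mxf_eq_add _ _ _ _ fun i => inner_add_right _ _ _
  simp_rw [this]
  rw [integral_add (integrable_mxf v) (integrable_inner w), integral_inner_std, add_zero]

lemma hh_le_of_le {κ : Type*} [Fintype κ] {v : ι → E} {w : κ → E} (h : ∀ x, mxf v x ≤ mxf w x) :
    hh v ≤ hh w := integral_mono (integrable_mxf v) (integrable_mxf w) h

lemma continuous_hh [Nonempty ι] : Continuous (hh : (ι → E) → ℝ) := by
  have key : ∀ v w : ι → E, hh v ≤ hh w + (∫ x, ‖x‖ ∂(stdGaussian E)) * dist v w := by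
    intro v w
    unfold hh
    rw [← integral_mul_const, ← integral_add (integrable_mxf w) (integrable_id_std.norm.mul_const _)]
    refine integral_mono (integrable_mxf v)
      ((integrable_mxf w).add (integrable_id_std.norm.mul_const _)) fun x => ?_
    refine mxf_sub_le v w x x fun i => ?_
    have h1 : ⟪x, v i - w i⟫ ≤ ‖x‖ * ‖v i - w i‖ := real_inner_le_norm _ _
    have h2 : ‖v i - w i‖ ≤ dist v w := by rw [← dist_eq_norm]; exact dist_le_pi_dist v w i
    rw [inner_sub_right] at h1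
    nlinarith [norm_nonneg x]
  have h0 : 0 ≤ ∫ x, ‖x‖ ∂(stdGaussian E) := integral_nonneg fun x => norm_nonneg x
  exact (LipschitzWith.of_le_add_mul ⟨_, h0⟩ key).continuous

/-- partitions up to null sets -/
structure IsPart (A : ι → Set E) : Prop where
  meas : ∀ i, NullMeasurableSet (A i) (stdGaussian E)
  disj : Pairwise (Function.onFun (AEDisjoint (stdGaussian E)) A)
  cover : ∀ᵐ x ∂(stdGaussian E), x ∈ ⋃ i, A i

omit [BorelSpace E] in
lemma IsPart.integral_eq {A : ι → Set E} (h : IsPart A) {F : Type*} [NormedAddCommGroup F]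
    [NormedSpace ℝ F] {f : E → F} (hf : Integrable f (stdGaussian E)) :
    ∫ x, f x ∂(stdGaussian E) = ∑ i, ∫ x in A i, f x ∂(stdGaussian E) := by
  rw [← tsum_fintype (L := SummationFilter.unconditional ι),
    ← integral_iUnion_ae h.meas h.disj hf.integrableOn, Measure.restrict_eq_self_of_ae_mem h.cover]

lemma IsPart.sum_inner_le {A : ι → Set E} (h : IsPart A) (u : ι → E) :
    ∑ i, ⟪∫ x in A i, x ∂(stdGaussian E), u i⟫ ≤ hh u := by
  unfold hh
  rw [h.integral_eq (integrable_mxf u)]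
  refine Finset.sum_le_sum fun i _ => ?_
  rw [← setIntegral_inner]
  exact integral_mono (integrable_inner _).integrableOn (integrable_mxf u).integrableOn
    fun x => le_mxf u x i

lemma isPart_cell [Nonempty ι] {v : ι → E} (hv : Function.Injective v) : IsPart (cell v) where
  meas i := (isClosed_cell v i).measurableSet.nullMeasurableSet
  disj i j hij := by
    refine measure_mono_null (fun x hx => ?_) (measure_hyperplane (sub_ne_zero.2 (hv.ne hij)) 0)
    simp only [mem_ofPred_eq, inner_sub_right]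
    linarith [hx.1 j, hx.2 i]
  cover := by simp [iUnion_cell]

lemma hh_eq_sum [Nonempty ι] {v : ι → E} (hv : Function.Injective v) :
    hh v = ∑ i, ⟪∫ x in cell v i, x ∂(stdGaussian E), v i⟫ := by
  unfold hh
  rw [(isPart_cell hv).integral_eq (integrable_mxf v)]
  refine Finset.sum_congr rfl fun i _ => ?_
  rw [← setIntegral_inner]
  exact setIntegral_congr_fun (isClosed_cell v i).measurableSet fun x hx => mxf_of_mem_cell hx

lemma integral_neg_std {f : E → ℝ} (hf : Continuous f) :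
    ∫ x, f (-x) ∂(stdGaussian E) = ∫ x, f x ∂(stdGaussian E) := by
  have h := stdGaussian_map (E := E) (LinearIsometryEquiv.neg ℝ)
  conv_rhs => rw [← h]
  rw [integral_map (LinearIsometryEquiv.neg ℝ).continuous.aemeasurable hf.aestronglyMeasurable]
  rfl

lemma integral_max3 (a b c : E) :
    ∫ x, max (max ⟪x, a⟫ ⟪x, b⟫) ⟪x, c⟫ ∂(stdGaussian E) =
      ph 0 * (‖a - b‖ + ‖b - c‖ + ‖c - a‖) / 2 := by
  have hi : Integrable (fun x => max (max ⟪x, a⟫ ⟪x, b⟫) ⟪x, c⟫) (stdGaussian E) :=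
    ((integrable_inner a).sup (integrable_inner b)).sup (integrable_inner c)
  have hi' : Integrable (fun x => max (max ⟪-x, a⟫ ⟪-x, b⟫) ⟪-x, c⟫) (stdGaussian E) := by
    simp_rw [inner_neg_left]
    exact ((integrable_inner a).neg.sup (integrable_inner b).neg).sup (integrable_inner c).neg
  have h1 := integral_neg_std (E := E) (f := fun x => max (max ⟪x, a⟫ ⟪x, b⟫) ⟪x, c⟫) (by fun_prop)
  have h2 : ∀ x : E, max (max ⟪x, a⟫ ⟪x, b⟫) ⟪x, c⟫ + max (max ⟪-x, a⟫ ⟪-x, b⟫) ⟪-x, c⟫ =
      (|⟪x, a - b⟫| + |⟪x, b - c⟫| + |⟪x, c - a⟫|) / 2 := by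
    intro x
    simp only [inner_neg_left, inner_sub_right]
    generalize ⟪x, a⟫ = A
    generalize ⟪x, b⟫ = B
    generalize ⟪x, c⟫ = C
    simp only [max_def, abs]
    split_ifs <;> linarith
  have h3 := integral_add hi hi'
  simp_rw [h2] at h3
  have h4 : Integrable (fun x : E => |⟪x, a - b⟫| + |⟪x, b - c⟫|) (stdGaussian E) :=
    (integrable_inner _).abs.add (integrable_inner _).abs
  rw [h1, integral_div, integral_add h4
    (integrable_inner _).abs, integral_add (integrable_inner _).abs (integrable_inner _).abs,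
    integral_abs_inner, integral_abs_inner, integral_abs_inner] at h3
  linarith

omit [FiniteDimensional ℝ E] [MeasurableSpace E] [BorelSpace E] in
lemma perim_sq (a b c : E) : ‖a - b‖ ^ 2 + ‖b - c‖ ^ 2 + ‖c - a‖ ^ 2 =
    3 * (‖a‖ ^ 2 + ‖b‖ ^ 2 + ‖c‖ ^ 2) - ‖a + b + c‖ ^ 2 := by
  simp only [← real_inner_self_eq_norm_sq, inner_add_left, inner_add_right, inner_sub_left,
    inner_sub_right, real_inner_comm a b, real_inner_comm a c, real_inner_comm b c]
  ring

variable (E) in
/-- the dual inequality for at most `k` vectors -/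
def DualLe (k : ℕ) : Prop := ∀ (κ : Type) [Fintype κ], Fintype.card κ ≤ k → ∀ v : κ → E,
  hh v ≤ 3 / 2 * ph 0 * √(∑ i, ‖v i‖ ^ 2)

lemma dualLe_of_fin {k : ℕ} (h : ∀ v : Fin k → E, hh v ≤ 3 / 2 * ph 0 * √(∑ i, ‖v i‖ ^ 2)) :
    DualLe E k := by
  intro κ _ hk v
  rcases isEmpty_or_nonempty κ with he | he
  · simp [hh, mxf_empty]
  obtain ⟨e⟩ : Nonempty (κ ↪ Fin k) := Function.Embedding.nonempty_of_card_le (by simpa using hk)
  have h1 : ∀ i, Function.extend e v 0 (e i) = v i := fun i => e.injective.extend_apply _ _ i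
  have h2 : ∑ i, ‖v i‖ ^ 2 = ∑ j, ‖Function.extend e v 0 j‖ ^ 2 :=
    Fintype.sum_of_injective e e.injective _ _ (fun j hj => by
      rw [Function.extend_apply' _ _ _ (by simpa using hj)]; simp) fun i => by rw [h1]
  rw [h2]
  refine le_trans (hh_le_of_le fun x => mxf_le fun i => ?_) (h _)
  rw [← h1]; exact le_mxf _ x (e i)

lemma dualLe_three : DualLe E 3 := by
  refine dualLe_of_fin fun v => ?_
  have h1 : hh v ≤ ph 0 * (‖v 0 - v 1‖ + ‖v 1 - v 2‖ + ‖v 2 - v 0‖) / 2 := by
    rw [← integral_max3]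
    refine integral_mono (integrable_mxf v)
      (((integrable_inner _).sup (integrable_inner _)).sup (integrable_inner _)) fun x => ?_
    refine mxf_le fun i => ?_
    fin_cases i <;> simp
  have h2 : (‖v 0 - v 1‖ + ‖v 1 - v 2‖ + ‖v 2 - v 0‖) / 3 ≤ √(∑ i, ‖v i‖ ^ 2) := by
    refine Real.le_sqrt_of_sq_le ?_
    rw [Fin.sum_univ_three]
    nlinarith [perim_sq (v 0) (v 1) (v 2), sq_nonneg ‖v 0 + v 1 + v 2‖,
      sq_nonneg (‖v 0 - v 1‖ - ‖v 1 - v 2‖), sq_nonneg (‖v 1 - v 2‖ - ‖v 2 - v 0‖),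
      sq_nonneg (‖v 2 - v 0‖ - ‖v 0 - v 1‖)]
  nlinarith [ph_pos 0]

end Vale.Agent.P226
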