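import Mathlib

/-! The penalised maximum principle behind the Ehrhard inequality. -/

open Set Filter Topology

namespace Vale.Agent.P226

lemma deriv_nonpos_of_left_min {h : ℝ → ℝ} {h' s : ℝ} (hs : 0 < s) (hd : HasDerivAt h h' s)
    (hm : ∀ r, 0 ≤ r → r ≤ s → h s ≤ h r) : h' ≤ 0 := by
  have h1 : Tendsto (slope h s) (𝓝[<] s) (𝓝 h') :=
    (hasDerivAt_iff_tendsto_slope.1 hd).mono_left (nhdsWithin_mono _ fun x hx => ne_of_lt hx)
  refine le_of_tendsto h1 ?_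
  filter_upwards [Ioo_mem_nhdsLT hs] with r hr
  rw [slope_def_field]
  exact div_nonpos_of_nonneg_of_nonpos (by linarith [hm r hr.1.le hr.2.le]) (by linarith [hr.2])

lemma second_deriv_nonneg {g g' : ℝ → ℝ} {q : ℝ} (hg : ∀ r, HasDerivAt g (g' r) r)
    (hg' : HasDerivAt g' q 0) (hm : ∀ r, g 0 ≤ g r) : 0 ≤ q := by
  have h0 : g' 0 = 0 := (IsLocalMin.hasDerivAt_eq_zero (Eventually.of_forall hm) (hg 0))
  by_contra hq
  have h1 : Tendsto (slope g' 0) (𝓝[>] 0) (𝓝 q) :=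
    (hasDerivAt_iff_tendsto_slope.1 hg').mono_left (nhdsWithin_mono _ fun x hx => ne_of_gt hx)
  obtain ⟨u, hu, hsub⟩ := (nhdsGT_basis (0 : ℝ)).eventually_iff.1
    (h1.eventually (gt_mem_nhds (not_le.1 hq)))
  obtain ⟨c, hc, he⟩ := exists_hasDerivAt_eq_slope g g' (show (0 : ℝ) < u / 2 by linarith)
    (fun x _ => (hg x).continuousAt.continuousWithinAt) (fun x _ => hg x)
  have h2 := hsub (show c ∈ Ioo 0 u from ⟨hc.1, by linarith [hc.2]⟩)
  rw [slope_def_field, h0, sub_zero, sub_zero, he] at h2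
  have h3 : 0 ≤ (g (u / 2) - g 0) / (u / 2 - 0) / c :=
    div_nonneg (div_nonneg (by linarith [hm (u / 2)]) (by linarith)) hc.1.le
  linarith

/-- a solution of the transformed heat equation -/
structure Heat (L : ℝ) (w p q : ℝ → ℝ → ℝ) : Prop where
  cont : Continuous (fun z : ℝ × ℝ => w z.1 z.2)
  lip : ∀ s x y, |w s x - w s y| ≤ L * |x - y|
  dx : ∀ s, 0 < s → ∀ x, HasDerivAt (w s) (p s x) x
  dxx : ∀ s, 0 < s → ∀ x, HasDerivAt (p s) (q s x) x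
  ds : ∀ s, 0 < s → ∀ x, HasDerivAt (fun r => w r x) (s * (q s x - w s x * p s x ^ 2)) s

lemma Heat.p_le {L : ℝ} {w p q : ℝ → ℝ → ℝ} (h : Heat L w p q) (hL : 0 ≤ L) {s : ℝ} (hs : 0 < s)
    (x : ℝ) : |p s x| ≤ L :=
  (h.dx s hs x).le_of_lip' hL (Eventually.of_forall fun y => h.lip s y x)

lemma Heat.bound {L : ℝ} {w p q : ℝ → ℝ → ℝ} (h : Heat L w p q) :
    ∃ A, 0 ≤ A ∧ ∀ s ∈ Icc (0 : ℝ) 1, ∀ x, |w s x| ≤ A + L * |x| := by
  obtain ⟨A, hA⟩ := (isCompact_Icc (a := (0 : ℝ)) (b := 1)).exists_bound_of_continuousOn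
    (f := fun s => w s 0) (h.cont.comp (continuous_id.prodMk continuous_const)).continuousOn
  refine ⟨A, (norm_nonneg _).trans (hA 0 (by simp)), fun s hs x => ?_⟩
  have h1 := h.lip s x 0
  have h2 := hA s hs
  rw [Real.norm_eq_abs] at h2
  rw [sub_zero] at h1
  have := abs_sub_abs_le_abs_sub (w s x) (w s 0)
  linarith

lemma pen_arith {w p p0 l e x A L : ℝ} (hA : 0 ≤ A) (hL : 0 ≤ L) (he : 0 ≤ e)
    (hw : |w| ≤ A + L * |x|) (hp : |p| ≤ L) (hp0 : |p0| ≤ L) (h : l * p - l * p0 + 2 * e * x = 0) :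
    |l * w * (p0 ^ 2 - p ^ 2)| ≤ e * (2 * L * A * (1 + x ^ 2) + 4 * L ^ 2 * x ^ 2) := by
  have e1 : l * w * (p0 ^ 2 - p ^ 2) = w * (2 * e * x) * (p0 + p) := by
    have : 2 * e * x = l * p0 - l * p := by linarith
    rw [this]; ring
  have h1 : |p0 + p| ≤ 2 * L := (abs_add_le _ _).trans (by linarith)
  rw [e1, abs_mul, abs_mul, abs_mul, abs_of_nonneg (by positivity : 0 ≤ 2 * e)]
  have h2 : 2 * |x| ≤ 1 + x ^ 2 := by rw [← sq_abs x]; nlinarith [sq_nonneg (|x| - 1)]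
  calc |w| * (2 * e * |x|) * |p0 + p| ≤ (A + L * |x|) * (2 * e * |x|) * (2 * L) := by gcongr
    _ = e * (2 * L * A * (2 * |x|) + 4 * L ^ 2 * |x| ^ 2) := by ring
    _ ≤ _ := by rw [sq_abs]; gcongr

/-- the penalised difference -/
noncomputable def pen (l ε K : ℝ) (w w0 w1 : ℝ → ℝ → ℝ) (s x y : ℝ) : ℝ :=
  w s (l * x + (1 - l) * y) - l * w0 s x - (1 - l) * w1 s y
    + ε * Real.exp (K * s) * (1 + x ^ 2 + y ^ 2)

lemma pen_far {L A l ε K s x y : ℝ} {w w0 w1 : ℝ → ℝ → ℝ} (hL : 0 ≤ L) (hA : 0 ≤ A) (hl0 : 0 ≤ l)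
    (hl1 : l ≤ 1) (hε : 0 < ε) (hK : 0 ≤ K) (hs : 0 ≤ s) (b : ∀ x, |w s x| ≤ A + L * |x|)
    (b0 : ∀ x, |w0 s x| ≤ A + L * |x|) (b1 : ∀ x, |w1 s x| ≤ A + L * |x|)
    (hxy : (3 * A + 2 * L + 1) * 2 / ε + 1 ≤ |x| + |y|) : 0 ≤ pen l ε K w w0 w1 s x y := by
  have hR : 0 ≤ (3 * A + 2 * L + 1) * 2 / ε := by positivity
  have c1 := (abs_le.1 (b (l * x + (1 - l) * y))).1
  have c2 := (abs_le.1 (b0 x)).2
  have c3 := (abs_le.1 (b1 y)).2
  have b4 : |l * x + (1 - l) * y| ≤ |x| + |y| := by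
    refine (abs_add_le _ _).trans ?_
    rw [abs_mul, abs_mul, abs_of_nonneg hl0, abs_of_nonneg (by linarith : 0 ≤ 1 - l)]
    nlinarith [abs_nonneg x, abs_nonneg y]
  have b5 : l * w0 s x ≤ A + L * |x| := by
    have : 0 ≤ A + L * |x| := by positivity
    nlinarith
  have b6 : (1 - l) * w1 s y ≤ A + L * |y| := by
    have : 0 ≤ A + L * |y| := by positivity
    nlinarith
  have b7 : 1 ≤ Real.exp (K * s) := Real.one_le_exp (mul_nonneg hK hs)
  have b8 : (|x| + |y|) ^ 2 / 2 ≤ 1 + x ^ 2 + y ^ 2 := by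
    rw [← sq_abs x, ← sq_abs y]; nlinarith [sq_nonneg (|x| - |y|)]
  have b9 : ε * ((|x| + |y|) ^ 2 / 2) ≤ ε * Real.exp (K * s) * (1 + x ^ 2 + y ^ 2) := by
    rw [mul_assoc]
    gcongr
    nlinarith [sq_nonneg x, sq_nonneg y]
  have b10 : (3 * A + 2 * L + 1) * 2 ≤ ε * (|x| + |y|) := by
    have : (3 * A + 2 * L + 1) * 2 / ε ≤ |x| + |y| := by linarith
    rwa [div_le_iff₀' hε] at this
  have b11 := mul_le_mul_of_nonneg_left b4 hL
  have b12 : (3 * A + 2 * L + 1) * (|x| + |y|) ≤ ε * ((|x| + |y|) ^ 2 / 2) := by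
    nlinarith [abs_nonneg x, abs_nonneg y]
  have b13 := mul_le_mul_of_nonneg_left (show 1 ≤ |x| + |y| by linarith) hA
  unfold pen
  nlinarith [abs_nonneg x, abs_nonneg y]

section
variable {L : ℝ} {w p q w0 p0 q0 w1 p1 q1 : ℝ → ℝ → ℝ} (H : Heat L w p q) (H0 : Heat L w0 p0 q0)
  (H1 : Heat L w1 p1 q1) (l ε K : ℝ) {s : ℝ} (hs0 : 0 < s) (x y : ℝ)
include H H0 H1 hs0

lemma pen_line (a b r : ℝ) : HasDerivAt (fun r => pen l ε K w w0 w1 s (x + a * r) (y + b * r))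
    ((l * a + (1 - l) * b) * p s (l * x + (1 - l) * y + (l * a + (1 - l) * b) * r)
      - l * a * p0 s (x + a * r) - (1 - l) * b * p1 s (y + b * r)
      + ε * Real.exp (K * s) * (2 * (x + a * r) * a + 2 * (y + b * r) * b)) r := by
  have d0 : ∀ c u : ℝ, HasDerivAt (fun r => u + c * r) c r := fun c u => by
    simpa using ((hasDerivAt_id r).const_mul c).const_add u
  have e1 : ∀ r, l * (x + a * r) + (1 - l) * (y + b * r)
      = l * x + (1 - l) * y + (l * a + (1 - l) * b) * r := fun r => by ring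
  simp only [pen, e1]
  have := ((((H.dx s hs0 _).comp r (d0 (l * a + (1 - l) * b) (l * x + (1 - l) * y))).sub
    (((H0.dx s hs0 _).comp r (d0 a x)).const_mul l)).sub
    (((H1.dx s hs0 _).comp r (d0 b y)).const_mul (1 - l))).add
    (((((d0 a x).pow 2).const_add 1).add ((d0 b y).pow 2)).const_mul (ε * Real.exp (K * s)))
  exact this.congr_deriv (by simp; ring)

lemma pen_first (hm : ∀ u v, pen l ε K w w0 w1 s x y ≤ pen l ε K w w0 w1 s u v) (a b : ℝ) :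
    (l * a + (1 - l) * b) * p s (l * x + (1 - l) * y) - l * a * p0 s x
      - (1 - l) * b * p1 s y + ε * Real.exp (K * s) * (2 * x * a + 2 * y * b) = 0 := by
  have := IsLocalMin.hasDerivAt_eq_zero (Eventually.of_forall fun r => by
    simpa using hm (x + a * r) (y + b * r)) (pen_line H H0 H1 l ε K hs0 x y a b 0)
  simpa using this

lemma pen_second (hm : ∀ u v, pen l ε K w w0 w1 s x y ≤ pen l ε K w w0 w1 s u v) :
    0 ≤ q s (l * x + (1 - l) * y) - l * q0 s x - (1 - l) * q1 s y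
      + 4 * (ε * Real.exp (K * s)) := by
  refine second_deriv_nonneg (pen_line H H0 H1 l ε K hs0 x y 1 1) ?_ (fun r => by
    simpa using hm (x + r) (y + r))
  have d0 : ∀ u : ℝ, HasDerivAt (fun r : ℝ => u + r) 1 0 := fun u => by
    simpa using (hasDerivAt_id (0 : ℝ)).const_add u
  simp only [mul_one, add_sub_cancel, one_mul]
  have := ((((H.dxx s hs0 _).comp 0 (d0 (l * x + (1 - l) * y))).sub
    (((H0.dxx s hs0 _).comp 0 (d0 x)).const_mul l)).sub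
    (((H1.dxx s hs0 _).comp 0 (d0 y)).const_mul (1 - l))).add
    ((((d0 x).const_mul 2).add ((d0 y).const_mul 2)).const_mul (ε * Real.exp (K * s)))
  exact this.congr_deriv (by simp; ring)

lemma pen_time (hm : ∀ r, 0 ≤ r → r ≤ s → pen l ε K w w0 w1 s x y ≤ pen l ε K w w0 w1 r x y) :
    s * (q s (l * x + (1 - l) * y) - w s (l * x + (1 - l) * y) * p s (l * x + (1 - l) * y) ^ 2)
      - l * (s * (q0 s x - w0 s x * p0 s x ^ 2)) - (1 - l) * (s * (q1 s y - w1 s y * p1 s y ^ 2))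
      + ε * Real.exp (K * s) * K * (1 + x ^ 2 + y ^ 2) ≤ 0 := by
  refine deriv_nonpos_of_left_min (h := fun r => pen l ε K w w0 w1 r x y) hs0 ?_ hm
  have := (((H.ds s hs0 (l * x + (1 - l) * y)).sub ((H0.ds s hs0 x).const_mul l)).sub
    ((H1.ds s hs0 y).const_mul (1 - l))).add
    (((((hasDerivAt_id s).const_mul K).exp).const_mul ε).mul_const (1 + x ^ 2 + y ^ 2))
  exact this.congr_deriv (by simp only [id]; ring)

lemma pen_min {A : ℝ} (hL : 0 ≤ L) (hA : 0 ≤ A) (hε : 0 < ε) (hs1 : s ≤ 1)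
    (hK : K = 5 + 4 * L * A + 4 * L ^ 2) (b0 : |w0 s x| ≤ A + L * |x|)
    (b1 : |w1 s y| ≤ A + L * |y|)
    (hm : ∀ r ∈ Icc (0 : ℝ) 1, ∀ u v, pen l ε K w w0 w1 s x y ≤ pen l ε K w w0 w1 r u v) :
    0 ≤ pen l ε K w w0 w1 s x y := by
  by_contra hlt
  have hm' := hm s ⟨hs0.le, hs1⟩
  have f0 := pen_first H H0 H1 l ε K hs0 x y hm' 1 0
  have f1 := pen_first H H0 H1 l ε K hs0 x y hm' 0 1
  have hsecond := pen_second H H0 H1 l ε K hs0 x y hm'
  have htime := pen_time H H0 H1 l ε K hs0 x y (fun r r0 r1 => hm r ⟨r0, r1.trans hs1⟩ x y)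
  unfold pen at hlt
  have he0 : 0 < ε * Real.exp (K * s) := by positivity
  generalize ε * Real.exp (K * s) = e at *
  generalize l * x + (1 - l) * y = z at *
  have a0 := pen_arith (l := l) hA hL he0.le b0 (H.p_le hL hs0 z) (H0.p_le hL hs0 x)
    (by linarith)
  have a1 := pen_arith (l := 1 - l) hA hL he0.le b1 (H.p_le hL hs0 z) (H1.p_le hL hs0 y)
    (by linarith)
  have a2 : w s z - l * w0 s x - (1 - l) * w1 s y ≤ 0 := by
    have : 0 < e * (1 + x ^ 2 + y ^ 2) := by positivity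
    linarith
  have a3 := mul_nonpos_of_nonneg_of_nonpos (sq_nonneg (p s z)) a2
  set B := e * (4 + 2 * L * A * (1 + x ^ 2) + 4 * L ^ 2 * x ^ 2 + 2 * L * A * (1 + y ^ 2)
    + 4 * L ^ 2 * y ^ 2) with hB
  have hB0 : 0 ≤ B := by positivity
  have a4 : -B ≤ (q s z - w s z * p s z ^ 2) - l * (q0 s x - w0 s x * p0 s x ^ 2)
      - (1 - l) * (q1 s y - w1 s y * p1 s y ^ 2) := by
    linarith [(abs_le.1 a0).1, (abs_le.1 a1).1]
  have a5 := mul_le_mul_of_nonneg_left a4 hs0.le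
  have a6 : s * B ≤ B := mul_le_of_le_one_left hB0 hs1
  have a7 : B < e * K * (1 + x ^ 2 + y ^ 2) := by
    rw [hB, mul_assoc e]
    refine mul_lt_mul_of_pos_left ?_ he0
    have : 0 ≤ L * A := by positivity
    rw [hK]
    nlinarith [sq_nonneg x, sq_nonneg y, sq_nonneg L, mul_nonneg this (sq_nonneg x),
      mul_nonneg this (sq_nonneg y)]
  linarith

end

theorem heat_compare {L : ℝ} (hL : 0 ≤ L) {w p q w0 p0 q0 w1 p1 q1 : ℝ → ℝ → ℝ}
    (H : Heat L w p q) (H0 : Heat L w0 p0 q0) (H1 : Heat L w1 p1 q1) {l : ℝ} (hl0 : 0 ≤ l)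
    (hl1 : l ≤ 1) (h : ∀ x y, l * w0 0 x + (1 - l) * w1 0 y ≤ w 0 (l * x + (1 - l) * y)) :
    l * w0 1 0 + (1 - l) * w1 1 0 ≤ w 1 0 := by
  obtain ⟨A', hA', bA'⟩ := H.bound
  obtain ⟨A0, hA0, bA0⟩ := H0.bound
  obtain ⟨A1, hA1, bA1⟩ := H1.bound
  obtain ⟨A, hA⟩ : ∃ A, A = A' + A0 + A1 := ⟨_, rfl⟩
  have hAp : 0 ≤ A := by rw [hA]; positivity
  have b : ∀ s ∈ Icc (0 : ℝ) 1, ∀ x, |w s x| ≤ A + L * |x| :=
    fun s hs x => (bA' s hs x).trans (by linarith)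
  have b0 : ∀ s ∈ Icc (0 : ℝ) 1, ∀ x, |w0 s x| ≤ A + L * |x| :=
    fun s hs x => (bA0 s hs x).trans (by linarith)
  have b1 : ∀ s ∈ Icc (0 : ℝ) 1, ∀ x, |w1 s x| ≤ A + L * |x| :=
    fun s hs x => (bA1 s hs x).trans (by linarith)
  obtain ⟨K, hK⟩ : ∃ K, K = 5 + 4 * L * A + 4 * L ^ 2 := ⟨_, rfl⟩
  have hKp : 0 ≤ K := by rw [hK]; positivity
  suffices key : ∀ ε : ℝ, 0 < ε →
      l * w0 1 0 + (1 - l) * w1 1 0 ≤ w 1 0 + ε * Real.exp K by
    refine le_of_forall_pos_le_add fun δ hδ => ?_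
    have := key (δ / Real.exp K) (by positivity)
    rwa [div_mul_cancel₀ _ (Real.exp_pos K).ne'] at this
  intro ε hε
  by_contra hneg
  have hC1 : pen l ε K w w0 w1 1 0 0 < 0 := by
    simp only [pen, mul_zero, add_zero, mul_one, ne_eq, OfNat.ofNat_ne_zero, not_false_eq_true,
      zero_pow]
    linarith [not_le.1 hneg]
  obtain ⟨R, hR⟩ : ∃ R, R = (3 * A + 2 * L + 1) * 2 / ε + 1 := ⟨_, rfl⟩
  have hR1 : 0 ≤ R := by rw [hR]; positivity
  have hcont : Continuous (fun z : ℝ × ℝ × ℝ => pen l ε K w w0 w1 z.1 z.2.1 z.2.2) := by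
    have c1 := H.cont.comp (f := fun z : ℝ × ℝ × ℝ => (z.1, l * z.2.1 + (1 - l) * z.2.2))
      (by fun_prop)
    have c2 := H0.cont.comp (f := fun z : ℝ × ℝ × ℝ => (z.1, z.2.1)) (by fun_prop)
    have c3 := H1.cont.comp (f := fun z : ℝ × ℝ × ℝ => (z.1, z.2.2)) (by fun_prop)
    exact ((c1.sub (c2.const_mul l)).sub (c3.const_mul (1 - l))).add (by fun_prop)
  obtain ⟨⟨s, x, y⟩, hmem, hmin⟩ :=
    ((isCompact_Icc (a := (0 : ℝ)) (b := 1)).prod ((isCompact_Icc (a := -R) (b := R)).prod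
      (isCompact_Icc (a := -R) (b := R)))).exists_isMinOn
      ⟨(1, 0, 0), by simpa using hR1⟩ hcont.continuousOn
  have hs : s ∈ Icc (0 : ℝ) 1 := hmem.1
  have hlt : pen l ε K w w0 w1 s x y < 0 :=
    lt_of_le_of_lt (hmin (a := (1, 0, 0)) (by simpa using hR1)) hC1
  have hglob : ∀ r ∈ Icc (0 : ℝ) 1, ∀ u v, pen l ε K w w0 w1 s x y ≤ pen l ε K w w0 w1 r u v := by
    intro r hr u v
    by_cases huv : R ≤ |u| + |v|
    · linarith [pen_far hL hAp hl0 hl1 hε hKp hr.1 (b r hr) (b0 r hr) (b1 r hr) (hR ▸ huv)]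
    · have h1 : |u| ≤ R := by linarith [not_le.1 huv, abs_nonneg v]
      have h2 : |v| ≤ R := by linarith [not_le.1 huv, abs_nonneg u]
      exact hmin (a := (r, u, v)) ⟨hr, abs_le.1 h1, abs_le.1 h2⟩
  rcases hs.1.eq_or_lt with rfl | h0
  · have := h x y
    have h2 : 0 < ε * Real.exp (K * 0) * (1 + x ^ 2 + y ^ 2) := by positivity
    unfold pen at hlt
    linarith
  · linarith [pen_min H H0 H1 l ε K h0 x y hL hAp hε hs.2 hK (b0 s hs x) (b1 s hs y) hglob]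

end Vale.Agent.P226
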