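import Vale.Agent.P226.Ehrhard1Aux
import Vale.Agent.P226.Ehrhard1Max

/-! TASK A1. One-dimensional functional Ehrhard inequality (Borell's heat-flow proof).

Let `Pinv : ℝ → ℝ` be the inverse of `Ph` on `(0,1)` (`Function.invFun Ph`; derivative from
`HasStrictDerivAt.to_local_left_inverse` / `HasDerivAt.of_local_left_inverse`).
For an `L`-Lipschitz `f` put `U f t x = ∫ Ph (f (x + √t * g)) ∂(gaussianReal 0 1)` and
`w f t x = Pinv (U f t x)`, `t ∈ [0,1]`.
* `U` solves `U_t = U_xx / 2` for `t > 0` (write `U f t x = ∫ Ph (f y) * k (t, x - y) dy` with the heat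
  kernel and differentiate under the integral sign, or use the exponential-moment form), hence
  `w_t = (w_xx - w * w_x ^ 2) / 2`.
* `shift` below gives `|w t x - w t x'| ≤ L |x - x'|`, so `|w_x| ≤ L`, and `|w t x| ≤ A + L |x|`
  on `[0,1] × ℝ` (continuity of `w · 0` on `[0,1]`).
* `C t x y = w f t (l x + (1-l) y) - l w f0 t x - (1-l) w f1 t y + ε exp (K t) (1 + x² + y²)`
  is continuous on `[0,1] × ℝ²`, tends to `+∞`, is `> 0` at `t = 0`. If it is negative somewhere
  take a global minimum `(t,x,y)` on `[0,1] × ℝ²` (negative, so `t > 0`): `C_t ≤ 0`, `C_x = C_y = 0`,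
  second derivative along `(1,1)` is `≥ 0`. With `p = w_x` at the midpoint,
  `w0_x = p + 2 ε e^{Kt} x / l`, `w1_x = p + 2 ε e^{Kt} y / (1 - l)` and all three are bounded by `L`;
  for `K` large (depending only on `L, A`) this contradicts `C_t ≤ 0`. Let `ε → 0`, take `t = 1`,
  `x = y = 0`. (The cases `l = 0`, `l = 1` are monotonicity.) -/

open MeasureTheory ProbabilityTheory Set Filter Topology Real

namespace Vale.Agent.P226

/-- tangent line of the concave map `Ph v ↦ Ph (v + c)`, `c ≥ 0` -/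
lemma Ph_tangent (v w c : ℝ) (hc : 0 ≤ c) :
    Ph (v + c) ≤ Ph (w + c) + Real.exp (-c * w - c ^ 2 / 2) * (Ph v - Ph w) := by
  set κ := Real.exp (-c * w - c ^ 2 / 2) with hκ
  have hd : ∀ u, HasDerivAt (fun u => κ * Ph u - Ph (u + c))
      (ph u * (κ - Real.exp (-c * u - c ^ 2 / 2))) u := fun u => by
    have h1 := (hasDerivAt_Ph (u + c)).comp u ((hasDerivAt_id u).add_const c)
    refine (((hasDerivAt_Ph u).const_mul κ).sub h1).congr_deriv ?_
    have : ph (u + c) = ph u * Real.exp (-c * u - c ^ 2 / 2) := by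
      rw [ph_eq_mul, ph_eq_mul u, mul_assoc, ← Real.exp_add]; congr 2; ring
    rw [this]; ring
  have hc' : Continuous (fun u => κ * Ph u - Ph (u + c)) := by fun_prop
  rcases le_total w v with h | h
  · have := monotoneOn_of_deriv_nonneg (convex_Ici w) hc'.continuousOn
      (fun u _ => (hd u).differentiableAt.differentiableWithinAt) (fun u hu => by
        rw [(hd u).deriv, interior_Ici] at *
        refine mul_nonneg (ph_pos u).le (sub_nonneg.2 (Real.exp_le_exp.2 ?_))
        nlinarith [mem_Ioi.1 hu]) self_mem_Ici h h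
    simp only at this
    linarith
  · have := antitoneOn_of_deriv_nonpos (convex_Iic w) hc'.continuousOn
      (fun u _ => (hd u).differentiableAt.differentiableWithinAt) (fun u hu => by
        rw [(hd u).deriv, interior_Iic] at *
        refine mul_nonpos_of_nonneg_of_nonpos (ph_pos u).le (sub_nonpos.2 (Real.exp_le_exp.2 ?_))
        nlinarith [mem_Iio.1 hu]) h self_mem_Iic h
    simp only at this
    linarith

/-- shift lemma: if `g ≤ f + c` then the `Ph`-means satisfy `t_g ≤ t_f + c` -/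
lemma shift {α : Type*} [MeasurableSpace α] (μ : Measure α) [IsProbabilityMeasure μ]
    {f g : α → ℝ} (hf : Measurable f) (hg : Measurable g) {c : ℝ} (hc : 0 ≤ c)
    (h : ∀ x, g x ≤ f x + c) {s t : ℝ} (hs : ∫ x, Ph (f x) ∂μ = Ph s)
    (ht : ∫ x, Ph (g x) ∂μ = Ph t) : t ≤ s + c := by
  rw [← strictMono_Ph.le_iff_le, ← ht]
  have hi := integrable_Ph_comp μ hf
  have hi2 : Integrable (fun x => Real.exp (-c * s - c ^ 2 / 2) * (Ph (f x) - Ph s)) μ :=
    (hi.sub (integrable_const _)).const_mul _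
  have h1 : ∫ x, Ph (g x) ∂μ
      ≤ ∫ x, (Ph (s + c) + Real.exp (-c * s - c ^ 2 / 2) * (Ph (f x) - Ph s)) ∂μ :=
    integral_mono (integrable_Ph_comp μ hg)
      ((integrable_const _).add hi2)
      fun x => (strictMono_Ph.monotone (h x)).trans (Ph_tangent _ _ _ hc)
  rw [integral_add (integrable_const _) hi2, integral_const_mul,
    integral_sub hi (integrable_const _), hs] at h1
  simpa using h1

lemma shift_abs {α : Type*} [MeasurableSpace α] (μ : Measure α) [IsProbabilityMeasure μ]
    {f g : α → ℝ} (hf : Measurable f) (hg : Measurable g) {c : ℝ} (hc : 0 ≤ c)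
    (h : ∀ x, |f x - g x| ≤ c) :
    |Pinv (∫ x, Ph (f x) ∂μ) - Pinv (∫ x, Ph (g x) ∂μ)| ≤ c := by
  have h1 := shift μ hf hg hc (fun x => by linarith [(abs_le.1 (h x)).1]) (Ph_Pinv_integral μ hf)
    (Ph_Pinv_integral μ hg)
  have h2 := shift μ hg hf hc (fun x => by linarith [(abs_le.1 (h x)).2]) (Ph_Pinv_integral μ hg)
    (Ph_Pinv_integral μ hf)
  rw [abs_le]; constructor <;> linarith

lemma exists_heat {f : ℝ → ℝ} {L : NNReal} (hf : LipschitzWith L f) :
    ∃ p q, Heat L (fun s x => Pinv (∫ g, Ph (f (x + s * g)) ∂(gaussianReal 0 1))) p q := by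
  have hc := hf.continuous
  have hm : ∀ s x : ℝ, Measurable (fun g : ℝ => f (x + s * g)) := fun s x => by fun_prop
  obtain ⟨P, Q, hPQ⟩ := smo_heat (F := fun y => Ph (f y)) (by fun_prop)
    (fun y => by rw [abs_of_pos (Ph_pos _)]; exact Ph_le_one _)
  let U : ℝ → ℝ → ℝ := fun s x => ∫ g, Ph (f (x + s * g)) ∂(gaussianReal 0 1)
  have hU : smo (fun y => Ph (f y)) ph = U := by
    ext s x
    exact (integral_g1 (fun g => Ph (f (x + s * g)))).symm
  rw [hU] at hPQ
  have hinv : ∀ s x, HasDerivAt Pinv (ph (Pinv (U s x)))⁻¹ (U s x) := fun s x =>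
    hasDerivAt_Pinv (integral_Ph_pos _ (hm s x)) (integral_Ph_lt_one _ (hm s x))
  have hdx : ∀ s, 0 < s → ∀ x,
      HasDerivAt (fun x => Pinv (U s x)) (P s x / ph (Pinv (U s x))) x := fun s hs x =>
    ((hinv s x).comp x (hPQ s hs x).1).congr_deriv (by ring)
  refine ⟨fun s x => P s x / ph (Pinv (U s x)), fun s x => Q s x / ph (Pinv (U s x))
    + Pinv (U s x) * (P s x / ph (Pinv (U s x))) ^ 2, ?_, ?_, hdx, ?_, ?_⟩
  · have hcU : Continuous (fun z : ℝ × ℝ => U z.1 z.2) :=
      continuous_of_dominated (bound := fun _ => 1)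
        (fun z => Continuous.aestronglyMeasurable (by fun_prop))
        (fun z => Eventually.of_forall fun g => by
          rw [Real.norm_eq_abs, abs_of_pos (Ph_pos _)]; exact Ph_le_one _)
        (integrable_const _) (Eventually.of_forall fun g => by fun_prop)
    exact continuous_iff_continuousAt.2 fun z =>
      ContinuousAt.comp (f := fun z : ℝ × ℝ => U z.1 z.2) (hinv z.1 z.2).continuousAt
        hcU.continuousAt
  · intro s x y
    refine shift_abs _ (hm s x) (hm s y) (by positivity) fun g => ?_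
    have := hf.dist_le_mul (x + s * g) (y + s * g)
    simpa [Real.dist_eq] using this
  · intro s hs x
    have := (hPQ s hs x).2.1.div ((hasDerivAt_ph _).comp x (hdx s hs x)) (ph_pos _).ne'
    refine this.congr_deriv ?_
    have := (ph_pos (Pinv (U s x))).ne'
    simp only [Function.comp]
    field_simp
    ring
  · intro s hs x
    refine ((hinv s x).comp s (hPQ s hs x).2.2).congr_deriv ?_
    simp only [U]
    ring

/-- one-dimensional functional Ehrhard inequality for Lipschitz data -/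
theorem ehrhard_one {f f0 f1 : ℝ → ℝ} {L : NNReal} (hf : LipschitzWith L f)
    (hf0 : LipschitzWith L f0) (hf1 : LipschitzWith L f1) {l : ℝ} (hl0 : 0 ≤ l) (hl1 : l ≤ 1)
    (h : ∀ x y, l * f0 x + (1 - l) * f1 y ≤ f (l * x + (1 - l) * y)) {t t0 t1 : ℝ}
    (ht : ∫ x, Ph (f x) ∂(gaussianReal 0 1) = Ph t)
    (ht0 : ∫ x, Ph (f0 x) ∂(gaussianReal 0 1) = Ph t0)
    (ht1 : ∫ x, Ph (f1 x) ∂(gaussianReal 0 1) = Ph t1) :
    l * t0 + (1 - l) * t1 ≤ t := by
  obtain ⟨p, q, H⟩ := exists_heat hf
  obtain ⟨p0, q0, H0⟩ := exists_heat hf0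
  obtain ⟨p1, q1, H1⟩ := exists_heat hf1
  have := heat_compare L.2 H H0 H1 hl0 hl1 (by simpa [Pinv_Ph] using h)
  simpa [ht, ht0, ht1, Pinv_Ph] using this

end Vale.Agent.P226
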