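import Vale.Agent.P226.Basic

/-! The inverse of `Ph` and differentiation of Gaussian smoothings. -/

open MeasureTheory ProbabilityTheory Set Filter Topology Real

namespace Vale.Agent.P226

/-- the inverse of `Ph` on `(0,1)` -/
noncomputable def Pinv : ℝ → ℝ := Function.invFun Ph

lemma Pinv_Ph (t : ℝ) : Pinv (Ph t) = t := Function.leftInverse_invFun strictMono_Ph.injective t

lemma Ph_Pinv {a : ℝ} (h0 : 0 < a) (h1 : a < 1) : Ph (Pinv a) = a := by
  obtain ⟨t, rfl⟩ := exists_Ph_eq h0 h1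
  rw [Pinv_Ph]

lemma hasDerivAt_Pinv {a : ℝ} (h0 : 0 < a) (h1 : a < 1) :
    HasDerivAt Pinv (ph (Pinv a))⁻¹ a := by
  obtain ⟨t, rfl⟩ := exists_Ph_eq h0 h1
  rw [Pinv_Ph]
  have hs : HasStrictDerivAt Ph (ph t) t :=
    hasStrictDerivAt_of_hasDerivAt_of_continuousAt (Eventually.of_forall hasDerivAt_Ph)
      continuous_ph.continuousAt
  exact (hs.to_local_left_inverse (ph_pos t).ne' (Eventually.of_forall Pinv_Ph)).hasDerivAt

lemma integrable_Ph_comp {α : Type*} [MeasurableSpace α] (μ : Measure α) [IsFiniteMeasure μ]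
    {f : α → ℝ} (hf : Measurable f) : Integrable (fun x => Ph (f x)) μ :=
  (integrable_const (1 : ℝ)).mono' (by fun_prop) (Eventually.of_forall fun x => by
    rw [Real.norm_eq_abs, abs_of_pos (Ph_pos _)]; exact Ph_le_one _)

lemma integral_Ph_pos {α : Type*} [MeasurableSpace α] (μ : Measure α) [IsProbabilityMeasure μ]
    {f : α → ℝ} (hf : Measurable f) : 0 < ∫ x, Ph (f x) ∂μ := by
  rw [integral_pos_iff_support_of_nonneg (fun x => Ph_nonneg _) (integrable_Ph_comp μ hf)]
  have : (Function.support fun x => Ph (f x)) = univ := by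
    ext x; simp [(Ph_pos _).ne']
  simp [this]

lemma integral_Ph_lt_one {α : Type*} [MeasurableSpace α] (μ : Measure α) [IsProbabilityMeasure μ]
    {f : α → ℝ} (hf : Measurable f) : ∫ x, Ph (f x) ∂μ < 1 := by
  have h := integral_Ph_pos μ (f := fun x => -f x) hf.neg
  simp only [Ph_neg] at h
  rw [integral_sub (integrable_const _) (integrable_Ph_comp μ hf)] at h
  simpa using h

lemma Ph_Pinv_integral {α : Type*} [MeasurableSpace α] (μ : Measure α) [IsProbabilityMeasure μ]
    {f : α → ℝ} (hf : Measurable f) : ∫ x, Ph (f x) ∂μ = Ph (Pinv (∫ x, Ph (f x) ∂μ)) :=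
  (Ph_Pinv (integral_Ph_pos μ hf) (integral_Ph_lt_one μ hf)).symm

/-- smoothing of `F` at scale `s` with the kernel `k` -/
noncomputable def smo (F k : ℝ → ℝ) (s x : ℝ) : ℝ := ∫ g, k g * F (x + s * g)

lemma smo_eq (F k : ℝ → ℝ) {s : ℝ} (hs : 0 < s) (x : ℝ) :
    smo F k s x = ∫ y, F y * (k ((y - x) / s) / s) := by
  have h1 := Measure.integral_comp_div (fun g => k g * F (x + s * g)) s
  have h2 := integral_sub_right_eq_self (μ := volume)
    (fun y => k (y / s) * F (x + s * (y / s))) x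
  rw [h1, abs_of_pos hs, smul_eq_mul] at h2
  have h3 : ∀ y, F y * (k ((y - x) / s) / s) = s⁻¹ * (k ((y - x) / s) * F (x + s * ((y - x) / s))) := by
    intro y
    rw [mul_div_cancel₀ _ hs.ne', add_sub_cancel]
    field_simp
  simp_rw [h3]
  rw [integral_const_mul, h2, smo]
  field_simp

lemma hasDerivAt_smo {F k k' : ℝ → ℝ} (hF : Continuous F) (hF1 : ∀ y, |F y| ≤ 1)
    (hk : ∀ z, HasDerivAt k (k' z) z) (hk' : Continuous k') {C : ℝ}
    (h0 : ∀ z, |k z| * (1 + z ^ 2) ≤ C) (h1 : ∀ z, |k' z| * (1 + |z|) * (1 + z ^ 2) ≤ C)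
    {s : ℝ} (hs : 0 < s) (x : ℝ) {a b : ℝ} (ha : |a| ≤ 1) (hb : |b| ≤ 1) (r0 : ℝ) :
    HasDerivAt (fun r => smo F k (s + b * (r - r0)) (x + a * (r - r0)))
      (-(smo F (fun z => a * k' z + b * (z * k' z + k z)) s x / s)) r0 := by
  have hkc : Continuous k := continuous_iff_continuousAt.2 fun z => (hk z).continuousAt
  have hC : 0 ≤ C := le_trans (by positivity) (h0 0)
  set δ := min 1 (s / 2) with hδ
  have hδ0 : 0 < δ := lt_min one_pos (by positivity)
  have hball : ∀ r ∈ Metric.ball r0 δ, s / 2 ≤ s + b * (r - r0) ∧ |a * (r - r0)| ≤ 1 := by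
    intro r hr
    rw [Metric.mem_ball, Real.dist_eq] at hr
    have e1 : |r - r0| ≤ 1 := hr.le.trans (min_le_left _ _)
    have e2 : |r - r0| ≤ s / 2 := hr.le.trans (min_le_right _ _)
    have e3 : |b * (r - r0)| ≤ s / 2 := by
      rw [abs_mul]; nlinarith [abs_nonneg b, abs_nonneg (r - r0)]
    refine ⟨by linarith [(abs_le.1 e3).1], ?_⟩
    rw [abs_mul]; nlinarith [abs_nonneg a, abs_nonneg (r - r0)]
  let G : ℝ → ℝ → ℝ := fun r y =>
    F y * (k ((y - (x + a * (r - r0))) / (s + b * (r - r0))) / (s + b * (r - r0)))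
  let z : ℝ → ℝ → ℝ := fun r y => (y - (x + a * (r - r0))) / (s + b * (r - r0))
  let G' : ℝ → ℝ → ℝ := fun r y =>
    F y * (-(a * k' (z r y) + b * (z r y * k' (z r y) + k (z r y))) / (s + b * (r - r0)) ^ 2)
  have hI : Integrable (fun y : ℝ => (1 + (y - x) ^ 2)⁻¹) :=
    integrable_inv_one_add_sq.comp_sub_right x
  have hz : ∀ r ∈ Metric.ball r0 δ, ∀ y, ((s + b * (r - r0)) ^ 2 * (1 + z r y ^ 2))⁻¹
      ≤ (12 / s ^ 2 + 2) * (1 + (y - x) ^ 2)⁻¹ := by
    intro r hr y
    obtain ⟨b1, b2⟩ := hball r hr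
    have p1 : 0 < s + b * (r - r0) := by linarith
    have e : (s + b * (r - r0)) ^ 2 * (1 + z r y ^ 2)
        = (s + b * (r - r0)) ^ 2 + (y - (x + a * (r - r0))) ^ 2 := by
      simp only [z]; field_simp
    rw [e, ← div_eq_mul_inv, inv_eq_one_div, div_le_div_iff₀ (by positivity) (by positivity)]
    have q1 : 3 ≤ 12 / s ^ 2 * (s + b * (r - r0)) ^ 2 := by
      rw [div_mul_eq_mul_div, le_div_iff₀ (by positivity)]; nlinarith
    have q2 : (a * (r - r0)) ^ 2 ≤ 1 := by rw [← sq_abs]; nlinarith [abs_nonneg (a * (r - r0))]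
    have q3 : 0 ≤ 12 / s ^ 2 * (y - (x + a * (r - r0))) ^ 2 := by positivity
    nlinarith [sq_nonneg (y - x - 2 * (a * (r - r0))), sq_nonneg (s + b * (r - r0))]
  have key := hasDerivAt_integral_of_dominated_loc_of_deriv_le (μ := volume) (F := G) (F' := G')
    (x₀ := r0) (bound := fun y => 2 * C * ((12 / s ^ 2 + 2) * (1 + (y - x) ^ 2)⁻¹))
    (Metric.ball_mem_nhds r0 hδ0)
    (Eventually.of_forall fun r => Continuous.aestronglyMeasurable (by simp only [G]; fun_prop))
    ?_ (Continuous.aestronglyMeasurable (by simp only [G', z]; fun_prop))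
    (Eventually.of_forall fun y r hr => ?_) ((hI.const_mul _).const_mul _)
    (Eventually.of_forall fun y r hr => ?_)
  · have e1 : ∫ y, G' r0 y = -(smo F (fun z => a * k' z + b * (z * k' z + k z)) s x / s) := by
      rw [smo_eq _ _ hs, ← integral_div, ← integral_neg]
      congr 1; ext y
      simp only [G', z, sub_self, mul_zero, add_zero]
      field_simp
    rw [← e1]
    refine key.2.congr_of_eventuallyEq ?_
    filter_upwards [Metric.ball_mem_nhds r0 hδ0] with r hr
    exact smo_eq _ _ (by linarith [(hball r hr).1]) _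
  · refine ((hI.const_mul (12 / s ^ 2 + 2)).const_mul (C * s)).mono'
      (Continuous.aestronglyMeasurable (by simp only [G]; fun_prop)) (Eventually.of_forall fun y => ?_)
    have t1 := hz r0 (Metric.mem_ball_self hδ0) y
    simp only [G, z, sub_self, mul_zero, add_zero] at t1 ⊢
    refine le_trans ?_ (mul_le_mul_of_nonneg_left t1 (by positivity))
    have t2 := h0 ((y - x) / s)
    rw [Real.norm_eq_abs, abs_mul, abs_div, abs_of_pos hs]
    have t3 : |k ((y - x) / s)| / s ≤ C * s * (s ^ 2 * (1 + ((y - x) / s) ^ 2))⁻¹ := by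
      rw [← div_eq_mul_inv, div_le_div_iff₀ hs (by positivity)]
      nlinarith [mul_le_mul_of_nonneg_left t2 (sq_nonneg s)]
    exact (mul_le_of_le_one_left (by positivity) (hF1 y)).trans t3
  · obtain ⟨b1, b2⟩ := hball r hr
    have p1 : 0 < s + b * (r - r0) := by linarith
    refine le_trans ?_ (mul_le_mul_of_nonneg_left (hz r hr y) (by positivity))
    simp only [G']
    generalize z r y = u
    rw [Real.norm_eq_abs, abs_mul, abs_div, abs_neg, abs_of_pos (pow_pos p1 2)]
    refine (mul_le_of_le_one_left (by positivity) (hF1 y)).trans ?_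
    have t1 : |a * k' u + b * (u * k' u + k u)| ≤ |k' u| * (1 + |u|) + |k u| := by
      refine (abs_add_le _ _).trans ?_
      rw [abs_mul, abs_mul]
      have := abs_add_le (u * k' u) (k u)
      rw [abs_mul] at this
      nlinarith [abs_nonneg a, abs_nonneg b, abs_nonneg (k' u), abs_nonneg (u * k' u + k u)]
    rw [← div_eq_mul_inv, div_le_div_iff₀ (by positivity) (by positivity)]
    have t2 : |a * k' u + b * (u * k' u + k u)| * (1 + u ^ 2) ≤ 2 * C := by
      nlinarith [h0 u, h1 u, mul_le_mul_of_nonneg_right t1 (by positivity : 0 ≤ 1 + u ^ 2)]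
    nlinarith [mul_le_mul_of_nonneg_left t2 (sq_nonneg (s + b * (r - r0)))]
  · obtain ⟨b1, b2⟩ := hball r hr
    have p1 : 0 < s + b * (r - r0) := by linarith
    have d1 : HasDerivAt (fun r => s + b * (r - r0)) b r := by
      simpa using (((hasDerivAt_id r).sub_const r0).const_mul b).const_add s
    have d2 : HasDerivAt (fun r => y - (x + a * (r - r0))) (-a) r := by
      simpa using ((((hasDerivAt_id r).sub_const r0).const_mul a).const_add x).const_sub y
    have d3 := (((hk (z r y)).comp r (d2.div d1 p1.ne')).div d1 p1.ne').const_mul (F y)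
    refine d3.congr_deriv ?_
    simp only [G', z, Function.comp, Pi.div_apply]
    generalize s + b * (r - r0) = S at p1
    generalize y - (x + a * (r - r0)) = Y
    generalize k' (Y / S) = u
    generalize k (Y / S) = v
    field_simp
    ring

lemma ph_decay (z : ℝ) : (1 + z ^ 2) ^ 3 * ph z ≤ 216 := by
  have h1 : (1 + z ^ 2 / 6) ^ 3 ≤ Real.exp (z ^ 2 / 2) := by
    have := Real.add_one_le_exp (z ^ 2 / 6)
    calc (1 + z ^ 2 / 6) ^ 3 ≤ Real.exp (z ^ 2 / 6) ^ 3 := by gcongr; linarith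
      _ = _ := by rw [← Real.exp_nat_mul]; congr 1; push_cast; ring
  have h2 : ph 0 ≤ 1 := by
    have := ph_zero_sq
    have h3 : 1 / (2 * π) ≤ 1 := by
      rw [div_le_one (by positivity)]; linarith [Real.pi_gt_three]
    nlinarith [ph_pos 0]
  have h4 : Real.exp (z ^ 2 / 2) * Real.exp (-z ^ 2 / 2) = 1 := by
    rw [← Real.exp_add]; simp [neg_div]
  have h5 : (1 + z ^ 2) ^ 3 ≤ 216 * (1 + z ^ 2 / 6) ^ 3 := by
    calc (1 + z ^ 2) ^ 3 ≤ (6 * (1 + z ^ 2 / 6)) ^ 3 := by gcongr; linarith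
      _ = _ := by ring
  rw [ph_eq_mul]
  have h6 : (1 + z ^ 2) ^ 3 * Real.exp (-z ^ 2 / 2) ≤ 216 := by
    calc _ ≤ 216 * Real.exp (z ^ 2 / 2) * Real.exp (-z ^ 2 / 2) := by gcongr; linarith
      _ = 216 := by rw [mul_assoc, h4, mul_one]
  nlinarith [Real.exp_pos (-z ^ 2 / 2), ph_pos 0, mul_pos (pow_pos (by positivity : 0 < 1 + z ^ 2) 3)
    (Real.exp_pos (-z ^ 2 / 2))]

lemma abs_le_one_add_sq (z : ℝ) : |z| ≤ 1 + z ^ 2 := by
  rw [← sq_abs]; nlinarith [abs_nonneg z, sq_nonneg (|z| - 1)]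

/-- the heat equation in the scale parameter -/
lemma smo_heat {F : ℝ → ℝ} (hF : Continuous F) (hF1 : ∀ y, |F y| ≤ 1) :
    ∃ P Q : ℝ → ℝ → ℝ, ∀ s, 0 < s → ∀ x, HasDerivAt (smo F ph s) (P s x) x ∧
      HasDerivAt (P s) (Q s x) x ∧ HasDerivAt (fun r => smo F ph r x) (s * Q s x) s := by
  have b : ∀ z : ℝ, 1 ≤ 1 + z ^ 2 := fun z => by nlinarith [sq_nonneg z]
  have c0 : ∀ z, |ph z| * (1 + z ^ 2) ≤ 432 := fun z => by
    rw [abs_of_pos (ph_pos z)]
    have := mul_le_mul_of_nonneg_right (pow_le_pow_right₀ (b z) (show 1 ≤ 3 by norm_num))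
      (ph_pos z).le
    nlinarith [ph_decay z]
  have c1 : ∀ z, |-z * ph z| * (1 + |z|) * (1 + z ^ 2) ≤ 432 := fun z => by
    rw [abs_mul, abs_neg, abs_of_pos (ph_pos z)]
    calc |z| * ph z * (1 + |z|) * (1 + z ^ 2)
        ≤ (1 + z ^ 2) * ph z * (2 * (1 + z ^ 2)) * (1 + z ^ 2) := by
          have := ph_pos z
          gcongr
          · exact abs_le_one_add_sq z
          · linarith [abs_le_one_add_sq z, b z]
      _ = 2 * ((1 + z ^ 2) ^ 3 * ph z) := by ring
      _ ≤ 432 := by linarith [ph_decay z]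
  have c2 : ∀ z, |-z * ph z| * (1 + z ^ 2) ≤ 432 := fun z => by
    have := c1 z
    nlinarith [mul_nonneg (mul_nonneg (abs_nonneg (-z * ph z)) (abs_nonneg z))
      (by positivity : 0 ≤ 1 + z ^ 2)]
  have c3 : ∀ z, |(z ^ 2 - 1) * ph z| * (1 + |z|) * (1 + z ^ 2) ≤ 432 := fun z => by
    rw [abs_mul, abs_of_pos (ph_pos z)]
    calc |z ^ 2 - 1| * ph z * (1 + |z|) * (1 + z ^ 2)
        ≤ (1 + z ^ 2) * ph z * (2 * (1 + z ^ 2)) * (1 + z ^ 2) := by
          have := ph_pos z
          gcongr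
          · rw [abs_le]; constructor <;> nlinarith [sq_nonneg z]
          · linarith [abs_le_one_add_sq z, b z]
      _ = 2 * ((1 + z ^ 2) ^ 3 * ph z) := by ring
      _ ≤ 432 := by linarith [ph_decay z]
  have d1 : ∀ z, HasDerivAt (fun z => -z * ph z) ((z ^ 2 - 1) * ph z) z := fun z =>
    ((hasDerivAt_neg z).mul (hasDerivAt_ph z)).congr_deriv (by ring)
  refine ⟨fun s x => -(smo F (fun z => -z * ph z) s x / s),
    fun s x => smo F (fun z => (z ^ 2 - 1) * ph z) s x / s ^ 2, fun s hs x => ⟨?_, ?_, ?_⟩⟩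
  · have := hasDerivAt_smo hF hF1 hasDerivAt_ph (by fun_prop) c0 c1 hs x (a := 1) (b := 0)
      (by simp) (by simp) x
    simpa using this
  · have := hasDerivAt_smo hF hF1 d1 (by fun_prop) c2 c3 hs x (a := 1) (b := 0)
      (by simp) (by simp) x
    simp only [zero_mul, add_zero, one_mul, add_sub_cancel] at this
    exact (this.div_const s).neg.congr_deriv (by field_simp)
  · have := hasDerivAt_smo hF hF1 hasDerivAt_ph (by fun_prop) c0 c1 hs x (a := 0) (b := 1)
      (by simp) (by simp) s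
    simp only [zero_mul, add_zero, one_mul, add_sub_cancel, zero_add] at this
    refine this.congr_deriv ?_
    have e : smo F (fun z => z * (-z * ph z) + ph z) s x
        = -smo F (fun z => (z ^ 2 - 1) * ph z) s x := by
      rw [smo, smo, ← integral_neg]
      congr 1; ext g; ring
    rw [e]; field_simp

end Vale.Agent.P226
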