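import Vale.Agent.P226.Crit
import Vale.Agent.P226.EhrhardN

/-! The gain of one cell: upper bound through the Ehrhard inequality, lower bound through the
induction hypothesis; the isoperimetric bound. -/

open MeasureTheory ProbabilityTheory Set Filter Topology Real
open scoped RealInnerProductSpace

namespace Vale.Agent.P226

variable {E : Type*} [NormedAddCommGroup E] [InnerProductSpace ℝ E] [FiniteDimensional ℝ E]
  [MeasurableSpace E] [BorelSpace E]

lemma gain_le {κ : Type*} [Fintype κ] [Nonempty κ] (p : E) (u : κ → E) (b : E)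
    (hb : ∀ j, ⟪b, p - u j⟫ = 1) {τ : ℝ}
    (hτ : (stdGaussian E).real {x | ∀ j, ⟪x, u j⟫ ≤ ⟪x, p⟫} = Ph (-τ)) :
    ⟪∫ x in {x | ∀ j, ⟪x, u j⟫ ≤ ⟪x, p⟫}, x ∂(stdGaussian E), b⟫ *
      ∫ x, max (⟪x, p⟫ - mxf u x) 0 ∂(stdGaussian E) ≤ ph τ * ps τ := by
  have hb0 : b ≠ 0 := by
    rintro rfl
    simpa using hb (Classical.arbitrary κ)
  have hn : 0 < ‖b‖ := norm_pos_iff.2 hb0
  have he := norm_unit hb0
  set e : E := (‖b‖⁻¹ : ℝ) • b with hedef
  set f : E → ℝ := fun y => ‖b‖ * (⟪y, p - ⟪e, p⟫ • e⟫ - mxf (fun j => u j - ⟪e, u j⟫ • e) y)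
    with hf
  have eu : ∀ j, ⟪e, u j⟫ = ⟪e, p⟫ - ‖b‖⁻¹ := fun j => by
    have := hb j
    rw [inner_sub_right] at this
    rw [hedef, real_inner_smul_left, real_inner_smul_left, ← sub_eq_zero]
    linear_combination (-‖b‖⁻¹) * this
  have key : ∀ (y : E) (t : ℝ), ⟪y - ⟪y, e⟫ • e + t • e, p⟫ - mxf u (y - ⟪y, e⟫ • e + t • e) =
      ‖b‖⁻¹ * (t - -f y) := fun y t => by
    rw [mxf_eq_add u (fun j => u j - ⟪e, u j⟫ • e) _ y (c := t * (⟪e, p⟫ - ‖b‖⁻¹))
      (fun j => by rw [inner_fibre', eu]), inner_fibre', hf]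
    field_simp
    ring
  have mem : ∀ x : E, x ∈ {x | ∀ j, ⟪x, u j⟫ ≤ ⟪x, p⟫} ↔ 0 ≤ ⟪x, p⟫ - mxf u x := fun x =>
    ⟨fun h => sub_nonneg.2 (mxf_le h), fun h j => (le_mxf u x j).trans (sub_nonneg.1 h)⟩
  have mem' : ∀ (y : E) (t : ℝ), y - ⟪y, e⟫ • e + t • e ∈ {x | ∀ j, ⟪x, u j⟫ ≤ ⟪x, p⟫} ↔
      t ∈ Ici (-f y) := fun y t => by
    rw [mem, key, mul_nonneg_iff_of_pos_left (inv_pos.2 hn), sub_nonneg, mem_Ici]
  have hC : MeasurableSet {x : E | ∀ j, ⟪x, u j⟫ ≤ ⟪x, p⟫} := by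
    rw [ofPred_forall]
    exact (isClosed_iInter fun m => isClosed_le (by fun_prop) (by fun_prop)).measurableSet
  have a1 : ∫ y, Ph (f y) ∂(stdGaussian E) = Ph (-τ) := by
    rw [← hτ, measureReal_fibre e he hC]
    congr 1; ext y
    rw [show {t : ℝ | y - ⟪y, e⟫ • e + t • e ∈ {x | ∀ j, ⟪x, u j⟫ ≤ ⟪x, p⟫}} = Ici (-f y) from
      Set.ext (mem' y), g1_Ici, neg_neg]
  have a2 : ⟪∫ x in {x | ∀ j, ⟪x, u j⟫ ≤ ⟪x, p⟫}, x ∂(stdGaussian E), b⟫ =
      ‖b‖ * ∫ y, ph (f y) ∂(stdGaussian E) := by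
    rw [inner_eq_norm_mul_unit hb0, ← setIntegral_inner, ← integral_indicator hC,
      integral_fibre e he ((integrable_inner _).indicator hC)]
    congr 2; ext y
    rw [← ph_neg, ← integral_Ici_id, ← integral_indicator measurableSet_Ici]
    congr 1; ext t
    by_cases ht : t ∈ Ici (-f y)
    · rw [indicator_of_mem ((mem' y t).2 ht), indicator_of_mem ht, inner_fibre e he]
    · rw [indicator_of_notMem (mt (mem' y t).1 ht), indicator_of_notMem ht]
  have a3 : ∫ x, max (⟪x, p⟫ - mxf u x) 0 ∂(stdGaussian E) =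
      ‖b‖⁻¹ * ∫ y, ps (-f y) ∂(stdGaussian E) := by
    rw [integral_fibre e he (F := fun x => max (⟪x, p⟫ - mxf u x) 0)
      ((integrable_inner p).sub (integrable_mxf u)).pos_part, ← integral_const_mul]
    congr 1; ext y
    rw [← integral_posPart, ← integral_const_mul]
    congr 1; ext t
    rw [key, mul_max_of_nonneg _ _ (inv_pos.2 hn).le, mul_zero]
  obtain ⟨L, hL⟩ : ∃ L, LipschitzWith L f := by
    have h1 : LipschitzWith _ (fun y : E => ⟪y, p - ⟪e, p⟫ • e⟫) :=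
      (innerSLFlip ℝ (p - ⟪e, p⟫ • e)).lipschitz
    have h2 := h1.sub (lipschitz_mxf fun j => u j - ⟪e, u j⟫ • e)
    exact ⟨_, (lipschitzWith_smul ‖b‖).comp h2⟩
  have hc : ConcaveOn ℝ univ f := by
    have h1 : ConcaveOn ℝ univ (fun y : E => ⟪y, p - ⟪e, p⟫ • e⟫) :=
      ⟨convex_univ, fun x _ y _ a b _ _ _ => by
        simp [inner_add_left, real_inner_smul_left]⟩
    exact (h1.sub (convexOn_mxf fun j => u j - ⟪e, u j⟫ • e)).smul hn.le
  have := ehrhard_gain hL hc a1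
  rw [a2, a3]
  refine le_trans (le_of_eq ?_) this
  field_simp

lemma iso_le {C : Set E} {w : E} (hw : ∫ x in C, x ∂(stdGaussian E) = w)
    (h0 : w ≠ 0) (t : ℝ) : ‖w‖ ≤ t * (stdGaussian E).real C + ps t := by
  have he := norm_unit h0
  set e : E := (‖w‖⁻¹ : ℝ) • w with hedef
  have e1 : ‖w‖ = ∫ x in C, ⟪x, e⟫ ∂(stdGaussian E) := by
    rw [setIntegral_inner, hw, hedef, real_inner_smul_right, real_inner_self_eq_norm_sq]
    field_simp
  have hi : Integrable (fun x : E => max (⟪x, e⟫ - t) 0) (stdGaussian E) :=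
    ((integrable_inner e).sub (integrable_const t)).pos_part
  have e2 : ∫ x in C, ⟪x, e⟫ ∂(stdGaussian E) ≤
      ∫ x in C, (t + max (⟪x, e⟫ - t) 0) ∂(stdGaussian E) :=
    integral_mono (integrable_inner e).integrableOn ((integrable_const t).add hi).integrableOn
      fun x => by
        have := le_max_left (⟪x, e⟫ - t) 0
        simp only
        linarith
  rw [integral_add (integrable_const t).integrableOn hi.integrableOn, setIntegral_const,
    smul_eq_mul] at e2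
  have e3 := setIntegral_le_integral (s := C) hi (Eventually.of_forall fun x => le_max_right _ _)
  rw [integral_comp_inner e he (F := fun s => max (s - t) 0) (by fun_prop), integral_posPart] at e3
  linarith

variable {n : ℕ} {z : Fin (n + 1) → E}

/-- the gain of the `i`-th cell -/
noncomputable def cgain (z : Fin (n + 1) → E) (i : Fin (n + 1)) : ℝ :=
  ∫ x, max (⟪x, z i⟫ - mxf (fun j : {j // j ≠ i} => z j) x) 0 ∂(stdGaussian E)

lemma nonempty_ne (hn : 1 ≤ n) (i : Fin (n + 1)) : Nonempty {j // j ≠ i} := by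
  have : Nontrivial (Fin (n + 1)) := Fin.nontrivial_iff_two_le.2 (by omega)
  obtain ⟨j, hj⟩ := exists_ne i
  exact ⟨⟨j, hj⟩⟩

lemma Crit.gain_eq (h : Crit z) (hn : 1 ≤ n) (i : Fin (n + 1)) :
    cgain z i = ∑ l, ‖z l‖ ^ 2 - hh (fun j : {j // j ≠ i} => z j) := by
  have := nonempty_ne hn i
  rw [← h.hh_eq, hh, hh, ← integral_sub (integrable_mxf _) (integrable_mxf _), cgain]
  congr 1; ext x
  have h1 : mxf z x = max ⟪x, z i⟫ (mxf (fun j : {j // j ≠ i} => z j) x) := by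
    refine le_antisymm (mxf_le fun l => ?_) (max_le (le_mxf z x i) (mxf_le fun j => le_mxf z x j))
    by_cases hl : l = i
    · rw [hl]; exact le_max_left _ _
    · exact le_max_of_le_right (le_mxf (fun j : {j // j ≠ i} => z j) x ⟨l, hl⟩)
  rw [h1, ← max_sub_sub_right, sub_self]

lemma Crit.gain_ge (h : Crit z) (hd : DualLe E n) (hn : 1 ≤ n) (i : Fin (n + 1)) :
    ∑ l, ‖z l‖ ^ 2 - 3 / 2 * ph 0 * √(∑ l, ‖z l‖ ^ 2 - (n + 1) / n * ‖z i‖ ^ 2) ≤ cgain z i := by
  have := nonempty_ne hn i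
  have hn' : (0 : ℝ) < n := by exact_mod_cast hn
  have h1 := hd.erase i (fun l => z l + (n : ℝ)⁻¹ • z i)
  rw [hh_add_const (fun j : {j // j ≠ i} => z j)] at h1
  have h2 : ∑ l, ‖z l + (n : ℝ)⁻¹ • z i‖ ^ 2 - ‖z i + (n : ℝ)⁻¹ • z i‖ ^ 2 =
      ∑ l, ‖z l‖ ^ 2 - (n + 1) / n * ‖z i‖ ^ 2 := by
    simp_rw [@norm_add_sq_real E, real_inner_smul_right, norm_smul, mul_pow, Real.norm_eq_abs, sq_abs,
      real_inner_comm (z i)]
    rw [Finset.sum_add_distrib, Finset.sum_add_distrib, ← Finset.mul_sum, ← Finset.mul_sum,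
      h.sum_inner, Finset.sum_const, Finset.card_univ, Fintype.card_fin, nsmul_eq_mul,
      real_inner_self_eq_norm_sq]
    push_cast
    field_simp
    ring
  rw [h2] at h1
  rw [h.gain_eq hn]
  linarith

omit [FiniteDimensional ℝ E] [MeasurableSpace E] [BorelSpace E] in
lemma cell_eq (z : Fin (n + 1) → E) (i : Fin (n + 1)) :
    cell z i = {x | ∀ j : {j // j ≠ i}, ⟪x, z j⟫ ≤ ⟪x, z i⟫} := by
  ext x
  refine ⟨fun h j => h j, fun h m => ?_⟩
  by_cases hm : m = i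
  · rw [hm]
  · exact h ⟨m, hm⟩

lemma Crit.gain_le (h : Crit z) (hd : DualLe E n) (hn : 1 ≤ n) (i : Fin (n + 1)) {τ : ℝ}
    (hτ : (stdGaussian E).real (cell z i) = Ph (-τ)) :
    cgain z i ≤ (n + 1) / n * (ph τ * ps τ) := by
  have := nonempty_ne hn i
  have hn' : (0 : ℝ) < n := by exact_mod_cast hn
  obtain ⟨b, hb, hb'⟩ := h.exists_dual hd i (fun _ => 1)
  have h1 := Vale.Agent.P226.gain_le (z i) (fun j : {j // j ≠ i} => z j) b (fun j => hb j j.2)
    (cell_eq z i ▸ hτ)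
  rw [← cell_eq, h.cen, real_inner_comm, hb'] at h1
  simp only [Finset.sum_const, Finset.card_erase_of_mem (Finset.mem_univ i), Finset.card_univ,
    Fintype.card_fin, add_tsub_cancel_right, nsmul_eq_mul, mul_one] at h1
  have h2 : (n : ℝ) / (n + 1) * cgain z i ≤ ph τ * ps τ := h1
  rw [div_mul_eq_mul_div, div_le_iff₀ (by positivity)] at h2
  rw [div_mul_eq_mul_div, le_div_iff₀ hn']
  linarith

lemma Crit.ne_zero (h : Crit z) (hd : DualLe E n) (hn : 1 ≤ n) (i : Fin (n + 1)) : z i ≠ 0 := by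
  obtain ⟨j, hj⟩ := nonempty_ne hn i
  intro h0
  have := h.neg hd hj
  simp [h0] at this

lemma Crit.exists_tau (h : Crit z) (hd : DualLe E n) (hn : 1 ≤ n) (i : Fin (n + 1)) :
    ∃ τ, 0 ≤ τ ∧ (stdGaussian E).real (cell z i) = Ph (-τ) := by
  refine Vale.Agent.P226.exists_tau ?_ ?_
  · refine lt_of_le_of_ne measureReal_nonneg fun h0 => h.ne_zero hd hn i ?_
    have h1 : stdGaussian E (cell z i) = 0 := by
      rwa [eq_comm, measureReal_eq_zero_iff] at h0
    rw [← h.cen i, setIntegral_measure_zero _ h1]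
  · obtain ⟨j, hj⟩ := nonempty_ne hn i
    rw [← measureReal_halfspace (sub_ne_zero.2 (h.inj.ne hj.symm))]
    refine measureReal_mono fun x hx => ?_
    simp only [mem_ofPred_eq, inner_sub_right, sub_nonneg]
    exact hx j

end Vale.Agent.P226
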