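import Vale.Agent.P226.Basic

/-! Rational enclosures of `ph`, `Ph`, and chord bounds for `2 π ph τ ps τ`. -/

open MeasureTheory ProbabilityTheory Set Filter Topology Real

namespace Vale.Agent.P226

/-- Taylor polynomial of `exp (-u)` -/
noncomputable def tay (n : ℕ) (u : ℝ) : ℝ := ∑ i ∈ Finset.range (n + 1), (-u) ^ i / i.factorial

lemma hasDerivAt_tay (n : ℕ) (u : ℝ) : HasDerivAt (tay (n + 1)) (-tay n u) u := by
  unfold tay
  simp_rw [Finset.sum_range_succ' _ (n + 1)]
  have : HasDerivAt (fun u : ℝ => ∑ i ∈ Finset.range (n + 1), (-u) ^ (i + 1) / (i + 1).factorial)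
      (∑ i ∈ Finset.range (n + 1), -((-u) ^ i / i.factorial)) u := by
    refine HasDerivAt.fun_sum fun i _ => ?_
    have h := ((hasDerivAt_neg u).pow (i + 1)).div_const ((i + 1).factorial : ℝ)
    refine h.congr_deriv ?_
    rw [Nat.factorial_succ]
    push_cast
    have : (i.factorial : ℝ) ≠ 0 := by positivity
    field_simp
  have h2 := this.add_const ((1 : ℝ) / (0 : ℕ).factorial)
  simp only [pow_zero]
  refine h2.congr_deriv ?_
  rw [Finset.sum_neg_distrib]

lemma tay_zero (n : ℕ) : tay n 0 = 1 := by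
  unfold tay
  rw [Finset.sum_range_succ']
  simp

lemma tay_sign (n : ℕ) : ∀ u : ℝ, 0 ≤ u → 0 ≤ (-1) ^ n * (tay n u - Real.exp (-u)) := by
  induction n with
  | zero =>
    intro u hu
    have : Real.exp (-u) ≤ 1 := Real.exp_le_one_iff.2 (by linarith)
    simp [tay]; linarith
  | succ n ih =>
    intro u hu
    have hd : ∀ v, HasDerivAt (fun v => (-1 : ℝ) ^ (n + 1) * (tay (n + 1) v - Real.exp (-v)))
        ((-1) ^ n * (tay n v - Real.exp (-v))) v := fun v => by
      have := ((hasDerivAt_tay n v).sub (hasDerivAt_neg v).exp).const_mul ((-1 : ℝ) ^ (n + 1))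
      refine this.congr_deriv (by ring)
    have hm : MonotoneOn (fun v => (-1 : ℝ) ^ (n + 1) * (tay (n + 1) v - Real.exp (-v))) (Ici 0) :=
      monotoneOn_of_deriv_nonneg (convex_Ici 0)
        (fun v _ => (hd v).continuousAt.continuousWithinAt)
        (fun v _ => (hd v).differentiableAt.differentiableWithinAt)
        (fun v hv => by
          rw [(hd v).deriv]; exact ih v (le_of_lt (by simpa using hv)))
    have := hm self_mem_Ici hu hu
    simpa [tay_zero] using this

lemma exp_le_tay (n : ℕ) {u : ℝ} (hu : 0 ≤ u) : Real.exp (-u) ≤ tay (2 * n) u := by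
  have := tay_sign (2 * n) u hu
  rw [pow_mul] at this; norm_num at this; exact this

lemma tay_le_exp (n : ℕ) {u : ℝ} (hu : 0 ≤ u) : tay (2 * n + 1) u ≤ Real.exp (-u) := by
  have := tay_sign (2 * n + 1) u hu
  rw [pow_succ, pow_mul] at this; norm_num at this; exact this

/-- antiderivative of `tay n (t ^ 2 / 2)` -/
noncomputable def itay (n : ℕ) (t : ℝ) : ℝ :=
  ∑ i ∈ Finset.range (n + 1), (-(t ^ 2 / 2)) ^ i / i.factorial * t / (2 * i + 1)

lemma hasDerivAt_itay (n : ℕ) (t : ℝ) : HasDerivAt (itay n) (tay n (t ^ 2 / 2)) t := by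
  unfold itay tay
  refine HasDerivAt.fun_sum fun i _ => ?_
  have he : (fun t : ℝ => (-(t ^ 2 / 2)) ^ i / i.factorial * t / (2 * i + 1)) =
      fun t => (-1 / 2 : ℝ) ^ i / i.factorial / (2 * i + 1) * t ^ (2 * i + 1) := by
    ext t
    rw [show -(t ^ 2 / 2) = (-1 / 2) * t ^ 2 by ring, mul_pow, ← pow_mul]; ring
  rw [he]
  refine ((hasDerivAt_pow (2 * i + 1) t).const_mul _).congr_deriv ?_
  rw [show -(t ^ 2 / 2) = (-1 / 2) * t ^ 2 by ring, mul_pow, ← pow_mul]
  push_cast
  field_simp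

lemma Ph_neg_ge (n : ℕ) {t : ℝ} (ht : 0 ≤ t) : 1 / 2 - ph 0 * itay (2 * n) t ≤ Ph (-t) := by
  have hd : ∀ v, HasDerivAt (fun v => ph 0 * itay (2 * n) v - Ph v)
      (ph 0 * tay (2 * n) (v ^ 2 / 2) - ph v) v := fun v =>
    ((hasDerivAt_itay _ v).const_mul _).sub (hasDerivAt_Ph v)
  have hm : Monotone (fun v => ph 0 * itay (2 * n) v - Ph v) :=
    monotone_of_deriv_nonneg (fun v => (hd v).differentiableAt) fun v => by
      rw [(hd v).deriv, ph_eq_mul v, neg_div]
      have := exp_le_tay n (u := v ^ 2 / 2) (by positivity)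
      nlinarith [ph_pos 0]
  have := hm ht
  simp only [Ph_zero] at this
  have h0 : itay (2 * n) 0 = 0 := by simp [itay]
  rw [h0] at this
  rw [Ph_neg]
  linarith

lemma sqrt_two_pi_lo : (2.506628 : ℝ) ≤ √(2 * π) :=
  Real.le_sqrt_of_sq_le (by nlinarith [Real.pi_gt_d6])

lemma sqrt_two_pi_hi : √(2 * π) ≤ (2.506629 : ℝ) :=
  Real.sqrt_le_iff.2 ⟨by norm_num, by nlinarith [Real.pi_lt_d6]⟩

lemma ph_zero_hi : ph 0 ≤ 0.3989424 := by
  rw [ph_zero, inv_le_comm₀ sqrt_two_pi_pos (by norm_num)]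
  exact le_trans (by norm_num) sqrt_two_pi_lo

lemma ph_zero_lo : 0.3989421 ≤ ph 0 := by
  rw [ph_zero, le_inv_comm₀ (by norm_num) sqrt_two_pi_pos]
  exact le_trans sqrt_two_pi_hi (by norm_num)

/-- `GG τ = 2 π ph τ ps τ` -/
noncomputable def GG (t : ℝ) : ℝ := 2 * π * (ph t * ps t)

lemma GG_eq (t : ℝ) :
    GG t = Real.exp (-(t ^ 2 / 2)) ^ 2 - t * √(2 * π) * Real.exp (-(t ^ 2 / 2)) * Ph (-t) := by
  have h := sqrt_two_pi_pos
  have h2 : √(2 * π) ^ 2 = 2 * π := Real.sq_sqrt (by positivity)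
  unfold GG ps ph
  rw [neg_div, ← h2]
  simp only [Real.sqrt_sq h.le]
  field_simp

lemma GG_nonneg (t : ℝ) : 0 ≤ GG t := by
  unfold GG; have := ph_pos t; have := ps_nonneg t; positivity

lemma GG_anti {s t : ℝ} (hs : 0 ≤ s) (h : s ≤ t) : GG t ≤ GG s := by
  unfold GG
  have h1 : ph t ≤ ph s := by
    rw [ph_eq_mul t, ph_eq_mul s]
    have : Real.exp (-t ^ 2 / 2) ≤ Real.exp (-s ^ 2 / 2) := Real.exp_le_exp.2 (by nlinarith)
    nlinarith [ph_pos 0]
  have h2 := antitone_ps h
  have := ps_nonneg t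
  have := (ph_pos s).le
  gcongr

/-- `GG` is a convex function of `Ph (-τ)`: chords -/
lemma chord {s t τ P Q : ℝ} (hs : 0 ≤ s) (h1 : s ≤ τ) (h2 : τ ≤ t)
    (e1 : GG s ≤ P + Q * Ph (-s)) (e2 : GG t ≤ P + Q * Ph (-t)) : GG τ ≤ P + Q * Ph (-τ) := by
  have hN : ∀ v, HasDerivAt (fun v => Ph (-v)) (-ph v) v := fun v =>
    ((hasDerivAt_Ph (-v)).comp v (hasDerivAt_neg v)).congr_deriv (by simp [ph_neg])
  have hg : ∀ v, HasDerivAt (fun v => v * ps v + Ph (-v)) (-2 * v * Ph (-v)) v := fun v =>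
    (((hasDerivAt_id v).mul (hasDerivAt_ps v)).add (hN v)).congr_deriv (by simp [ps]; ring)
  have hga : AntitoneOn (fun v => v * ps v + Ph (-v)) (Ici 0) :=
    antitoneOn_of_deriv_nonpos (convex_Ici 0) (fun v _ => (hg v).continuousAt.continuousWithinAt)
      (fun v _ => (hg v).differentiableAt.differentiableWithinAt) fun v hv => by
        rw [(hg v).deriv]
        have : 0 < v := by simpa using hv
        nlinarith [Ph_pos (-v)]
  have hh : ∀ v, HasDerivAt (fun v => P + Q * Ph (-v) - GG v)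
      (ph v * (2 * π * (v * ps v + Ph (-v)) - Q)) v := fun v =>
    ((((hN v).const_mul Q).const_add P).sub
      (((hasDerivAt_ph v).mul (hasDerivAt_ps v)).const_mul (2 * π))).congr_deriv (by ring)
  have hpi := Real.pi_pos
  by_cases hc : Q ≤ 2 * π * (τ * ps τ + Ph (-τ))
  · have hm : MonotoneOn (fun v => P + Q * Ph (-v) - GG v) (Icc s τ) :=
      monotoneOn_of_deriv_nonneg (convex_Icc _ _) (fun v _ => (hh v).continuousAt.continuousWithinAt)
        (fun v _ => (hh v).differentiableAt.differentiableWithinAt) fun v hv => by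
          rw [(hh v).deriv]
          rw [interior_Icc] at hv
          have := hga (show v ∈ Ici 0 from le_trans hs hv.1.le) (show τ ∈ Ici 0 from hs.trans h1)
            hv.2.le
          simp only at this
          exact mul_nonneg (ph_pos v).le (by nlinarith)
    have := hm ⟨le_rfl, h1⟩ ⟨h1, le_rfl⟩ h1
    simp only at this
    linarith
  · have hm : AntitoneOn (fun v => P + Q * Ph (-v) - GG v) (Icc τ t) :=
      antitoneOn_of_deriv_nonpos (convex_Icc _ _) (fun v _ => (hh v).continuousAt.continuousWithinAt)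
        (fun v _ => (hh v).differentiableAt.differentiableWithinAt) fun v hv => by
          rw [(hh v).deriv]
          rw [interior_Icc] at hv
          have := hga (show τ ∈ Ici 0 from hs.trans h1)
            (show v ∈ Ici 0 from le_trans (hs.trans h1) hv.1.le) hv.1.le
          simp only at this
          exact mul_nonpos_of_nonneg_of_nonpos (ph_pos v).le (by nlinarith)
    have := hm ⟨le_rfl, h2⟩ ⟨h2, le_rfl⟩ h2
    simp only at this
    linarith

lemma tendsto_mul_ph : Tendsto (fun t => t * ph t) atTop (𝓝 0) := by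
  have h1 : Tendsto (fun x : ℝ => x ^ 2 / 2) atTop atTop :=
    (tendsto_pow_atTop two_ne_zero).atTop_div_const (by norm_num)
  have h2 := ((Real.tendsto_pow_mul_exp_neg_atTop_nhds_zero 1).comp h1).const_mul (2 * ph 0)
  rw [mul_zero] at h2
  refine tendsto_of_tendsto_of_tendsto_of_le_of_le' tendsto_const_nhds h2 ?_ ?_
  · filter_upwards [eventually_ge_atTop 0] with t ht
    exact mul_nonneg ht (ph_pos t).le
  · filter_upwards [eventually_ge_atTop 1] with t ht
    simp only [Function.comp]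
    rw [ph_eq_mul t, neg_div]
    have h3 : 0 < ph 0 * Real.exp (-(t ^ 2 / 2)) := mul_pos (ph_pos 0) (Real.exp_pos _)
    nlinarith [mul_nonneg (mul_nonneg (by linarith : 0 ≤ t) (by linarith : 0 ≤ t - 1)) h3.le]

/-- Mills ratio bound -/
lemma mul_ps_le (t : ℝ) : t * ps t ≤ Ph (-t) := by
  have hN : ∀ v, HasDerivAt (fun v => Ph (-v)) (-ph v) v := fun v =>
    ((hasDerivAt_Ph (-v)).comp v (hasDerivAt_neg v)).congr_deriv (by simp [ph_neg])
  have hg : ∀ v, HasDerivAt (fun v => Ph (-v) - v * ps v) (-2 * ps v) v := fun v =>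
    ((hN v).sub ((hasDerivAt_id v).mul (hasDerivAt_ps v))).congr_deriv (by simp [ps]; ring)
  have ha : Antitone (fun v => Ph (-v) - v * ps v) :=
    antitone_of_deriv_nonpos (fun v => (hg v).differentiableAt) fun v => by
      rw [(hg v).deriv]; linarith [ps_nonneg v]
  have hl : Tendsto (fun v => Ph (-v) - v * ps v) atTop (𝓝 (0 - 0)) := by
    refine (tendsto_Ph_atBot.comp tendsto_neg_atTop_atBot).sub ?_
    refine tendsto_of_tendsto_of_tendsto_of_le_of_le' tendsto_const_nhds tendsto_mul_ph ?_ ?_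
    · filter_upwards [eventually_ge_atTop 0] with t ht
      exact mul_nonneg ht (ps_nonneg t)
    · filter_upwards [eventually_ge_atTop 0] with t ht
      exact mul_le_mul_of_nonneg_left (ps_le_ph ht) ht
  have := ha.le_of_tendsto hl t
  linarith

lemma ph_mul_ps_le {t : ℝ} (ht : 0 ≤ t) : ph t * ps t ≤ Ph (-t) ^ 2 := by
  have hN : ∀ v, HasDerivAt (fun v => Ph (-v)) (-ph v) v := fun v =>
    ((hasDerivAt_Ph (-v)).comp v (hasDerivAt_neg v)).congr_deriv (by simp [ph_neg])
  have hg : ∀ v, HasDerivAt (fun v => Ph (-v) ^ 2 - ph v * ps v)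
      (ph v * (v * ps v - Ph (-v))) v := fun v =>
    (((hN v).pow 2).sub ((hasDerivAt_ph v).mul (hasDerivAt_ps v))).congr_deriv (by simp; ring)
  have ha : AntitoneOn (fun v => Ph (-v) ^ 2 - ph v * ps v) (Ici 0) :=
    antitoneOn_of_deriv_nonpos (convex_Ici 0) (fun v _ => (hg v).continuousAt.continuousWithinAt)
      (fun v _ => (hg v).differentiableAt.differentiableWithinAt) fun v _ => by
        rw [(hg v).deriv]
        exact mul_nonpos_of_nonneg_of_nonpos (ph_pos v).le (by linarith [mul_ps_le v])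
  have hl : Tendsto (fun v => Ph (-v) ^ 2 - ph v * ps v) atTop (𝓝 (0 ^ 2 - 0 * 0)) :=
    ((tendsto_Ph_atBot.comp tendsto_neg_atTop_atBot).pow 2).sub
      (tendsto_ph_atTop.mul tendsto_ps_atTop)
  have : (0 : ℝ) ^ 2 - 0 * 0 ≤ Ph (-t) ^ 2 - ph t * ps t :=
    le_of_tendsto hl ((eventually_ge_atTop t).mono fun v hv => ha ht (ht.trans hv) hv)
  linarith

end Vale.Agent.P226
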