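import Vale.Agent.P226.Num1

/-! A verified checker for linear lower bounds on the measure of one cell. -/

open Real

namespace Vale.Agent.P226

lemma cle {a b : ℚ} (h : a ≤ b) : (a : ℝ) ≤ b := Rat.cast_le.2 h

lemma clt {a b : ℚ} (h : a < b) : (a : ℝ) < b := Rat.cast_lt.2 h

def tayQ (n : ℕ) (u : ℚ) : ℚ := ∑ i ∈ Finset.range (n + 1), (-u) ^ i / i.factorial

def itayQ (n : ℕ) (t : ℚ) : ℚ :=
  ∑ i ∈ Finset.range (n + 1), (-(t ^ 2 / 2)) ^ i / i.factorial * t / (2 * i + 1)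

lemma tayQ_cast (n : ℕ) (u : ℚ) : (tayQ n u : ℝ) = tay n u := by simp [tayQ, tay]

lemma itayQ_cast (n : ℕ) (t : ℚ) : (itayQ n t : ℝ) = itay n t := by simp [itayQ, itay]

def eHi (t : ℚ) : ℚ := tayQ 16 (t ^ 2 / 2)

def eLo (t : ℚ) : ℚ := tayQ 17 (t ^ 2 / 2)

def qLo (t : ℚ) : ℚ := 1 / 2 - 3989424 / 10000000 * itayQ 16 t

lemma le_eHi (t : ℚ) : Real.exp (-((t : ℝ) ^ 2 / 2)) ≤ eHi t := by
  have := exp_le_tay 8 (u := (t : ℝ) ^ 2 / 2) (by positivity)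
  rw [eHi, tayQ_cast]; push_cast; exact this

lemma eLo_le (t : ℚ) : (eLo t : ℝ) ≤ Real.exp (-((t : ℝ) ^ 2 / 2)) := by
  have := tay_le_exp 8 (u := (t : ℝ) ^ 2 / 2) (by positivity)
  rw [eLo, tayQ_cast]; push_cast; exact this

lemma qLo_le {t : ℚ} (ht : 0 ≤ t) (hi : 0 ≤ itayQ 16 t) : (qLo t : ℝ) ≤ Ph (-(t : ℝ)) := by
  have h1 := Ph_neg_ge 8 (t := (t : ℝ)) (by exact_mod_cast ht)
  have h2 : (0 : ℝ) ≤ itay 16 t := by rw [← itayQ_cast]; exact_mod_cast hi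
  have h3 := mul_le_mul_of_nonneg_right ph_zero_hi h2
  rw [qLo]; push_cast; rw [itayQ_cast]
  norm_num at h1 h3 ⊢
  linarith

def ptOK (t P Q : ℚ) : Bool :=
  decide (0 ≤ t) && decide (0 ≤ itayQ 16 t) && decide (0 ≤ eLo t) && decide (0 ≤ qLo t) &&
    decide (0 ≤ Q) &&
    decide (eHi t ^ 2 - t * (2506628 / 1000000) * eLo t * qLo t ≤ P + Q * qLo t)

lemma ptOK_sound {t P Q : ℚ} (h : ptOK t P Q = true) : GG t ≤ P + Q * Ph (-(t : ℝ)) := by
  simp only [ptOK, Bool.and_eq_true, decide_eq_true_eq] at h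
  obtain ⟨⟨⟨⟨⟨h1, h2⟩, h3⟩, h4⟩, h5⟩, h6⟩ := h
  have q := qLo_le h1 h2
  have h1' : (0 : ℝ) ≤ t := by exact_mod_cast h1
  have h3' : (0 : ℝ) ≤ eLo t := by exact_mod_cast h3
  have h4' : (0 : ℝ) ≤ qLo t := by exact_mod_cast h4
  have h5' : (0 : ℝ) ≤ Q := by exact_mod_cast h5
  have h6' := cle h6
  push_cast at h6'
  have e1 := le_eHi t
  have e2 := eLo_le t
  have e0 := Real.exp_pos (-((t : ℝ) ^ 2 / 2))
  have a1 : Real.exp (-((t : ℝ) ^ 2 / 2)) ^ 2 ≤ (eHi t : ℝ) ^ 2 := by gcongr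
  have a2 : t * (2506628 / 1000000) * eLo t * qLo t ≤
      t * √(2 * π) * Real.exp (-((t : ℝ) ^ 2 / 2)) * Ph (-(t : ℝ)) := by
    have := sqrt_two_pi_lo
    gcongr
    linarith
  have a3 : (Q : ℝ) * qLo t ≤ Q * Ph (-(t : ℝ)) := by gcongr
  rw [GG_eq]; linarith

def chainOK (t : ℚ) : List (ℚ × ℚ × ℚ) → Bool
  | [] => true
  | c :: l => ptOK t c.2.1 c.2.2 && ptOK c.1 c.2.1 c.2.2 && chainOK c.1 l

def lastT (t : ℚ) : List (ℚ × ℚ × ℚ) → ℚ
  | [] => t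
  | c :: l => lastT c.1 l

lemma chain_sound (l : List (ℚ × ℚ × ℚ)) : ∀ t : ℚ, 0 ≤ t → chainOK t l = true → ∀ τ : ℝ,
    (t : ℝ) ≤ τ → (∃ c ∈ l, GG τ ≤ c.2.1 + c.2.2 * Ph (-τ)) ∨ (lastT t l : ℝ) ≤ τ := by
  induction l with
  | nil => intro t _ _ τ h; exact Or.inr h
  | cons c l ih =>
    intro t ht h τ hτ
    simp only [chainOK, Bool.and_eq_true] at h
    obtain ⟨⟨h1, h2⟩, h3⟩ := h
    by_cases hc : τ ≤ c.1
    · exact Or.inl ⟨c, List.mem_cons_self,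
        chord (by exact_mod_cast ht) hτ hc (ptOK_sound h1) (ptOK_sound h2)⟩
    · have h0 : 0 ≤ c.1 := by
        simp only [ptOK, Bool.and_eq_true, decide_eq_true_eq] at h2
        exact h2.1.1.1.1.1
      rcases ih c.1 h0 h3 τ (not_le.1 hc).le with ⟨d, hd, hd'⟩ | h4
      · exact Or.inl ⟨d, List.mem_cons_of_mem _ hd, hd'⟩
      · exact Or.inr h4

def chords : List (ℚ × ℚ × ℚ) :=
  [(60 / 100, -335658 / 1000000, 251159 / 100000), (75 / 100, -251323 / 1000000, 220408 / 100000),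
   (90 / 100, -179196 / 1000000, 188582 / 100000), (110 / 100, -113466 / 1000000, 152871 / 100000),
   (130 / 100, -62820 / 1000000, 115539 / 100000), (155 / 100, -29324 / 1000000, 80936 / 100000),
   (180 / 100, -11316 / 1000000, 51206 / 100000), (210 / 100, -3447 / 1000000, 29304 / 100000),
   (240 / 100, -808 / 1000000, 14532 / 100000)]

def q0 : ℚ := 32635 / 100000

def gLast : ℚ := 3829 / 10000000

/-- entries `(τ, slope, intercept)` -/
def ilines : List (ℚ × ℚ × ℚ) :=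
  [(45 / 100, 88653 / 100000, 47482 / 100000), (30 / 100, 132980 / 100000, 88921 / 100000),
   (15 / 100, 265961 / 100000, 218949 / 100000)]

def iOK (c : ℚ × ℚ × ℚ) : Bool :=
  decide (0 < c.1) && decide (0 ≤ itayQ 16 c.1) && decide (c.2.1 * c.1 ≤ 3989421 / 10000000) &&
    decide (3989424 / 10000000 * eHi c.1 - c.1 * qLo c.1 ≤ c.2.2 * c.1)

lemma consts_ok : (chainOK (45 / 100) chords && ptOK (lastT (45 / 100) chords) gLast 0 &&
    decide (0 ≤ itayQ 16 (45 / 100)) && decide (q0 ≤ qLo (45 / 100)) && ilines.all iOK &&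
    chords.all (fun c => decide (0 < c.2.2))) = true := by decide +kernel

/-- what is known on one cell: size `ρ`, measure `a`, normalised gain bound `G` -/
structure Cell (ρ a G : ℝ) : Prop where
  pos : 0 ≤ ρ
  lin : 282 / 1000 * ρ ≤ a
  iso : ∀ c ∈ ilines, c.2.1 * ρ - c.2.2 ≤ a
  env : (q0 : ℝ) ≤ a ∨ (∃ c ∈ chords, G ≤ c.2.1 + c.2.2 * a) ∨ G ≤ gLast

lemma cell_of {ρ τ : ℝ} (hρ : 0 ≤ ρ) (hτ : 0 ≤ τ) (hI : ∀ t, ρ * ph 0 ≤ t * Ph (-τ) + ps t)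
    (hG : ρ ^ 2 / 2 ≤ GG τ) : Cell ρ (Ph (-τ)) (GG τ) := by
  have hc := consts_ok
  simp only [Bool.and_eq_true, decide_eq_true_eq, List.all_eq_true] at hc
  obtain ⟨⟨⟨⟨⟨c1, c2⟩, c3⟩, c4⟩, c5⟩, -⟩ := hc
  refine ⟨hρ, ?_, fun c hc => ?_, ?_⟩
  · have h1 := ph_mul_ps_le hτ
    have h2 : GG τ ≤ 2 * π * Ph (-τ) ^ 2 := by unfold GG; gcongr
    have h3 : 2 * π * Ph (-τ) ^ 2 ≤ 2 * 3.141593 * Ph (-τ) ^ 2 := by
      gcongr; exact Real.pi_lt_d6.le
    refine abs_le_of_sq_le_sq' ?_ (Ph_nonneg _) |>.2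
    nlinarith [sq_nonneg ρ]
  · have h := c5 c hc
    simp only [iOK, Bool.and_eq_true, decide_eq_true_eq] at h
    obtain ⟨⟨⟨h1, h2⟩, h3⟩, h4⟩ := h
    have q := qLo_le h1.le h2
    have h1' : (0 : ℝ) < c.1 := by exact_mod_cast h1
    have h3' := cle h3
    have h4' := cle h4
    push_cast at h3' h4'
    have e1 := le_eHi c.1
    have e0 := Real.exp_pos (-((c.1 : ℝ) ^ 2 / 2))
    have p1 : ph c.1 ≤ 3989424 / 10000000 * eHi c.1 := by
      rw [ph_eq_mul, neg_div]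
      have := ph_zero_hi
      gcongr
      linarith
    have p2 : ps c.1 ≤ c.2.2 * c.1 := by
      unfold ps
      nlinarith
    have p3 : c.2.1 * c.1 * ρ ≤ ρ * ph 0 := by
      have := ph_zero_lo
      nlinarith
    have := hI c.1
    refine le_of_mul_le_mul_left ?_ h1'
    nlinarith
  · by_cases h : τ ≤ (45 / 100 : ℚ)
    · left
      have h1 := qLo_le (t := 45 / 100) (by norm_num) c3
      have h2 : Ph (-((45 / 100 : ℚ) : ℝ)) ≤ Ph (-τ) := strictMono_Ph.monotone (by linarith)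
      have h3 : (q0 : ℝ) ≤ qLo (45 / 100) := by exact_mod_cast c4
      linarith
    · right
      rcases chain_sound chords (45 / 100) (by norm_num) c1 τ (not_le.1 h).le with h1 | h1
      · exact Or.inl h1
      · right
        have h2 := ptOK_sound c2
        have h0 : 0 ≤ lastT (45 / 100) chords := by
          simp only [ptOK, Bool.and_eq_true, decide_eq_true_eq] at c2
          exact c2.1.1.1.1.1
        have h3 := GG_anti (by exact_mod_cast h0) h1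
        simp at h2
        linarith

/-- `A x² + B x + C ≥ 0` on `[l, u]` -/
def quadOK (A B C l u : ℚ) : Bool :=
  decide (0 ≤ (A * l + B) * l + C) && decide (0 ≤ (A * u + B) * u + C) &&
    (decide (A ≤ 0) || decide (0 ≤ 2 * A * l + B) || decide (2 * A * u + B ≤ 0) ||
      decide (B * B ≤ 4 * A * C))

lemma quadOK_sound {A B C l u : ℚ} (h : quadOK A B C l u = true) {x : ℝ} (hl : (l : ℝ) ≤ x)
    (hu : x ≤ u) : 0 ≤ A * x ^ 2 + B * x + C := by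
  simp only [quadOK, Bool.and_eq_true, Bool.or_eq_true, decide_eq_true_eq] at h
  obtain ⟨⟨h1, h2⟩, h3⟩ := h
  have h1 := cle h1
  have h2 := cle h2
  push_cast at h1 h2
  have a := sub_nonneg.2 hl
  have b := sub_nonneg.2 hu
  rcases le_or_gt (A : ℝ) 0 with hA | hA
  · rcases eq_or_lt_of_le (hl.trans hu) with he | hlt
    · have hx : x = l := le_antisymm (he ▸ hu) hl
      rw [hx]
      nlinarith
    · have : 0 ≤ (u - l) * (A * x ^ 2 + B * x + C) := by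
        nlinarith [mul_nonneg b h1, mul_nonneg a h2,
          mul_nonneg (sub_pos.2 hlt).le (mul_nonneg (neg_nonneg.2 hA) (mul_nonneg a b))]
      exact nonneg_of_mul_nonneg_right this (sub_pos.2 hlt)
  · rcases h3 with ((h3 | h3) | h3) | h3 <;> have h3 := cle h3 <;> push_cast at h3
    · exact absurd h3 (not_le.2 hA)
    · nlinarith [mul_nonneg a h3, mul_nonneg hA.le (sq_nonneg (x - l))]
    · nlinarith [mul_nonneg b (neg_nonneg.2 h3), mul_nonneg hA.le (sq_nonneg (x - u))]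
    · refine nonneg_of_mul_nonneg_right ?_ hA
      nlinarith [sq_nonneg (2 * A * x + B)]

def baseOK (gl : ℚ → ℚ × ℚ) (p q b l u : ℚ) : Bool :=
  quadOK (-b) (282 / 1000 - q) (-p) l u ||
  ilines.any (fun c => quadOK (-b) (c.2.1 - q) (-c.2.2 - p) l u) ||
  (let g := gl ((l + u) / 2)
   quadOK (-b) (-q) (q0 - p) l u &&
    (decide (0 ≤ l) && decide (0 ≤ g.2) && decide (gLast < g.1 + g.2 * l ^ 2)) &&
    chords.all (fun c => quadOK (g.2 - c.2.2 * b) (-(c.2.2 * q)) (g.1 - c.2.1 - c.2.2 * p) l u))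

lemma baseOK_sound {gl : ℚ → ℚ × ℚ} {p q b l u : ℚ} (h : baseOK gl p q b l u = true) {ρ a G : ℝ}
    (hc : Cell ρ a G) (hg : ∀ m, (gl m).1 + (gl m).2 * ρ ^ 2 ≤ G) (hl : (l : ℝ) ≤ ρ) (hu : ρ ≤ u) :
    p + q * ρ + b * ρ ^ 2 ≤ a := by
  simp only [baseOK, Bool.or_eq_true, Bool.and_eq_true, decide_eq_true_eq, List.any_eq_true,
    List.all_eq_true] at h
  rcases h with (h | ⟨c, hc1, h⟩) | ⟨⟨h1, ⟨h2, h3⟩, h4⟩, h5⟩
  · have := quadOK_sound h hl hu
    push_cast at this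
    linarith [hc.lin]
  · have := quadOK_sound h hl hu
    push_cast at this
    linarith [hc.iso c hc1]
  · have g := hg ((l + u) / 2)
    rcases hc.env with e | ⟨c, hc1, e⟩ | e
    · have := quadOK_sound h1 hl hu
      push_cast at this
      linarith
    · have := quadOK_sound (h5 c hc1) hl hu
      push_cast at this
      have hk := consts_ok
      simp only [Bool.and_eq_true, decide_eq_true_eq, List.all_eq_true] at hk
      have hQ : (0 : ℝ) < c.2.2 := by exact_mod_cast hk.2 c hc1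
      refine le_of_mul_le_mul_left ?_ hQ
      nlinarith
    · exfalso
      have h2' : (0 : ℝ) ≤ l := by exact_mod_cast h2
      have h3' : (0 : ℝ) ≤ (gl ((l + u) / 2)).2 := by exact_mod_cast h3
      have h4' : (gLast : ℝ) < (gl ((l + u) / 2)).1 + (gl ((l + u) / 2)).2 * l ^ 2 := by
        exact_mod_cast h4
      have : (gl ((l + u) / 2)).2 * (l : ℝ) ^ 2 ≤ (gl ((l + u) / 2)).2 * ρ ^ 2 := by gcongr
      linarith

/-- the line `p + q ρ + b ρ²` is checked on the pieces of `[l, u]` cut at the points `c / 10000` -/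
def lineOK (gl : ℚ → ℚ × ℚ) (p q b u : ℚ) : List ℕ → ℚ → Bool
  | [], l => baseOK gl p q b l u
  | c :: cs, l => baseOK gl p q b l ((c : ℚ) / 10000) && lineOK gl p q b u cs ((c : ℚ) / 10000)

lemma lineOK_sound {gl : ℚ → ℚ × ℚ} {p q b u : ℚ} {ρ a G : ℝ} (hc : Cell ρ a G)
    (hg : ∀ m, (gl m).1 + (gl m).2 * ρ ^ 2 ≤ G) (cs : List ℕ) : ∀ {l : ℚ},
    lineOK gl p q b u cs l = true → (l : ℝ) ≤ ρ → ρ ≤ u → p + q * ρ + b * ρ ^ 2 ≤ a := by
  induction cs with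
  | nil => intro l h hl hu; exact baseOK_sound h hc hg hl hu
  | cons c cs ih =>
    intro l h hl hu
    simp only [lineOK, Bool.and_eq_true] at h
    rcases le_total ρ (((c : ℚ) / 10000 : ℚ) : ℝ) with h3 | h3
    · exact baseOK_sound h.1 hc hg hl h3
    · exact ih h.2 h3 hu

/-- a positive rational close to `√x` -/
def sq0 (x : ℚ) : ℚ := ((Nat.sqrt (x * 1000000).floor.toNat + 1 : ℕ) : ℚ) / 1000

lemma sq0_pos (x : ℚ) : (0 : ℝ) < sq0 x := by
  unfold sq0; push_cast; positivity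

/-- tangent lines of the standard gain bound -/
def glS (k : ℚ) (m : ℚ) : ℚ × ℚ :=
  let s := sq0 (9 / 4 - k * m ^ 2)
  ((9 / 4 - 27 / 16 / s - 3 / 4 * s) / k, 3 / 4 / s)

lemma glS_sound {k : ℚ} (hk : 0 < k) {ρ G : ℝ}
    (h : 9 / 4 - 3 / 2 * √(9 / 4 - k * ρ ^ 2) ≤ k * G) (h' : k * ρ ^ 2 ≤ 9 / 4) (m : ℚ) :
    (glS k m).1 + (glS k m).2 * ρ ^ 2 ≤ G := by
  simp only [glS]
  push_cast
  have hs := sq0_pos (9 / 4 - k * m ^ 2)
  generalize (sq0 (9 / 4 - k * m ^ 2) : ℝ) = s at hs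
  have hk' : (0 : ℝ) < k := by exact_mod_cast hk
  have h2 : √(9 / 4 - k * ρ ^ 2) ^ 2 = 9 / 4 - k * ρ ^ 2 := Real.sq_sqrt (by linarith)
  have h3 : 2 * √(9 / 4 - k * ρ ^ 2) ≤ (9 / 4 - k * ρ ^ 2) / s + s := by
    rw [div_add' _ _ _ hs.ne', le_div_iff₀ hs]
    nlinarith [sq_nonneg (√(9 / 4 - k * ρ ^ 2) - s)]
  refine le_of_mul_le_mul_left ?_ hk'
  have h4 : k * ((9 / 4 - 27 / 16 / s - 3 / 4 * s) / k + 3 / 4 / s * ρ ^ 2) =
      9 / 4 - 3 / 4 * ((9 / 4 - k * ρ ^ 2) / s + s) := by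
    field_simp; ring
  rw [h4]; linarith

/-- linear lower bounds for the gain with four cells, the smallest of size at most `u` -/
def glK (u : ℚ) (m : ℚ) : ℚ × ℚ :=
  let S := 27 / 4 - 4 * m ^ 2
  let L := max (9 / 2 - 3 * m ^ 2 - 3 * u ^ 2) (S / 3)
  let a' := sq0 ((S - L) / 2)
  let a := max (sq0 L) a'
  let d := 1 / (2 * a') - 1 / (2 * a)
  (3 / 4 * (9 / 4 - a / 4 - a' / 2 - 27 / (16 * a') + (9 / 4 - 3 / 2 * u ^ 2) * d),
    3 / 4 * (1 / a' - 3 / 2 * d))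

lemma glK_sound {u : ℚ} {ρ y G la lb lc : ℝ} (hy0 : 0 ≤ y) (hy : y ≤ u)
    (hS : la ^ 2 + lb ^ 2 + lc ^ 2 = 27 / 4 - 4 * ρ ^ 2) (hL : 9 / 2 - 3 * ρ ^ 2 - 3 * y ^ 2 ≤ la ^ 2)
    (h : 9 / 4 - (la + lb + lc) / 2 ≤ 4 / 3 * G) (m : ℚ) :
    (glK u m).1 + (glK u m).2 * ρ ^ 2 ≤ G := by
  simp only [glK]
  generalize max (9 / 2 - 3 * m ^ 2 - 3 * u ^ 2) ((27 / 4 - 4 * m ^ 2) / 3) = L
  have hs := sq0_pos ((27 / 4 - 4 * m ^ 2 - L) / 2)
  generalize sq0 ((27 / 4 - 4 * m ^ 2 - L) / 2) = a' at hs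
  have ha := cle (le_max_right (sq0 L) a')
  generalize max (sq0 L) a' = a at ha
  push_cast
  have ha0 : (0 : ℝ) < a := lt_of_lt_of_le hs ha
  have hd : (0 : ℝ) ≤ 1 / (2 * a') - 1 / (2 * a) :=
    sub_nonneg.2 (one_div_le_one_div_of_le (by positivity) (by linarith))
  have am : ∀ x s : ℝ, 0 < s → x ≤ x ^ 2 * (1 / (2 * s)) + s / 2 := fun x s hs => by
    rw [mul_one_div, div_add' _ _ _ (by positivity), le_div_iff₀ (by positivity)]
    nlinarith [sq_nonneg (x - s)]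
  have e1 := am la a ha0
  have e2 := am lb a' hs
  have e3 := am lc a' hs
  have hy2 : y ^ 2 ≤ (u : ℝ) ^ 2 := by gcongr
  have e4 := mul_le_mul_of_nonneg_right
    (show 9 / 2 - 3 * ρ ^ 2 - 3 * (u : ℝ) ^ 2 ≤ la ^ 2 by linarith) hd
  have e5 : (27 : ℝ) / (16 * a') = 27 / 8 * (1 / (2 * a')) := by field_simp; norm_num
  have e6 : (1 : ℝ) / a' = 2 * (1 / (2 * a')) := by field_simp
  rw [e5, e6]
  generalize (1 : ℝ) / (2 * a') = i' at *
  generalize (1 : ℝ) / (2 * a) = i at *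
  have e7 : (la ^ 2 + lb ^ 2 + lc ^ 2) * i' = (27 / 4 - 4 * ρ ^ 2) * i' := by rw [hS]
  linarith

end Vale.Agent.P226
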