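import Vale.Agent.P226.Num2

/-! A verified branch-and-bound checker for the numerical part. -/

open Real

namespace Vale.Agent.P226

structure Box where
  l1 : ℚ
  l2 : ℚ
  l3 : ℚ
  l4 : ℚ
  l5 : ℚ
  u1 : ℚ
  u2 : ℚ
  u3 : ℚ
  u4 : ℚ
  u5 : ℚ
  k0 : ℕ
  k1 : ℕ

/-- five sorted sizes and the number of cells; `k1 = 0` means no upper bound -/
structure Box.Mem (B : Box) (x1 x2 x3 x4 x5 : ℝ) (K : ℕ) : Prop where
  l1 : B.l1 ≤ x1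
  l2 : B.l2 ≤ x2
  l3 : B.l3 ≤ x3
  l4 : B.l4 ≤ x4
  l5 : B.l5 ≤ x5
  u1 : x1 ≤ B.u1
  u2 : x2 ≤ B.u2
  u3 : x3 ≤ B.u3
  u4 : x4 ≤ B.u4
  u5 : x5 ≤ B.u5
  k0 : B.k0 ≤ K
  k1 : B.k1 = 0 ∨ K ≤ B.k1

def mn (a b : ℚ) : ℚ := if a ≤ b then a else b

def mx (a b : ℚ) : ℚ := if a ≤ b then b else a

lemma le_mn {x : ℝ} {a b : ℚ} (h1 : x ≤ a) (h2 : x ≤ b) : x ≤ mn a b := by
  unfold mn; split_ifs <;> assumption

lemma mx_le {x : ℝ} {a b : ℚ} (h1 : a ≤ x) (h2 : b ≤ x) : mx a b ≤ x := by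
  unfold mx; split_ifs <;> assumption

def Box.lo (B : Box) (c : ℚ) : ℕ → Box
  | 0 => { B with u1 := c, u2 := mn B.u2 c, u3 := mn B.u3 c, u4 := mn B.u4 c, u5 := mn B.u5 c }
  | 1 => { B with u2 := c, u3 := mn B.u3 c, u4 := mn B.u4 c, u5 := mn B.u5 c }
  | 2 => { B with u3 := c, u4 := mn B.u4 c, u5 := mn B.u5 c }
  | 3 => { B with u4 := c, u5 := mn B.u5 c }
  | _ => { B with u5 := c }

def Box.hi (B : Box) (c : ℚ) : ℕ → Box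
  | 0 => { B with l1 := c }
  | 1 => { B with l2 := c, l1 := mx B.l1 c }
  | 2 => { B with l3 := c, l2 := mx B.l2 c, l1 := mx B.l1 c }
  | 3 => { B with l4 := c, l3 := mx B.l3 c, l2 := mx B.l2 c, l1 := mx B.l1 c }
  | _ => { B with l5 := c, l4 := mx B.l4 c, l3 := mx B.l3 c, l2 := mx B.l2 c, l1 := mx B.l1 c }

lemma Box.Mem.split {B : Box} {x1 x2 x3 x4 x5 : ℝ} {K : ℕ} (h : B.Mem x1 x2 x3 x4 x5 K)
    (s1 : x2 ≤ x1) (s2 : x3 ≤ x2) (s3 : x4 ≤ x3) (s4 : x5 ≤ x4) (c : ℚ) (i : ℕ) :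
    (B.lo c i).Mem x1 x2 x3 x4 x5 K ∨ (B.hi c i).Mem x1 x2 x3 x4 x5 K := by
  obtain ⟨l1, l2, l3, l4, l5, u1, u2, u3, u4, u5, k0, k1⟩ := h
  match i with
  | 0 =>
    rcases le_total x1 c with h | h
    · exact Or.inl ⟨l1, l2, l3, l4, l5, h, le_mn u2 (by linarith), le_mn u3 (by linarith),
        le_mn u4 (by linarith), le_mn u5 (by linarith), k0, k1⟩
    · exact Or.inr ⟨h, l2, l3, l4, l5, u1, u2, u3, u4, u5, k0, k1⟩
  | 1 =>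
    rcases le_total x2 c with h | h
    · exact Or.inl ⟨l1, l2, l3, l4, l5, u1, h, le_mn u3 (by linarith),
        le_mn u4 (by linarith), le_mn u5 (by linarith), k0, k1⟩
    · exact Or.inr ⟨mx_le l1 (by linarith), h, l3, l4, l5, u1, u2, u3, u4, u5, k0, k1⟩
  | 2 =>
    rcases le_total x3 c with h | h
    · exact Or.inl ⟨l1, l2, l3, l4, l5, u1, u2, h,
        le_mn u4 (by linarith), le_mn u5 (by linarith), k0, k1⟩
    · exact Or.inr ⟨mx_le l1 (by linarith), mx_le l2 (by linarith), h, l4, l5, u1, u2, u3, u4, u5,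
        k0, k1⟩
  | 3 =>
    rcases le_total x4 c with h | h
    · exact Or.inl ⟨l1, l2, l3, l4, l5, u1, u2, u3, h, le_mn u5 (by linarith), k0, k1⟩
    · exact Or.inr ⟨mx_le l1 (by linarith), mx_le l2 (by linarith), mx_le l3 (by linarith), h, l5,
        u1, u2, u3, u4, u5, k0, k1⟩
  | n + 4 =>
    rcases le_total x5 c with h | h
    · exact Or.inl ⟨l1, l2, l3, l4, l5, u1, u2, u3, u4, h, k0, k1⟩
    · exact Or.inr ⟨mx_le l1 (by linarith), mx_le l2 (by linarith), mx_le l3 (by linarith),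
        mx_le l4 (by linarith), h, u1, u2, u3, u4, u5, k0, k1⟩

/-- a line: intercept in units of `10⁻⁵` and cut points -/
structure Ln where
  p : ℤ
  cuts : List ℕ

def Ln.v (L : Ln) : ℚ := (L.p : ℚ) / 100000

/-- certificate of a leaf; `b, q, w, rm, sg, s0` in units of `10⁻³` -/
structure Cert where
  mode : ℕ
  b : ℕ
  q : ℕ
  w : ℕ
  rm : ℕ
  sg : ℕ
  s0 : ℕ
  c1 : Ln
  c2 : Ln
  c3 : Ln
  c4 : Ln
  c5 : Ln
  cT : Ln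

inductive Tr where
  | inf : Tr
  | leaf (c : Cert) : Tr
  | node (i : ℕ) (c : ℕ) (a b : Tr) : Tr
  | nodeK (c : ℕ) (a b : Tr) : Tr

def infOK (B : Box) : Bool :=
  decide (0 ≤ B.l1) && decide (0 ≤ B.l2) && decide (0 ≤ B.l3) && decide (0 ≤ B.l4) &&
    decide (0 ≤ B.l5) && decide (9 / 4 < B.l1 ^ 2 + B.l2 ^ 2 + B.l3 ^ 2 + B.l4 ^ 2 + B.l5 ^ 2)

def check (lf : Box → Cert → Bool) : Tr → Box → Bool
  | .inf, B => infOK B
  | .leaf c, B => lf B c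
  | .node i c a b, B => check lf a (B.lo ((c : ℚ) / 10000) i) && check lf b (B.hi ((c : ℚ) / 10000) i)
  | .nodeK c a b, B => check lf a { B with k1 := c } && check lf b { B with k0 := c + 1 }

lemma check_sound {lf : Box → Cert → Bool} {x1 x2 x3 x4 x5 : ℝ} {K : ℕ}
    (s1 : x2 ≤ x1) (s2 : x3 ≤ x2) (s3 : x4 ≤ x3) (s4 : x5 ≤ x4)
    (hs : x1 ^ 2 + x2 ^ 2 + x3 ^ 2 + x4 ^ 2 + x5 ^ 2 ≤ 9 / 4)
    (hlf : ∀ B c, lf B c = true → B.Mem x1 x2 x3 x4 x5 K → False) (t : Tr) :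
    ∀ B, check lf t B = true → B.Mem x1 x2 x3 x4 x5 K → False := by
  induction t with
  | inf =>
    intro B h hm
    simp only [check, infOK, Bool.and_eq_true, decide_eq_true_eq] at h
    obtain ⟨⟨⟨⟨⟨h1, h2⟩, h3⟩, h4⟩, h5⟩, h6⟩ := h
    have h1 := cle h1
    have h2 := cle h2
    have h3 := cle h3
    have h4 := cle h4
    have h5 := cle h5
    have h6 := clt h6
    push_cast at h1 h2 h3 h4 h5 h6
    have := pow_le_pow_left₀ h1 hm.l1 2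
    have := pow_le_pow_left₀ h2 hm.l2 2
    have := pow_le_pow_left₀ h3 hm.l3 2
    have := pow_le_pow_left₀ h4 hm.l4 2
    have := pow_le_pow_left₀ h5 hm.l5 2
    linarith
  | leaf c => exact fun B h hm => hlf B c h hm
  | node i c a b iha ihb =>
    intro B h hm
    simp only [check, Bool.and_eq_true] at h
    rcases hm.split s1 s2 s3 s4 ((c : ℚ) / 10000) i with h1 | h1
    · exact iha _ h.1 h1
    · exact ihb _ h.2 h1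
  | nodeK c a b iha ihb =>
    intro B h hm
    simp only [check, Bool.and_eq_true] at h
    obtain ⟨l1, l2, l3, l4, l5, u1, u2, u3, u4, u5, k0, k1⟩ := hm
    rcases le_or_gt K c with h1 | h1
    · exact iha _ h.1 ⟨l1, l2, l3, l4, l5, u1, u2, u3, u4, u5, k0, Or.inr h1⟩
    · exact ihb _ h.2 ⟨l1, l2, l3, l4, l5, u1, u2, u3, u4, u5, h1, k1⟩

/-- the small-ball condition for a cell of size `y` -/
def SB (K : ℕ) (x2 x3 y : ℝ) : Prop :=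
  ∃ P2 P3 : ℝ, x2 ^ 2 - y ^ 2 ≤ P2 ∧ x3 ^ 2 - y ^ 2 ≤ P3 ∧ P3 ≤ x3 ^ 2 ∧
    9 * π ^ 2 * (P3 * (P2 - P3 / 4)) ≤ K ^ 4 * y ^ 2

def sbOK (B : Box) (w : ℚ) : Bool :=
  decide (w = 0) ||
  (let e := w ^ 2 / (B.k0 : ℚ) ^ 4
   decide (0 < B.k0) && decide (0 ≤ B.l2) && decide (0 ≤ B.l3) && decide (2 * e ≤ B.l2 ^ 2) &&
    decide (e ≤ B.l3 ^ 2) &&
    decide (w ^ 2 ≤ 9 * (314159 / 100000) ^ 2 *
      ((B.l3 ^ 2 - e) * (B.l2 ^ 2 - e - (B.l3 ^ 2 - e) / 4))))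

lemma sbOK_sound {B : Box} {w : ℚ} (h : sbOK B w = true) {x1 x2 x3 x4 x5 y : ℝ} {K : ℕ}
    (hm : B.Mem x1 x2 x3 x4 x5 K) (s2 : x3 ≤ x2) (hy : 0 ≤ y) (hsb : SB K x2 x3 y) :
    w ≤ y * K ^ 2 := by
  simp only [sbOK, Bool.or_eq_true, Bool.and_eq_true, decide_eq_true_eq] at h
  rcases h with h | ⟨⟨⟨⟨⟨h1, h2⟩, h3⟩, h4⟩, h5⟩, h6⟩
  · rw [h]; push_cast; positivity
  have h2 := cle h2
  have h3 := cle h3
  have h4 := cle h4
  have h5 := cle h5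
  have h6 := cle h6
  push_cast at h2 h3 h4 h5 h6
  by_contra hc
  have hc := not_le.1 hc
  obtain ⟨P2, P3, p1, p2, p3, p4⟩ := hsb
  have k0 : (0 : ℝ) < B.k0 := by exact_mod_cast h1
  have k1 : (B.k0 : ℝ) ≤ K := by exact_mod_cast hm.k0
  have a1 : K ^ 4 * y ^ 2 < (w : ℝ) ^ 2 := by
    have : (y * K ^ 2) ^ 2 < (w : ℝ) ^ 2 := pow_lt_pow_left₀ hc (by positivity) two_ne_zero
    nlinarith
  have a2 : y ^ 2 ≤ (w : ℝ) ^ 2 / B.k0 ^ 4 := by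
    rw [le_div_iff₀ (by positivity)]
    have : y ^ 2 * (B.k0 : ℝ) ^ 4 ≤ y ^ 2 * K ^ 4 := by gcongr
    linarith
  generalize (w : ℝ) ^ 2 / B.k0 ^ 4 = e at *
  have b2 := pow_le_pow_left₀ h2 hm.l2 2
  have b3 := pow_le_pow_left₀ h3 hm.l3 2
  have b4 := pow_le_pow_left₀ (h3.trans hm.l3) s2 2
  have c1 : (B.l3 ^ 2 - e) * (B.l2 ^ 2 - e - (B.l3 ^ 2 - e) / 4) ≤ P3 * (P2 - P3 / 4) := by
    have d1 : 0 ≤ (P3 - (B.l3 ^ 2 - e)) * (P2 - (P3 + (B.l3 ^ 2 - e)) / 4) :=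
      mul_nonneg (by linarith) (by nlinarith [sq_nonneg y])
    have d2 : 0 ≤ (B.l3 ^ 2 - e) * (P2 - (B.l2 ^ 2 - e)) := mul_nonneg (by linarith) (by linarith)
    nlinarith
  generalize ((B.l3 : ℝ) ^ 2 - e) * (B.l2 ^ 2 - e - (B.l3 ^ 2 - e) / 4) = X at *
  have hX : 0 ≤ X := by nlinarith [sq_nonneg (w : ℝ)]
  have hp : (314159 / 100000 : ℝ) ^ 2 ≤ π ^ 2 :=
    pow_le_pow_left₀ (by norm_num) (by linarith [Real.pi_gt_d6]) 2
  have : (314159 / 100000 : ℝ) ^ 2 * X ≤ π ^ 2 * (P3 * (P2 - P3 / 4)) := by gcongr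
  linarith

/-- balance condition: `c` cells are left out -/
def balOK (B : Box) (c : ℕ) (s0 sg : ℚ) : Bool :=
  decide (0 < B.k0) && decide (0 ≤ B.l1) && decide (0 ≤ B.l3) && decide (0 ≤ s0) &&
    decide (s0 ^ 2 ≤ B.l3 ^ 2 - B.u1 ^ 2 / 4) && decide (1 / 2 ≤ B.l1 * (1 - c / B.k0)) &&
    decide (sg * (23874 / 100000) ≤ (B.l1 * (1 - c / B.k0) - 1 / 2) * s0)

lemma balOK_sound {B : Box} {c : ℕ} {s0 sg : ℚ} (h : balOK B c s0 sg = true)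
    {x1 x2 x3 x4 x5 s R : ℝ} {K : ℕ} (hm : B.Mem x1 x2 x3 x4 x5 K) (hs0 : 0 ≤ s) (hR : 0 ≤ R)
    (hs : x3 ^ 2 - x1 ^ 2 / 4 ≤ s ^ 2) (hb : (x1 * ((K - c) / K) - 1 / 2) * s ≤ 3 / (4 * π) * R) :
    sg ≤ R := by
  simp only [balOK, Bool.and_eq_true, decide_eq_true_eq] at h
  obtain ⟨⟨⟨⟨⟨⟨h1, h2⟩, h3⟩, h4⟩, h5⟩, h6⟩, h7⟩ := h
  have h2 := cle h2
  have h3 := cle h3
  have h4 := cle h4
  have h5 := cle h5
  have h6 := cle h6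
  have h7 := cle h7
  push_cast at h2 h3 h4 h5 h6 h7
  have k0 : (0 : ℝ) < B.k0 := by exact_mod_cast h1
  have k1 : (B.k0 : ℝ) ≤ K := by exact_mod_cast hm.k0
  have a1 : 1 - (c : ℝ) / B.k0 ≤ (K - c) / K := by
    rw [sub_div, div_self (by linarith)]
    have : (c : ℝ) / K ≤ c / B.k0 := by gcongr
    linarith
  have a0 : 0 ≤ 1 - (c : ℝ) / B.k0 := by
    by_contra hc
    nlinarith [not_le.1 hc]
  have a2 : B.l1 * (1 - (c : ℝ) / B.k0) ≤ x1 * ((K - c) / K) :=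
    mul_le_mul hm.l1 a1 a0 (h2.trans hm.l1)
  have b3 := pow_le_pow_left₀ h3 hm.l3 2
  have b1 := pow_le_pow_left₀ (h2.trans hm.l1) hm.u1 2
  have a3 : (s0 : ℝ) ≤ s := (abs_le_of_sq_le_sq' (by linarith) hs0).2
  have a4 : (B.l1 * (1 - (c : ℝ) / B.k0) - 1 / 2) * s0 ≤ (x1 * ((K - c) / K) - 1 / 2) * s :=
    mul_le_mul (by linarith) a3 h4 (by linarith)
  have a5 : 3 / (4 * π) ≤ (23874 / 100000 : ℝ) := by
    rw [div_le_iff₀ (by positivity)]; linarith [Real.pi_gt_d6]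
  have a6 := mul_le_mul_of_nonneg_right a5 hR
  linarith

def kap (B : Box) : ℚ := if B.k1 = 0 then 1 else (B.k1 : ℚ) / ((B.k1 : ℚ) - 1)

def leaf5 (B : Box) (c : Cert) : Bool :=
  let b : ℚ := (c.b : ℚ) / 1000
  let q : ℚ := (c.q : ℚ) / 1000
  let w : ℚ := (c.w : ℚ) / 1000
  let rm : ℚ := (c.rm : ℚ) / 1000
  let sg : ℚ := (c.sg : ℚ) / 1000
  let s0 : ℚ := (c.s0 : ℚ) / 1000
  let gl := glS (kap B)
  decide (5 ≤ B.k0) && sbOK B w && (decide (c.rm = 0) ||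
    (decide (B.k1 ≠ 0) && decide (rm * (B.k1 : ℚ) ^ 2 ≤ w))) &&
  (decide (B.u5 < rm) ||
   ((if c.mode = 0 then decide (c.sg = 0) || (decide (B.k1 ≠ 0) &&
        decide (sg * (B.k0 : ℚ) ^ 2 ≤ (B.k0 - 5) * w) && decide (sg * (B.k1 : ℚ) ^ 2 ≤ (B.k1 - 5) * w))
      else if c.mode = 1 then balOK B 4 s0 sg else balOK B 3 s0 sg) &&
    (decide (0 ≤ c.cT.p) || decide (B.k1 ≠ 0)) &&
    decide (1 < 9 / 4 * b + c.c1.v + c.c2.v + c.c3.v + c.c4.v + c.c5.v + q * sg +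
      (if 0 ≤ c.cT.p then ((B.k0 : ℚ) - 5) * c.cT.v else ((B.k1 : ℚ) - 5) * c.cT.v)) &&
    lineOK gl c.c1.v 0 b B.u1 c.c1.cuts B.l1 && lineOK gl c.c2.v 0 b B.u2 c.c2.cuts B.l2 &&
    lineOK gl c.c3.v 0 b B.u3 c.c3.cuts B.l3 &&
    lineOK gl c.c4.v (if c.mode = 0 ∨ c.mode = 1 then 0 else q) b B.u4 c.c4.cuts (mx B.l4 rm) &&
    lineOK gl c.c5.v (if c.mode = 0 then 0 else q) b B.u5 c.c5.cuts (mx B.l5 rm) &&
    lineOK gl c.cT.v q b B.u5 c.cT.cuts rm))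

def leaf4 (B : Box) (c : Cert) : Bool :=
  let b : ℚ := (c.b : ℚ) / 1000
  let w : ℚ := (c.w : ℚ) / 1000
  let gl := glK B.u4
  sbOK B w && (decide (B.u4 < w / 16) ||
    (decide (1 < 9 / 4 * b + c.c1.v + c.c2.v + c.c3.v + c.c4.v) &&
    lineOK gl c.c1.v 0 b B.u1 c.c1.cuts B.l1 && lineOK gl c.c2.v 0 b B.u2 c.c2.cuts B.l2 &&
    lineOK gl c.c3.v 0 b B.u3 c.c3.cuts B.l3 &&
    lineOK (glS (4 / 3)) c.c4.v 0 b B.u4 c.c4.cuts (mx B.l4 (w / 16))))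

end Vale.Agent.P226
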