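import Vale.Agent.P226.Num3

/-! Soundness of the leaf checks. -/

open Real

namespace Vale.Agent.P226

/-- a cell together with the standard gain bound for the ratio `κ` -/
def FC (κ ρ a : ℝ) : Prop :=
  ∃ G, Cell ρ a G ∧ 0 ≤ G ∧ κ * ρ ^ 2 ≤ 9 / 4 ∧ 9 / 4 - 3 / 2 * √(9 / 4 - κ * ρ ^ 2) ≤ κ * G

lemma gain_mono {k κ ρ G : ℝ} (hk : 0 < k) (hκ : k ≤ κ) (hG : 0 ≤ G) (h1 : κ * ρ ^ 2 ≤ 9 / 4)
    (h : 9 / 4 - 3 / 2 * √(9 / 4 - κ * ρ ^ 2) ≤ κ * G) :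
    9 / 4 - 3 / 2 * √(9 / 4 - k * ρ ^ 2) ≤ k * G := by
  have h0 : k * ρ ^ 2 ≤ κ * ρ ^ 2 := by gcongr
  have e1 : √(9 / 4 - κ * ρ ^ 2) ^ 2 = 9 / 4 - κ * ρ ^ 2 := Real.sq_sqrt (by linarith)
  have e2 : √(9 / 4 - k * ρ ^ 2) ^ 2 = 9 / 4 - k * ρ ^ 2 := Real.sq_sqrt (by linarith)
  have e3 : √(9 / 4 - κ * ρ ^ 2) ≤ √(9 / 4 - k * ρ ^ 2) := Real.sqrt_le_sqrt (by linarith)
  have e4 := Real.sqrt_nonneg (9 / 4 - κ * ρ ^ 2)
  generalize √(9 / 4 - κ * ρ ^ 2) = s at *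
  generalize √(9 / 4 - k * ρ ^ 2) = s0 at *
  have a1 : κ * (3 / 2 * ρ ^ 2) ≤ κ * (G * (3 / 2 + s)) := by
    nlinarith [mul_le_mul_of_nonneg_right h (show 0 ≤ 3 / 2 + s by linarith)]
  have a2 := le_of_mul_le_mul_left a1 (hk.trans_le hκ)
  have a3 : G * (3 / 2 + s) ≤ G * (3 / 2 + s0) := by gcongr
  refine le_of_mul_le_mul_right ?_ (show 0 < 3 / 2 + s0 by linarith)
  nlinarith [mul_le_mul_of_nonneg_left (a2.trans a3) hk.le]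

lemma FC.line {κ ρ a : ℝ} (h : FC κ ρ a) {k : ℚ} (hk : 0 < k) (hκ : k ≤ κ) {p q b u l : ℚ}
    {cs : List ℕ} (hl : lineOK (glS k) p q b u cs l = true) (h1 : (l : ℝ) ≤ ρ) (h2 : ρ ≤ u) :
    p + q * ρ + b * ρ ^ 2 ≤ a := by
  obtain ⟨G, hc, hG, h3, h4⟩ := h
  have hk' : (0 : ℝ) < k := by exact_mod_cast hk
  have h0 : k * ρ ^ 2 ≤ κ * ρ ^ 2 := by gcongr
  exact lineOK_sound hc (glS_sound hk (gain_mono hk' hκ hG h3 h4) (h0.trans h3)) cs hl h1 h2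

lemma FC.pos {κ ρ a : ℝ} (h : FC κ ρ a) : 0 ≤ ρ := by
  obtain ⟨G, hc, -⟩ := h
  exact hc.pos

lemma kap_le {B : Box} {x1 x2 x3 x4 x5 : ℝ} {K : ℕ} (hm : B.Mem x1 x2 x3 x4 x5 K) (hK : 2 ≤ K) :
    0 < kap B ∧ (kap B : ℝ) ≤ K / (K - 1) := by
  have hK' : (2 : ℝ) ≤ K := by exact_mod_cast hK
  unfold kap
  split_ifs with h
  · refine ⟨one_pos, ?_⟩
    rw [le_div_iff₀ (by linarith)]; push_cast; linarith
  · have h1 : K ≤ B.k1 := hm.k1.resolve_left h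
    have h2 : (K : ℝ) ≤ B.k1 := by exact_mod_cast h1
    have h3 : (2 : ℚ) ≤ B.k1 := by exact_mod_cast hK.trans h1
    refine ⟨div_pos (by linarith) (by linarith), ?_⟩
    push_cast
    rw [div_le_div_iff₀ (by linarith) (by linarith)]
    nlinarith

lemma leaf5_sound {m : ℕ} {x1 x2 x3 x4 x5 a1 a2 a3 a4 a5 : ℝ} {ρ a : Fin m → ℝ} {κ : ℝ}
    (hκ : κ = ((m + 5 : ℕ) : ℝ) / ((m + 5 : ℕ) - 1))
    (s2 : x3 ≤ x2) (s5 : ∀ i, ρ i ≤ x5)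
    (f1 : FC κ x1 a1) (f2 : FC κ x2 a2) (f3 : FC κ x3 a3) (f4 : FC κ x4 a4) (f5 : FC κ x5 a5)
    (fT : ∀ i, FC κ (ρ i) (a i))
    (hs : x1 ^ 2 + x2 ^ 2 + x3 ^ 2 + x4 ^ 2 + x5 ^ 2 + ∑ i, ρ i ^ 2 = 9 / 4)
    (ha : a1 + a2 + a3 + a4 + a5 + ∑ i, a i ≤ 1)
    (b4 : SB (m + 5) x2 x3 x4) (b5 : SB (m + 5) x2 x3 x5) (bT : ∀ i, SB (m + 5) x2 x3 (ρ i))
    (t4 : ∃ s, 0 ≤ s ∧ x3 ^ 2 - x1 ^ 2 / 4 ≤ s ^ 2 ∧
      (x1 * ((((m + 5 : ℕ) : ℝ) - (4 : ℕ)) / (m + 5 : ℕ)) - 1 / 2) * s ≤ 3 / (4 * π) * (x5 + ∑ i, ρ i))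
    (t3 : ∃ s, 0 ≤ s ∧ x3 ^ 2 - x1 ^ 2 / 4 ≤ s ^ 2 ∧
      (x1 * ((((m + 5 : ℕ) : ℝ) - (3 : ℕ)) / (m + 5 : ℕ)) - 1 / 2) * s ≤
        3 / (4 * π) * (x4 + x5 + ∑ i, ρ i))
    (B : Box) (c : Cert) (h : leaf5 B c = true) (hm : B.Mem x1 x2 x3 x4 x5 (m + 5)) : False := by
  simp only [leaf5, Bool.and_eq_true, Bool.or_eq_true, decide_eq_true_eq] at h
  obtain ⟨⟨⟨hk5, hsb⟩, hrm⟩, h⟩ := h
  obtain ⟨kp, kl⟩ := kap_le hm (by omega)
  rw [← hκ] at kl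
  have hq : (0 : ℚ) ≤ (c.q : ℚ) / 1000 := by positivity
  have hw : (0 : ℚ) ≤ (c.w : ℚ) / 1000 := by positivity
  have hrm' : ∀ y, 0 ≤ y → SB (m + 5) x2 x3 y → (((c.rm : ℚ) / 1000 : ℚ) : ℝ) ≤ y := by
    intro y hy hb
    rcases hrm with h0 | ⟨h0, h1⟩
    · rw [h0]; simpa using hy
    · have e1 := sbOK_sound hsb hm s2 hy hb
      have e2 := cle h1
      have e3 : m + 5 ≤ B.k1 := hm.k1.resolve_left h0
      have e4 : (((m + 5 : ℕ) : ℝ)) ≤ B.k1 := by exact_mod_cast e3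
      have e5 : (0 : ℝ) < (m + 5 : ℕ) := by positivity
      have e6 : y * ((m + 5 : ℕ) : ℝ) ^ 2 ≤ y * (B.k1 : ℝ) ^ 2 := by gcongr
      rw [Rat.cast_mul, Rat.cast_pow, Rat.cast_natCast] at e2
      exact le_of_mul_le_mul_right (e2.trans (e1.trans e6)) (pow_pos (e5.trans_le e4) 2)
  have hsg0 : c.sg = 0 → (((c.sg : ℚ) / 1000 : ℚ) : ℝ) = 0 := fun h => by rw [h]; simp
  generalize (c.b : ℚ) / 1000 = b at *
  generalize (c.q : ℚ) / 1000 = q at *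
  generalize (c.w : ℚ) / 1000 = w at *
  generalize (c.rm : ℚ) / 1000 = rm at *
  generalize (c.sg : ℚ) / 1000 = sg at *
  generalize (c.s0 : ℚ) / 1000 = s0 at *
  have r4 := hrm' _ f4.pos b4
  have r5 := hrm' _ f5.pos b5
  rcases h with h | ⟨⟨⟨⟨⟨⟨⟨⟨hsg, hp⟩, hfin⟩, L1⟩, L2⟩, L3⟩, L4⟩, L5⟩, LT⟩
  · have := clt h
    linarith [hm.u5]
  have e1 := f1.line kp kl L1 hm.l1 hm.u1
  have e2 := f2.line kp kl L2 hm.l2 hm.u2
  have e3 := f3.line kp kl L3 hm.l3 hm.u3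
  have e4 := f4.line kp kl L4 (mx_le hm.l4 r4) hm.u4
  have e5 := f5.line kp kl L5 (mx_le hm.l5 r5) hm.u5
  have eT : ∑ i, ((c.cT.v : ℝ) + q * ρ i + b * ρ i ^ 2) ≤ ∑ i, a i := Finset.sum_le_sum fun i _ =>
    (fT i).line kp kl LT (hrm' _ (fT i).pos (bT i)) ((s5 i).trans hm.u5)
  rw [Finset.sum_add_distrib, Finset.sum_add_distrib, ← Finset.mul_sum, ← Finset.mul_sum,
    Finset.sum_const, Finset.card_univ, Fintype.card_fin, nsmul_eq_mul] at eT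
  have hR : 0 ≤ ∑ i, ρ i := Finset.sum_nonneg fun i _ => (fT i).pos
  have k0 : (B.k0 : ℝ) ≤ m + 5 := by exact_mod_cast hm.k0
  have eP : (((if 0 ≤ c.cT.p then ((B.k0 : ℚ) - 5) * c.cT.v else ((B.k1 : ℚ) - 5) * c.cT.v : ℚ)) : ℝ) ≤
      m * c.cT.v := by
    split_ifs with h0
    · have : (0 : ℝ) ≤ c.cT.v := by unfold Ln.v; push_cast; positivity
      push_cast
      exact mul_le_mul_of_nonneg_right (by linarith) this
    · have h1 : (c.cT.v : ℝ) ≤ 0 := by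
        unfold Ln.v; push_cast
        exact div_nonpos_of_nonpos_of_nonneg (by exact_mod_cast (not_le.1 h0).le) (by norm_num)
      have h2 : m + 5 ≤ B.k1 := hm.k1.resolve_left (hp.resolve_left h0)
      have h3 : (m : ℝ) + 5 ≤ B.k1 := by exact_mod_cast h2
      push_cast
      exact mul_le_mul_of_nonpos_right (by linarith) h1
  generalize (if 0 ≤ c.cT.p then ((B.k0 : ℚ) - 5) * c.cT.v else ((B.k1 : ℚ) - 5) * c.cT.v : ℚ) = PT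
    at eP hfin
  have hfin := clt hfin
  have hq := cle hq
  push_cast at hfin hq
  have hb : (b : ℝ) * (x1 ^ 2 + x2 ^ 2 + x3 ^ 2 + x4 ^ 2 + x5 ^ 2 + ∑ i, ρ i ^ 2) = b * (9 / 4) := by
    rw [hs]
  by_cases m0 : c.mode = 0
  · simp only [m0, if_true, true_or, Bool.and_eq_true, Bool.or_eq_true, decide_eq_true_eq] at hsg e4 e5
    have : (sg : ℝ) ≤ ∑ i, ρ i := by
      rcases hsg with h0 | ⟨⟨h0, h1⟩, h2⟩
      · rw [hsg0 h0]; exact hR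
      · have h1 := cle h1
        have h2 := cle h2
        have hw := cle hw
        push_cast at h1 h2 hw
        have e3 : m + 5 ≤ B.k1 := hm.k1.resolve_left h0
        have k1 : (m : ℝ) + 5 ≤ B.k1 := by exact_mod_cast e3
        have k5 : (5 : ℝ) ≤ B.k0 := by exact_mod_cast hk5
        have e6 : ∑ _i : Fin m, (w : ℝ) ≤ ∑ i, ρ i * ((m + 5 : ℕ) : ℝ) ^ 2 :=
          Finset.sum_le_sum fun i _ => sbOK_sound hsb hm s2 (fT i).pos (bT i)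
        rw [← Finset.sum_mul, Finset.sum_const, Finset.card_univ, Fintype.card_fin, nsmul_eq_mul] at e6
        push_cast at e6
        rcases le_total (sg : ℝ) 0 with hs0 | hs0
        · linarith
        have e7 : (sg : ℝ) * (m + 5) ^ 2 ≤ m * w := by
          rcases eq_or_lt_of_le (k0.trans k1) with he | hlt
          · have : (m : ℝ) + 5 = B.k0 := le_antisymm (he ▸ k1) k0
            rw [this, show (m : ℝ) = B.k0 - 5 by linarith]; exact h1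
          · refine le_of_mul_le_mul_left ?_ (sub_pos.2 hlt)
            nlinarith [mul_le_mul_of_nonneg_left h1 (sub_nonneg.2 k1),
              mul_le_mul_of_nonneg_left h2 (sub_nonneg.2 k0),
              mul_nonneg (mul_nonneg hs0 (sub_pos.2 hlt).le)
                (mul_nonneg (sub_nonneg.2 k0) (sub_nonneg.2 k1))]
        exact le_of_mul_le_mul_right (e7.trans e6) (by positivity)
    have := mul_le_mul_of_nonneg_left this hq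
    push_cast at e1 e2 e3 e4 e5
    linarith
  by_cases m1 : c.mode = 1
  · simp only [m1, if_true, or_true, one_ne_zero, if_false] at hsg e4 e5
    obtain ⟨s, t1, t2, t3⟩ := t4
    have := balOK_sound hsg hm t1 (add_nonneg f5.pos hR) t2 t3
    have := mul_le_mul_of_nonneg_left this hq
    push_cast at e1 e2 e3 e4 e5
    linarith
  · simp only [m0, m1, if_false, or_self] at hsg e4 e5
    obtain ⟨s, t1, t2, t3⟩ := t3
    have := balOK_sound hsg hm t1 (add_nonneg (add_nonneg f4.pos f5.pos) hR) t2 t3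
    have := mul_le_mul_of_nonneg_left this hq
    push_cast at e1 e2 e3 e4 e5
    linarith

/-- a cell with the improved gain bound for four cells, `y` being the size of another cell -/
def FK (y ρ a : ℝ) : Prop :=
  ∃ G la lb lc, Cell ρ a G ∧ la ^ 2 + lb ^ 2 + lc ^ 2 = 27 / 4 - 4 * ρ ^ 2 ∧
    9 / 2 - 3 * ρ ^ 2 - 3 * y ^ 2 ≤ la ^ 2 ∧ 9 / 4 - (la + lb + lc) / 2 ≤ 4 / 3 * G

lemma FK.line {y ρ a : ℝ} (h : FK y ρ a) {v : ℚ} (hy0 : 0 ≤ y) (hy : y ≤ v) {p q b u l : ℚ}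
    {cs : List ℕ} (hl : lineOK (glK v) p q b u cs l = true) (h1 : (l : ℝ) ≤ ρ) (h2 : ρ ≤ u) :
    p + q * ρ + b * ρ ^ 2 ≤ a := by
  obtain ⟨G, la, lb, lc, hc, h3, h4, h5⟩ := h
  exact lineOK_sound hc (glK_sound hy0 hy h3 h4 h5) cs hl h1 h2

lemma leaf4_sound {x1 x2 x3 x4 a1 a2 a3 a4 : ℝ} (s2 : x3 ≤ x2)
    (f1 : FK x4 x1 a1) (f2 : FK x4 x2 a2) (f3 : FK x4 x3 a3) (f4 : FC (4 / 3) x4 a4)
    (hs : x1 ^ 2 + x2 ^ 2 + x3 ^ 2 + x4 ^ 2 = 9 / 4) (ha : a1 + a2 + a3 + a4 ≤ 1)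
    (b4 : SB 4 x2 x3 x4) (B : Box) (c : Cert) (h : leaf4 B c = true)
    (hm : B.Mem x1 x2 x3 x4 0 4) : False := by
  simp only [leaf4, Bool.and_eq_true, Bool.or_eq_true, decide_eq_true_eq] at h
  obtain ⟨hsb, h⟩ := h
  generalize (c.b : ℚ) / 1000 = b at *
  generalize (c.w : ℚ) / 1000 = w at *
  have r4 : ((w / 16 : ℚ) : ℝ) ≤ x4 := by
    have := sbOK_sound hsb hm s2 f4.pos b4
    push_cast at this ⊢
    linarith
  rcases h with h | ⟨⟨⟨⟨hfin, L1⟩, L2⟩, L3⟩, L4⟩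
  · have := clt h
    linarith [hm.u4]
  have e1 := f1.line f4.pos hm.u4 L1 hm.l1 hm.u1
  have e2 := f2.line f4.pos hm.u4 L2 hm.l2 hm.u2
  have e3 := f3.line f4.pos hm.u4 L3 hm.l3 hm.u3
  have e4 := f4.line (by norm_num) (by norm_num) L4 (mx_le hm.l4 r4) hm.u4
  have hfin := clt hfin
  have hb : (b : ℝ) * (x1 ^ 2 + x2 ^ 2 + x3 ^ 2 + x4 ^ 2) = b * (9 / 4) := by rw [hs]
  push_cast at e1 e2 e3 e4 hfin
  linarith

end Vale.Agent.P226
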