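import Vale.Agent.P226.NumT

namespace Vale.Agent.P226

lemma ok1 : check leaf5 t1 b6 = true := by decide +kernel

lemma ok4 : check leaf5 t4 b14 = true := by decide +kernel

lemma ok5 : check leaf5 t5 b16 = true := by decide +kernel

lemma ok9 : check leaf5 t9 b19 = true := by decide +kernel

lemma ok10 : check leaf5 t10 b13 = true := by decide +kernel

end Vale.Agent.P226
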