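import Vale.Agent.P226.NumT

namespace Vale.Agent.P226

lemma ok3 : check leaf5 t3 b10 = true := by decide +kernel

lemma ok6 : check leaf5 t6 b22 = true := by decide +kernel

lemma ok7 : check leaf5 t7 b23 = true := by decide +kernel

lemma ok8 : check leaf5 t8 b21 = true := by decide +kernel

lemma ok12 : check leaf5 t12 b3 = true := by decide +kernel

end Vale.Agent.P226
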