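import Vale.Agent.P226.NumT

namespace Vale.Agent.P226

lemma ok0 : check leaf5 t0 b0 = true := by decide +kernel

lemma ok2 : check leaf5 t2 b8 = true := by decide +kernel

lemma ok11 : check leaf5 t11 b5 = true := by decide +kernel

lemma tree4_ok : check leaf4 tree4 root4 = true := by decide +kernel

end Vale.Agent.P226
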