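import Vale.Agent.P226.Num4
import Vale.Agent.P226.NumR0
import Vale.Agent.P226.NumR1
import Vale.Agent.P226.NumR2

/-! The numerical lemma. -/

open Real

namespace Vale.Agent.P226

lemma and_true_of {a b : Bool} (h1 : a = true) (h2 : b = true) : (a && b) = true := by
  rw [h1, h2]; rfl

lemma tree5_ok : check leaf5 tree5 root5 = true :=
  (and_true_of ok0 (and_true_of (and_true_of (and_true_of ok1 (and_true_of ok2 (and_true_of ok3 (and_true_of (and_true_of ok4 (and_true_of ok5 (and_true_of (and_true_of (and_true_of ok6 ok7) ok8) ok9))) ok10)))) ok11) ok12))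

/-- the necessary conditions on the normalised sizes `ρ` and levels `τ` of the cells -/
structure Nec (K : ℕ) (ρ τ : Fin K → ℝ) : Prop where
  pos : ∀ i, 0 ≤ ρ i
  tau : ∀ i, 0 ≤ τ i
  sum : ∑ i, ρ i ^ 2 = 9 / 4
  tot : ∑ i, Ph (-τ i) ≤ 1
  gain : ∀ i, 9 / 4 - 3 / 2 * √(9 / 4 - K / (K - 1) * ρ i ^ 2) ≤ K / (K - 1) * GG (τ i)
  iso : ∀ i t, ρ i * ph 0 ≤ t * Ph (-τ i) + ps t
  small : ∀ i p q s, i ≠ p → i ≠ q → i ≠ s → p ≠ q → p ≠ s → q ≠ s → ∃ P2 P3 : ℝ,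
    min (ρ p ^ 2) (ρ q ^ 2) - ρ i ^ 2 ≤ P2 ∧ ρ s ^ 2 - ρ i ^ 2 ≤ P3 ∧ P3 ≤ ρ s ^ 2 ∧
    9 * π ^ 2 * (P3 * (P2 - P3 / 4)) ≤ K ^ 4 * ρ i ^ 2
  bal : ∀ j p q, j ≠ p → j ≠ q → p ≠ q → ∀ S : Finset (Fin K), j ∉ S → p ∉ S → q ∉ S →
    ∃ s, 0 ≤ s ∧ min (ρ p ^ 2) (ρ q ^ 2) - ρ j ^ 2 / 4 ≤ s ^ 2 ∧
      (ρ j * (S.card / K) - 1 / 2) * s ≤ 3 / (4 * π) * ∑ i ∈ S, ρ i
  four : K = 4 → ∀ j m, j ≠ m → ∃ la lb lc : ℝ, la ^ 2 + lb ^ 2 + lc ^ 2 = 27 / 4 - 4 * ρ j ^ 2 ∧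
    9 / 2 - 3 * ρ j ^ 2 - 3 * ρ m ^ 2 ≤ la ^ 2 ∧ 9 / 4 - (la + lb + lc) / 2 ≤ 4 / 3 * GG (τ j)

lemma Nec.perm {K : ℕ} {ρ τ : Fin K → ℝ} (h : Nec K ρ τ) (σ : Equiv.Perm (Fin K)) :
    Nec K (ρ ∘ σ) (τ ∘ σ) where
  pos i := h.pos _
  tau i := h.tau _
  sum := by rw [← h.sum]; exact Equiv.sum_comp σ (fun i => ρ i ^ 2)
  tot := by
    have := Equiv.sum_comp σ (fun i => Ph (-τ i))
    exact this.trans_le h.tot
  gain i := h.gain _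
  iso i := h.iso _
  small i p q s h1 h2 h3 h4 h5 h6 := h.small _ _ _ _ (σ.injective.ne h1) (σ.injective.ne h2)
    (σ.injective.ne h3) (σ.injective.ne h4) (σ.injective.ne h5) (σ.injective.ne h6)
  bal j p q h1 h2 h3 S a b c := by
    have := h.bal _ _ _ (σ.injective.ne h1) (σ.injective.ne h2) (σ.injective.ne h3)
      (S.map σ.toEmbedding) (by simpa using a) (by simpa using b) (by simpa using c)
    rw [Finset.card_map, Finset.sum_map] at this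
    exact this
  four hK j m h1 := h.four hK _ _ (σ.injective.ne h1)

lemma Nec.le_one {K : ℕ} {ρ τ : Fin K → ℝ} (h : Nec K ρ τ) (i : Fin K) : ρ i ≤ 1 := by
  have := h.iso i 0
  rw [ps_zero] at this
  nlinarith [ph_pos 0]

lemma Nec.fc {K : ℕ} {ρ τ : Fin K → ℝ} (h : Nec K ρ τ) (hK : 4 ≤ K) (i : Fin K) :
    Cell (ρ i) (Ph (-τ i)) (GG (τ i)) ∧ FC (K / (K - 1)) (ρ i) (Ph (-τ i)) := by
  have hK' : (4 : ℝ) ≤ K := by exact_mod_cast hK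
  have k1 : (1 : ℝ) ≤ K / (K - 1) := by rw [le_div_iff₀ (by linarith)]; linarith
  have k2 : (K : ℝ) / (K - 1) ≤ 2 := by rw [div_le_iff₀ (by linarith)]; linarith
  have r1 : ρ i ^ 2 ≤ 1 := pow_le_one₀ (h.pos i) (h.le_one i)
  have k3 : K / (K - 1) * ρ i ^ 2 ≤ 9 / 4 := by nlinarith [sq_nonneg (ρ i)]
  have g := gain_mono one_pos k1 (GG_nonneg _) k3 (h.gain i)
  have hc : Cell (ρ i) (Ph (-τ i)) (GG (τ i)) := by
    refine cell_of (h.pos i) (h.tau i) (h.iso i) ?_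
    have e1 : √(9 / 4 - 1 * ρ i ^ 2) ^ 2 = 9 / 4 - 1 * ρ i ^ 2 := Real.sq_sqrt (by linarith)
    nlinarith [sq_nonneg (√(9 / 4 - 1 * ρ i ^ 2) - 3 / 2)]
  exact ⟨hc, _, hc, GG_nonneg _, k3, h.gain i⟩

lemma Nec.sb {K : ℕ} {ρ τ : Fin K → ℝ} (h : Nec K ρ τ) {i p q s : Fin K} (h1 : i ≠ p) (h2 : i ≠ q)
    (h3 : i ≠ s) (h4 : p ≠ q) (h5 : p ≠ s) (h6 : q ≠ s) (hpq : ρ q ≤ ρ p) : SB K (ρ q) (ρ s) (ρ i) := by
  obtain ⟨P2, P3, a, b, c, d⟩ := h.small i p q s h1 h2 h3 h4 h5 h6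
  rw [min_eq_right (pow_le_pow_left₀ (h.pos q) hpq 2)] at a
  exact ⟨P2, P3, a, b, c, d⟩

lemma not_nec_four {ρ τ : Fin 4 → ℝ} (h : Nec 4 ρ τ) (ha : Antitone ρ) : False := by
  have fk : ∀ j, j ≠ 3 → FK (ρ 3) (ρ j) (Ph (-τ j)) := fun j hj => by
    obtain ⟨la, lb, lc, a, b, c⟩ := h.four rfl j 3 hj
    exact ⟨_, la, lb, lc, (h.fc le_rfl j).1, a, b, c⟩
  have f4 := (h.fc le_rfl 3).2
  norm_num at f4
  have hs := h.sum
  have ht := h.tot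
  rw [Fin.sum_univ_four] at hs ht
  have s1 : ρ 1 ≤ ρ 0 := ha (by decide)
  have s2 : ρ 2 ≤ ρ 1 := ha (by decide)
  have s3 : ρ 3 ≤ ρ 2 := ha (by decide)
  refine check_sound (lf := leaf4) (x5 := 0) (K := 4) s1 s2 s3 (h.pos 3) (by linarith)
    (leaf4_sound s2 (fk 0 (by decide)) (fk 1 (by decide)) (fk 2 (by decide)) f4 hs ht
      (h.sb (p := 0) (by decide) (by decide) (by decide) (by decide) (by decide) (by decide) s1))
    tree4 root4 tree4_ok ?_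
  constructor <;> simp [root4, h.pos, h.le_one]

lemma not_nec_big {m : ℕ} {ρ τ : Fin (m + 5) → ℝ} (h : Nec (m + 5) ρ τ) (ha : Antitone ρ) :
    False := by
  have f := fun i => (h.fc (by omega) i).2
  have hs := h.sum
  have ht := h.tot
  have split : ∀ g : Fin (m + 5) → ℝ, ∑ i, g i = g ⟨0, by omega⟩ + g ⟨1, by omega⟩ +
      g ⟨2, by omega⟩ + g ⟨3, by omega⟩ + g ⟨4, by omega⟩ +
      ∑ i : Fin m, g ⟨i + 5, by omega⟩ := fun g => by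
    simp only [Fin.sum_univ_succ, add_assoc]
    rfl
  rw [split] at hs ht
  have an : ∀ (i j : ℕ) (hi : i < m + 5) (hj : j < m + 5), i ≤ j → ρ ⟨j, hj⟩ ≤ ρ ⟨i, hi⟩ :=
    fun i j hi hj hij => ha (Fin.mk_le_mk.2 hij)
  have sb : ∀ (i : ℕ) (hi : i < m + 5), 3 ≤ i →
      SB (m + 5) (ρ ⟨1, by omega⟩) (ρ ⟨2, by omega⟩) (ρ ⟨i, hi⟩) := fun i hi h3 =>
    h.sb (p := ⟨0, by omega⟩) (Fin.ne_of_val_ne (by simp; omega)) (Fin.ne_of_val_ne (by simp; omega))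
      (Fin.ne_of_val_ne (by simp; omega)) (Fin.ne_of_val_ne (by simp))
      (Fin.ne_of_val_ne (by simp)) (Fin.ne_of_val_ne (by simp)) (an 0 1 _ _ (by omega))
  have bal : ∀ c : ℕ, 3 ≤ c → c ≤ 5 → ∃ s, 0 ≤ s ∧
      ρ ⟨2, by omega⟩ ^ 2 - ρ ⟨0, by omega⟩ ^ 2 / 4 ≤ s ^ 2 ∧
      (ρ ⟨0, by omega⟩ * ((((m + 5 : ℕ) : ℝ) - c) / (m + 5 : ℕ)) - 1 / 2) * s ≤
        3 / (4 * π) * ∑ i : Fin (m + 5), if c ≤ i.val then ρ i else 0 := fun c c3 c5 => by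
    obtain ⟨s, a, b, d⟩ := h.bal ⟨0, by omega⟩ ⟨1, by omega⟩ ⟨2, by omega⟩
      (Fin.ne_of_val_ne (by simp)) (Fin.ne_of_val_ne (by simp)) (Fin.ne_of_val_ne (by simp))
      (Finset.univ.filter fun i => c ≤ i.val) (by simp; omega) (by simp; omega) (by simp; omega)
    rw [min_eq_right (pow_le_pow_left₀ (h.pos _) (an 1 2 _ _ (by omega)) 2)] at b
    refine ⟨s, a, b, ?_⟩
    rw [Finset.sum_filter] at d
    have hc : ((Finset.univ.filter fun i : Fin (m + 5) => c ≤ i.val).card : ℝ) =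
        ((m + 5 : ℕ) : ℝ) - c := by
      rw [Finset.card_filter]
      push_cast
      rw [split]
      have : ∀ i : Fin m, c ≤ i.val + 5 := fun i => by omega
      interval_cases c <;> simp <;> ring
    rw [hc] at d
    exact d
  have hY : 0 ≤ ∑ i : Fin m, ρ ⟨i + 5, by omega⟩ ^ 2 := Finset.sum_nonneg fun i _ => sq_nonneg _
  refine check_sound (lf := leaf5) (K := m + 5) (an 0 1 _ _ (by omega)) (an 1 2 _ _ (by omega))
    (an 2 3 _ _ (by omega)) (an 3 4 _ _ (by omega)) (by linarith)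
    (leaf5_sound rfl (an 1 2 _ _ (by omega)) (fun i => an 4 (i + 5) _ _ (by omega))
      (f _) (f _) (f _) (f _) (f _) (fun i => f _) hs ht (sb 3 _ le_rfl) (sb 4 _ (by omega))
      (fun i => sb _ _ (by omega)) ?_ ?_) tree5 root5 tree5_ok ?_
  · obtain ⟨s, a, b, d⟩ := bal 4 (by omega) (by omega)
    rw [split] at d
    refine ⟨s, a, b, d.trans_eq ?_⟩
    simp
  · obtain ⟨s, a, b, d⟩ := bal 3 (by omega) (by omega)
    rw [split] at d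
    refine ⟨s, a, b, d.trans_eq ?_⟩
    simp
  · constructor <;> simp [root5, h.pos, h.le_one]

theorem not_nec {K : ℕ} (hK : 4 ≤ K) {ρ τ : Fin K → ℝ} (h : Nec K ρ τ) : False := by
  have h1 := h.perm (Tuple.sort fun i => -ρ i)
  have h2 : Antitone (ρ ∘ Tuple.sort fun i => -ρ i) := fun i j hij => by
    have := Tuple.monotone_sort (fun i => -ρ i) hij
    simpa using this
  rcases eq_or_lt_of_le hK with rfl | hlt
  · exact not_nec_four h1 h2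
  · obtain ⟨m, rfl⟩ : ∃ m, K = m + 5 := ⟨K - 5, by omega⟩
    exact not_nec_big h1 h2

end Vale.Agent.P226
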