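import Vale.Agent.P226.Num3

/-! Generated branch-and-bound trees. -/

namespace Vale.Agent.P226

def root5 : Box := ⟨0, 0, 0, 0, 0, 1, 1, 1, 1, 1, 5, 0⟩

def root4 : Box := ⟨0, 0, 0, 0, 0, 1, 1, 1, 1, 1, 4, 4⟩

def b0 : Box := (Box.lo root5 (((5000 : ℕ) : ℚ) / 10000) 2)
def b1 : Box := (Box.hi root5 (((5000 : ℕ) : ℚ) / 10000) 2)
def b2 : Box := (Box.lo b1 (((3000 : ℕ) : ℚ) / 10000) 4)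
def b3 : Box := (Box.hi b1 (((3000 : ℕ) : ℚ) / 10000) 4)
def b4 : Box := (Box.lo b2 (((5000 : ℕ) : ℚ) / 10000) 3)
def b5 : Box := (Box.hi b2 (((5000 : ℕ) : ℚ) / 10000) 3)
def b6 : Box := (Box.lo b4 (((7000 : ℕ) : ℚ) / 10000) 2)
def b7 : Box := (Box.hi b4 (((7000 : ℕ) : ℚ) / 10000) 2)
def b8 : Box := (Box.lo b7 (((8000 : ℕ) : ℚ) / 10000) 1)
def b9 : Box := (Box.hi b7 (((8000 : ℕ) : ℚ) / 10000) 1)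
def b10 : Box := { b9 with k1 := 9 }
def b11 : Box := { b9 with k0 := 9 + 1 }
def b12 : Box := { b11 with k1 := 13 }
def b13 : Box := { b11 with k0 := 13 + 1 }
def b14 : Box := (Box.lo b12 (((8500 : ℕ) : ℚ) / 10000) 0)
def b15 : Box := (Box.hi b12 (((8500 : ℕ) : ℚ) / 10000) 0)
def b16 : Box := (Box.lo b15 (((7500 : ℕ) : ℚ) / 10000) 2)
def b17 : Box := (Box.hi b15 (((7500 : ℕ) : ℚ) / 10000) 2)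
def b18 : Box := (Box.lo b17 (((1500 : ℕ) : ℚ) / 10000) 3)
def b19 : Box := (Box.hi b17 (((1500 : ℕ) : ℚ) / 10000) 3)
def b20 : Box := (Box.lo b18 (((9000 : ℕ) : ℚ) / 10000) 0)
def b21 : Box := (Box.hi b18 (((9000 : ℕ) : ℚ) / 10000) 0)
def b22 : Box := (Box.lo b20 (((8000 : ℕ) : ℚ) / 10000) 2)
def b23 : Box := (Box.hi b20 (((8000 : ℕ) : ℚ) / 10000) 2)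

def t0 : Tr :=
  (.leaf ⟨0, 620, 0, 0, 0, 0, 0, ⟨-18791, [8230, 9349]⟩, ⟨-18791, [8230, 9349]⟩, ⟨0, [4548]⟩, ⟨0, [4548]⟩, ⟨0, [4548]⟩, ⟨0, [4548]⟩⟩)

def t1 : Tr :=
  (.node 1 8000
  (.leaf ⟨0, 700, 0, 0, 0, 0, 0, ⟨-25820, [9357, 9778]⟩, ⟨-17667, [7975]⟩, ⟨-11158, []⟩, ⟨-1663, [4550]⟩, ⟨0, []⟩, ⟨0, []⟩⟩)
  (.node 2 6000
  (.node 3 1000
  (.leaf ⟨0, 700, 0, 0, 0, 0, 0, ⟨-25820, [9357, 9778]⟩, ⟨-25820, [9357, 9778]⟩, ⟨-5750, []⟩, ⟨0, []⟩, ⟨0, []⟩, ⟨0, []⟩⟩)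
  (.leaf ⟨0, 550, 0, 0, 0, 0, 0, ⟨-12673, [9349]⟩, ⟨-12673, [9349]⟩, ⟨-350, []⟩, ⟨2089, [4950]⟩, ⟨0, []⟩, ⟨0, []⟩⟩))
  (.nodeK 12
  (.nodeK 5
  (.leaf ⟨0, 500, 0, 3973, 158, 0, 331, ⟨-8303, [8914, 9350]⟩, ⟨-8303, [8914, 9350]⟩, ⟨-1124, []⟩, ⟨3382, [3670]⟩, ⟨3397, []⟩, ⟨3397, []⟩⟩)
  (.nodeK 8
  (.leaf ⟨0, 500, 130, 4081, 63, 113, 331, ⟨-8303, [8858, 9350]⟩, ⟨-8303, [8858, 9350]⟩, ⟨-1208, []⟩, ⟨1654, [1659]⟩, ⟨1638, []⟩, ⟨819, []⟩⟩)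
  (.leaf ⟨0, 500, 130, 4170, 28, 202, 331, ⟨-8303, [8833, 9350]⟩, ⟨-8303, [8833, 9350]⟩, ⟨-1248, []⟩, ⟨750, []⟩, ⟨750, []⟩, ⟨421, [1535]⟩⟩)))
  (.node 0 9000
  (.node 3 3500
  (.leaf ⟨0, 1000, 0, 0, 0, 0, 396, ⟨-48695, []⟩, ⟨-48695, []⟩, ⟨-25817, []⟩, ⟨-1438, [3260]⟩, ⟨0, [2820]⟩, ⟨0, [2820]⟩⟩)
  (.leaf ⟨1, 400, 180, 0, 0, 89, 396, ⟨-505, [8767]⟩, ⟨-505, [8767]⟩, ⟨3599, [6992]⟩, ⟨5839, [4963]⟩, ⟨0, [2550]⟩, ⟨0, [2550]⟩⟩))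
  (.node 3 1500
  (.leaf ⟨2, 550, 210, 0, 0, 266, 331, ⟨-12673, [9349]⟩, ⟨-12673, [9349]⟩, ⟨-3767, []⟩, ⟨0, [1309]⟩, ⟨0, [1309]⟩, ⟨0, [1309]⟩⟩)
  (.leaf ⟨1, 500, 130, 0, 0, 170, 331, ⟨-8303, [9350]⟩, ⟨-8303, [8791, 9350]⟩, ⟨-1317, []⟩, ⟨3285, [2441]⟩, ⟨0, []⟩, ⟨0, []⟩⟩))))))

def t2 : Tr :=
  (.nodeK 6
  (.leaf ⟨0, 550, 0, 3809, 105, 0, 489, ⟨-12673, [9349]⟩, ⟨-7770, [7992]⟩, ⟨-7770, [7992]⟩, ⟨2141, [4940]⟩, ⟨2434, []⟩, ⟨2434, []⟩⟩)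
  (.node 0 8000
  (.leaf ⟨0, 1000, 0, 0, 0, 0, 574, ⟨-36893, []⟩, ⟨-36893, []⟩, ⟨-36893, []⟩, ⟨-9161, [4749]⟩, ⟨0, [2820]⟩, ⟨0, [2820]⟩⟩)
  (.node 3 1000
  (.nodeK 11
  (.leaf ⟨0, 700, 200, 3946, 32, 161, 489, ⟨-25820, [9357, 9778]⟩, ⟨-17550, []⟩, ⟨-17550, []⟩, ⟨835, []⟩, ⟨835, []⟩, ⟨183, []⟩⟩)
  (.leaf ⟨2, 700, 210, 0, 0, 204, 489, ⟨-25820, [9357, 9778]⟩, ⟨-17693, []⟩, ⟨-17693, []⟩, ⟨0, []⟩, ⟨0, []⟩, ⟨0, []⟩⟩))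
  (.nodeK 17
  (.leaf ⟨0, 550, 130, 3946, 13, 161, 489, ⟨-12673, [9349]⟩, ⟨-7977, [7994]⟩, ⟨-7977, [7994]⟩, ⟨2105, [4947]⟩, ⟨357, []⟩, ⟨188, [2633]⟩⟩)
  (.leaf ⟨1, 550, 130, 0, 0, 250, 489, ⟨-12673, [9349]⟩, ⟨-8093, []⟩, ⟨-8093, []⟩, ⟨2089, [4950]⟩, ⟨0, [2763]⟩, ⟨0, [2763]⟩⟩)))))

def t3 : Tr :=
  (.nodeK 5
  (.node 2 7500
  (.leaf ⟨0, 450, 0, 4479, 179, 0, 489, ⟨-4237, [8887]⟩, ⟨-4237, [8887]⟩, ⟨34, []⟩, ⟨3910, [2238]⟩, ⟨3901, []⟩, ⟨3901, []⟩⟩)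
  (.leaf ⟨0, 265, 0, 4704, 188, 0, 559, ⟨10375, [8893]⟩, ⟨10375, [8893]⟩, ⟨10403, [8475, 8930]⟩, ⟨4741, [2264]⟩, ⟨4733, []⟩, ⟨4733, []⟩⟩))
  (.node 2 7500
  (.nodeK 7
  (.leaf ⟨0, 500, 100, 4610, 94, 128, 489, ⟨-8303, [8870, 9350]⟩, ⟨-8303, [8870, 9350]⟩, ⟨-2872, []⟩, ⟨2243, [1541]⟩, ⟨2224, []⟩, ⟨1284, []⟩⟩)
  (.leaf ⟨0, 500, 130, 4701, 58, 220, 489, ⟨-8303, [8849, 9350]⟩, ⟨-8303, [8849, 9350]⟩, ⟨-2918, []⟩, ⟨1544, [1484]⟩, ⟨1510, []⟩, ⟨756, []⟩⟩))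
  (.nodeK 6
  (.leaf ⟨0, 260, 0, 4846, 134, 0, 559, ⟨10655, [8890]⟩, ⟨10655, [8890]⟩, ⟨10662, [8096, 8884]⟩, ⟨3500, [1817]⟩, ⟨3490, []⟩, ⟨3490, []⟩⟩)
  (.nodeK 7
  (.leaf ⟨0, 260, 0, 4912, 100, 0, 559, ⟨10584, [8844]⟩, ⟨10584, [8844]⟩, ⟨10606, [8476, 8851]⟩, ⟨2624, [1680]⟩, ⟨2606, []⟩, ⟨2606, []⟩⟩)
  (.nodeK 8
  (.leaf ⟨0, 260, 60, 4946, 77, 231, 559, ⟨10533, [8832]⟩, ⟨10533, [8832]⟩, ⟨10556, [8546, 8841]⟩, ⟨2017, []⟩, ⟨2017, []⟩, ⟨1555, []⟩⟩)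
  (.leaf ⟨0, 255, 180, 4964, 61, 245, 559, ⟨10886, [8827]⟩, ⟨10886, [8827]⟩, ⟨10818, [8823]⟩, ⟨1715, [1697]⟩, ⟨1699, []⟩, ⟨601, []⟩⟩))))))

def t4 : Tr :=
  (.node 3 1500
  (.leaf ⟨0, 1500, 0, 4727, 27, 0, 556, ⟨-79104, []⟩, ⟨-79104, []⟩, ⟨-79096, [8497]⟩, ⟨652, []⟩, ⟨652, []⟩, ⟨652, []⟩⟩)
  (.leaf ⟨0, 500, 130, 4727, 27, 223, 556, ⟨-6854, []⟩, ⟨-6854, []⟩, ⟨-6846, [8485]⟩, ⟨3287, [2138]⟩, ⟨724, []⟩, ⟨373, [2770]⟩⟩))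

def t5 : Tr :=
  (.node 4 500
  (.leaf ⟨0, 500, 250, 4727, 27, 223, 489, ⟨-8303, [9350]⟩, ⟨-8303, [8829, 9350]⟩, ⟨-2963, []⟩, ⟨724, []⟩, ⟨724, []⟩, ⟨35, []⟩⟩)
  (.leaf ⟨0, 500, 130, 4727, 27, 223, 489, ⟨-8303, [9350]⟩, ⟨-8303, [8829, 9350]⟩, ⟨-2963, []⟩, ⟨1285, []⟩, ⟨1285, []⟩, ⟨373, [2770]⟩⟩))

def t6 : Tr :=
  (.node 1 8500
  (.leaf ⟨0, 1500, 0, 4974, 29, 0, 599, ⟨-89195, []⟩, ⟨-79104, []⟩, ⟨-68753, []⟩, ⟨717, []⟩, ⟨717, []⟩, ⟨717, []⟩⟩)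
  (.nodeK 11
  (.leaf ⟨0, 500, 200, 5368, 44, 266, 599, ⟨-8252, []⟩, ⟨-8252, []⟩, ⟨-4729, []⟩, ⟨1144, []⟩, ⟨1144, []⟩, ⟨243, []⟩⟩)
  (.leaf ⟨2, 500, 200, 5380, 31, 344, 599, ⟨-8195, [8809]⟩, ⟨-8195, [8809]⟩, ⟨-4753, []⟩, ⟨215, []⟩, ⟨215, []⟩, ⟨215, []⟩⟩)))

def t7 : Tr :=
  (.nodeK 10
  (.node 1 8500
  (.leaf ⟨0, 500, 0, 5201, 52, 0, 661, ⟨-8195, [8823]⟩, ⟨-6806, []⟩, ⟨-6806, []⟩, ⟨1350, []⟩, ⟨1350, []⟩, ⟨1350, []⟩⟩)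
  (.leaf ⟨0, 250, 230, 5628, 56, 281, 661, ⟨11256, []⟩, ⟨11256, []⟩, ⟨11248, []⟩, ⟨1555, []⟩, ⟨1555, []⟩, ⟨267, []⟩⟩))
  (.node 0 8750
  (.node 1 8500
  (.leaf ⟨0, 1500, 0, 5208, 30, 0, 669, ⟨-84496, []⟩, ⟨-79104, []⟩, ⟨-79104, []⟩, ⟨729, []⟩, ⟨729, []⟩, ⟨729, []⟩⟩)
  (.nodeK 11
  (.node 2 8500
  (.node 2 8250
  (.leaf ⟨0, 1500, 0, 5637, 46, 0, 669, ⟨-84462, []⟩, ⟨-84462, []⟩, ⟨-73816, []⟩, ⟨965, []⟩, ⟨965, []⟩, ⟨965, []⟩⟩)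
  (.leaf ⟨0, 250, 250, 5760, 47, 285, 699, ⟨11241, []⟩, ⟨11241, []⟩, ⟨11243, []⟩, ⟨1270, []⟩, ⟨1270, []⟩, ⟨84, []⟩⟩))
  (.leaf ⟨0, 250, 250, 5877, 48, 291, 728, ⟨11241, []⟩, ⟨11241, []⟩, ⟨11241, []⟩, ⟨1296, []⟩, ⟨1296, []⟩, ⟨89, []⟩⟩))
  (.leaf ⟨2, 250, 250, 5642, 33, 385, 669, ⟨11207, []⟩, ⟨11207, []⟩, ⟨11191, []⟩, ⟨64, []⟩, ⟨64, []⟩, ⟨64, []⟩⟩)))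
  (.nodeK 11
  (.leaf ⟨2, 250, 250, 5208, 43, 377, 661, ⟨11242, []⟩, ⟨11223, []⟩, ⟨11223, []⟩, ⟨69, []⟩, ⟨69, []⟩, ⟨91, [853]⟩⟩)
  (.leaf ⟨2, 250, 250, 5213, 30, 432, 661, ⟨11207, []⟩, ⟨11184, []⟩, ⟨11184, []⟩, ⟨65, []⟩, ⟨65, []⟩, ⟨65, []⟩⟩))))

def t8 : Tr :=
  (.nodeK 10
  (.leaf ⟨0, 255, 240, 4974, 49, 248, 559, ⟨11650, []⟩, ⟨10879, [8620, 8844]⟩, ⟨10851, [7912, 8823]⟩, ⟨1320, []⟩, ⟨1320, []⟩, ⟨143, []⟩⟩)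
  (.leaf ⟨2, 255, 250, 4981, 29, 361, 559, ⟨11650, []⟩, ⟨10801, [8805]⟩, ⟨10768, [8808]⟩, ⟨64, []⟩, ⟨64, []⟩, ⟨64, []⟩⟩))

def t9 : Tr :=
  (.leaf ⟨0, 255, 220, 4974, 29, 235, 559, ⟨10819, [8813]⟩, ⟨10801, [8805]⟩, ⟨10768, [8808]⟩, ⟨3838, [2138]⟩, ⟨799, []⟩, ⟨152, []⟩⟩)

def t10 : Tr :=
  (.node 0 9500
  (.node 3 2000
  (.node 0 8500
  (.nodeK 20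
  (.leaf ⟨0, 1500, 0, 4741, 11, 0, 556, ⟨-79158, []⟩, ⟨-79158, []⟩, ⟨-79209, []⟩, ⟨105, [1841]⟩, ⟨105, [1841]⟩, ⟨105, [1841]⟩⟩)
  (.leaf ⟨2, 270, 250, 0, 0, 432, 556, ⟨9621, []⟩, ⟨9621, []⟩, ⟨9572, []⟩, ⟨0, [1185]⟩, ⟨0, [1185]⟩, ⟨0, [1185]⟩⟩))
  (.node 2 7500
  (.leaf ⟨2, 500, 200, 0, 0, 361, 514, ⟨-8303, [9350]⟩, ⟨-8303, [8791, 9350]⟩, ⟨-3052, []⟩, ⟨0, [1640]⟩, ⟨0, [1640]⟩, ⟨0, [1640]⟩⟩)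
  (.nodeK 15
  (.leaf ⟨2, 255, 250, 4989, 22, 407, 580, ⟨10795, [8805]⟩, ⟨10777, [8799]⟩, ⟨10746, [8794]⟩, ⟨53, [1058]⟩, ⟨53, [1058]⟩, ⟨53, [1058]⟩⟩)
  (.leaf ⟨2, 250, 250, 0, 0, 463, 580, ⟨11040, [8775]⟩, ⟨11025, [8772]⟩, ⟨10977, [8777]⟩, ⟨0, [1280]⟩, ⟨0, [1280]⟩, ⟨0, [1280]⟩⟩))))
  (.nodeK 17
  (.leaf ⟨0, 255, 220, 4741, 16, 196, 514, ⟨10759, [8795]⟩, ⟨10759, [8795]⟩, ⟨10743, [7720, 8794]⟩, ⟨5030, []⟩, ⟨444, []⟩, ⟨92, [2272]⟩⟩)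
  (.leaf ⟨1, 255, 230, 0, 0, 263, 514, ⟨10641, [8769]⟩, ⟨10641, [8769]⟩, ⟨10655, [8503, 8775]⟩, ⟨5036, []⟩, ⟨0, [2039]⟩, ⟨0, [2039]⟩⟩)))
  (.leaf ⟨2, 100, 270, 0, 0, 504, 489, ⟨28385, []⟩, ⟨20733, [8090]⟩, ⟨18299, [7249]⟩, ⟨-161, [2003, 4811]⟩, ⟨0, [1200]⟩, ⟨0, [1200]⟩⟩))

def t11 : Tr :=
  (.nodeK 17
  (.nodeK 6
  (.leaf ⟨0, 280, 0, 1988, 55, 0, 0, ⟨8877, [5986, 8808]⟩, ⟨8877, [5986, 8808]⟩, ⟨8877, [5986, 8808]⟩, ⟨8877, [5986, 8808]⟩, ⟨1511, [1448]⟩, ⟨1511, [1448]⟩⟩)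
  (.leaf ⟨0, 280, 220, 2026, 7, 82, 0, ⟨8842, [6035, 8531, 8799]⟩, ⟨8842, [6035, 8531, 8799]⟩, ⟨8842, [6035, 8531, 8799]⟩, ⟨8842, [6035, 8531, 8799]⟩, ⟨196, []⟩, ⟨42, [2144]⟩⟩))
  (.node 0 7500
  (.leaf ⟨0, 620, 0, 0, 0, 0, 330, ⟨-9796, [7480]⟩, ⟨-9796, [7480]⟩, ⟨-9796, [7480]⟩, ⟨-9796, [7480]⟩, ⟨0, []⟩, ⟨0, []⟩⟩)
  (.node 2 5500
  (.leaf ⟨0, 500, 0, 0, 0, 0, 0, ⟨-8303, [8786, 9350]⟩, ⟨-8303, [8730, 9350]⟩, ⟨2544, []⟩, ⟨2544, []⟩, ⟨0, []⟩, ⟨0, []⟩⟩)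
  (.leaf ⟨1, 270, 220, 0, 0, 79, 229, ⟨9504, [8685, 8771]⟩, ⟨9501, [6115, 8503, 8772]⟩, ⟨9501, [6115, 8503, 8772]⟩, ⟨9089, [5290, 8809]⟩, ⟨0, [2296]⟩, ⟨0, [2296]⟩⟩))))

def t12 : Tr :=
  (.leaf ⟨0, 280, 0, 0, 0, 0, 0, ⟨8713, [7868, 8767]⟩, ⟨8713, [7868, 8767]⟩, ⟨8713, [7868, 8767]⟩, ⟨6719, [3351, 9304]⟩, ⟨6719, [3351, 9304]⟩, ⟨0, []⟩⟩)

def tree5 : Tr := (.node 2 5000 t0 (.node 4 3000 (.node 3 5000 (.node 2 7000 t1 (.node 1 8000 t2 (.nodeK 9 t3 (.nodeK 13 (.node 0 8500 t4 (.node 2 7500 t5 (.node 3 1500 (.node 0 9000 (.node 2 8000 t6 t7) t8) t9))) t10)))) t11) t12))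

def tree4 : Tr :=
  (.node 2 5000
  (.leaf ⟨0, 700, 0, 0, 0, 0, 0, ⟨-25820, [8932, 9357, 9778]⟩, ⟨-25820, [8932, 9357, 9778]⟩, ⟨0, []⟩, ⟨-1577, [4526]⟩, ⟨0, []⟩, ⟨0, []⟩⟩)
  (.node 1 6000
  (.leaf ⟨0, 2500, 0, 1922, 0, 0, 0, ⟨-202988, []⟩, ⟨-69920, []⟩, ⟨-69920, []⟩, ⟨-70382, [5990]⟩, ⟨0, []⟩, ⟨0, []⟩⟩)
  (.node 3 3000
  (.node 1 8000
  (.leaf ⟨0, 700, 0, 2383, 0, 0, 0, ⟨-25820, [9357, 9778]⟩, ⟨-15892, [7985]⟩, ⟨-15892, [7971]⟩, ⟨2819, []⟩, ⟨0, []⟩, ⟨0, []⟩⟩)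
  (.node 2 7000
  (.leaf ⟨0, 500, 0, 3196, 0, 0, 0, ⟨-8303, [9048, 9350]⟩, ⟨-8303, [9048, 9350]⟩, ⟨917, [6979]⟩, ⟨4102, []⟩, ⟨0, []⟩, ⟨0, []⟩⟩)
  (.node 1 8500
  (.leaf ⟨0, 230, 0, 4179, 0, 0, 0, ⟨13850, [9037]⟩, ⟨14171, []⟩, ⟨14140, [7532]⟩, ⟨6307, []⟩, ⟨0, []⟩, ⟨0, []⟩⟩)
  (.leaf ⟨0, 220, 0, 4455, 0, 0, 0, ⟨14666, [9037]⟩, ⟨14666, [9037]⟩, ⟨14634, [7366, 9045]⟩, ⟨6752, []⟩, ⟨0, []⟩, ⟨0, []⟩⟩))))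
  (.node 3 3500
  (.leaf ⟨0, 240, 0, 2383, 0, 0, 0, ⟨13033, [8393, 9037]⟩, ⟨13033, [8393, 9037]⟩, ⟨13033, [7603, 9037]⟩, ⟨7097, []⟩, ⟨0, []⟩, ⟨0, []⟩⟩)
  (.node 3 4500
  (.leaf ⟨0, 250, 0, 2383, 0, 0, 0, ⟨12008, [8008, 8533, 9026]⟩, ⟨12008, [8008, 8533, 9026]⟩, ⟨12007, [6620, 8153, 8587, 9000]⟩, ⟨7766, []⟩, ⟨0, []⟩, ⟨0, []⟩⟩)
  (.node 2 7000
  (.leaf ⟨0, 310, 0, 2383, 0, 0, 0, ⟨7018, [8604, 8947]⟩, ⟨7018, [8604, 8947]⟩, ⟨8278, [6815]⟩, ⟨7978, [4872]⟩, ⟨0, []⟩, ⟨0, []⟩⟩)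
  (.leaf ⟨0, 270, 0, 3588, 0, 0, 0, ⟨10195, [8187, 9116]⟩, ⟨10195, [8187, 9116]⟩, ⟨10195, [8187, 9116]⟩, ⟨8787, [4961, 8725]⟩, ⟨0, []⟩, ⟨0, []⟩⟩)))))))

end Vale.Agent.P226
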