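import Vale.Agent.P226.Tools

/-! TASK B1. Small-ball bound for the gain of a small cell.

Let `e1 = v/‖v‖`, `a' , b'` the projections of `a, b` orthogonal to `v`, `e2 = a'/‖a'‖`,
`e3` the unit vector along the part `b''` of `b'` orthogonal to `e2`; `W ≤ ‖a'‖ ‖b''‖` (nothing to
prove when `W = 0`). We use `lintegral_fibre`, bound the normal density of the `e2`, `e3`
coordinates by `ph 0`, use translation and scaling of Lebesgue measure, and
`∫∫ max (min (min u w) ((X - u - w) / n)) 0 du dw = (max X 0) ^ 3 / (6 (n + 2))`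
(layer cake: the triangle `{u > s, w > s, u + w < X - n s}` has area `(X - (n+2) s)_+ ^ 2 / 2`);
finish with `integral_posPart_cube` and `ph_zero_sq`. -/

open MeasureTheory ProbabilityTheory Set Filter Topology Real
open scoped RealInnerProductSpace ENNReal

namespace Vale.Agent.P226

/-- the normal law is at most `ph 0` times Lebesgue measure -/
lemma lintegral_g1_le {F : ℝ → ℝ≥0∞} (hF : Measurable F) :
    ∫⁻ t, F t ∂(gaussianReal 0 1) ≤ ENNReal.ofReal (ph 0) * ∫⁻ t, F t := by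
  rw [gaussianReal_of_var_ne_zero _ (by simp),
    lintegral_withDensity_eq_lintegral_mul _ (measurable_gaussianPDF _ _) hF,
    ← lintegral_const_mul _ hF]
  refine lintegral_mono fun t => ?_
  simp only [Pi.mul_apply]
  gcongr
  rw [gaussianPDF, ph_eq]
  exact ENNReal.ofReal_le_ofReal (ph_le_ph_zero t)

lemma lintegral_affine {F : ℝ → ℝ≥0∞} (hF : Measurable F) (c : ℝ) {r : ℝ} (hr : 0 < r) :
    ∫⁻ t, F (c + t * r) = ENNReal.ofReal r⁻¹ * ∫⁻ s, F s := by
  have h1 : ∫⁻ t, F (c + t * r) = ∫⁻ s, F (c + s) ∂(Measure.map (fun t => t * r) volume) := by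
    rw [lintegral_map (by fun_prop) (by fun_prop)]
  rw [h1, Real.map_volume_mul_right hr.ne', lintegral_smul_measure, lintegral_add_left_eq_self F c,
    abs_of_pos (inv_pos.2 hr), smul_eq_mul]

/-- `∫_{u > s} (c - m u)_+ ^ k du` -/
lemma lintegral_Ioi_posPart_pow (c s : ℝ) {m : ℝ} (hm : 0 < m) (k : ℕ) (hk : k ≠ 0) :
    ∫⁻ u in Ioi s, ENNReal.ofReal (max (c - m * u) 0 ^ k) ≤
      ENNReal.ofReal (max (c - m * s) 0 ^ (k + 1) / ((k + 1) * m)) := by
  have hzero : ∀ u, c / m ≤ u → ENNReal.ofReal (max (c - m * u) 0 ^ k) = 0 := by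
    intro u hu
    have : c - m * u ≤ 0 := by rw [div_le_iff₀ hm] at hu; linarith
    simp [max_eq_right this, hk]
  rcases le_total (c / m) s with hs | hs
  · rw [setLIntegral_congr_fun measurableSet_Ioi (g := fun _ => 0)
      (fun u hu => hzero u (hs.trans (le_of_lt hu)))]
    simp
  · have hsub : Ioi s = Ioc s (c / m) ∪ Ioi (c / m) := (Ioc_union_Ioi_eq_Ioi hs).symm
    rw [hsub]
    refine (lintegral_union_le _ _ _).trans ?_
    rw [setLIntegral_congr_fun (μ := volume) (s := Ioi (c / m)) measurableSet_Ioi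
      (g := fun _ => 0) (fun u hu => hzero u (le_of_lt hu)), lintegral_zero, add_zero]
    have hpos : ∀ u ∈ Ioc s (c / m), 0 ≤ c - m * u := fun u hu => by
      have := hu.2
      rw [le_div_iff₀ hm] at this; linarith
    rw [setLIntegral_congr_fun (μ := volume) measurableSet_Ioc
      (g := fun u => ENNReal.ofReal ((c - m * u) ^ k))
      (fun u hu => by simp only [max_eq_left (hpos u hu)])]
    have hint : IntervalIntegrable (fun u => (c - m * u) ^ k) volume s (c / m) :=
      (by fun_prop : Continuous fun u : ℝ => (c - m * u) ^ k).intervalIntegrable _ _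
    rw [← ofReal_integral_eq_lintegral_ofReal hint.1
      ((ae_restrict_iff' measurableSet_Ioc).2
        (Eventually.of_forall fun u hu => pow_nonneg (hpos u hu) k)),
      ← intervalIntegral.integral_of_le hs]
    have hd : ∀ u ∈ uIcc s (c / m), HasDerivAt
        (fun u => -((c - m * u) ^ (k + 1) / ((k + 1) * m))) ((c - m * u) ^ k) u := by
      intro u _
      have h1 : HasDerivAt (fun u => c - m * u) (-m) u := by
        simpa using ((hasDerivAt_id u).const_mul m).const_sub c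
      have h2 := ((h1.fun_pow (k + 1)).div_const ((k + 1) * m)).neg
      refine h2.congr_deriv ?_
      have : (k : ℝ) + 1 ≠ 0 := by positivity
      simp only [Nat.add_sub_cancel]
      push_cast
      field_simp
    rw [intervalIntegral.integral_eq_sub_of_hasDerivAt hd hint]
    have h0 : c - m * (c / m) = 0 := by field_simp; ring
    have h1 : 0 ≤ c - m * s := by rw [le_div_iff₀ hm] at hs; linarith
    rw [h0, max_eq_left h1]
    simp

/-- the gain function -/
noncomputable def gain (n X u w : ℝ) : ℝ := max (min (min u w) ((X - u - w) / n)) 0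

@[fun_prop] lemma measurable_gain {Ω : Type*} [MeasurableSpace Ω] (n : ℝ) {X u w : Ω → ℝ}
    (hX : Measurable X) (hu : Measurable u) (hw : Measurable w) :
    Measurable fun p => gain n (X p) (u p) (w p) := by
  unfold gain; fun_prop

lemma lintegral_gain {n : ℝ} (hn : 0 < n) (X : ℝ) :
    ∫⁻ u, ∫⁻ w, ENNReal.ofReal (gain n X u w) ≤
      ENNReal.ofReal (max X 0 ^ 3 / (6 * (n + 2))) := by
  set T : Set (ℝ × ℝ × ℝ) :=
    {p | 0 < p.2.2 ∧ p.2.2 < p.1 ∧ p.2.2 < p.2.1 ∧ p.2.1 < X - n * p.2.2 - p.1} with hT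
  have hTm : MeasurableSet T := by
    rw [hT]
    have m1 : MeasurableSet {p : ℝ × ℝ × ℝ | 0 < p.2.2} :=
      measurableSet_lt (by fun_prop) (by fun_prop)
    have m2 : MeasurableSet {p : ℝ × ℝ × ℝ | p.2.2 < p.1} :=
      measurableSet_lt (by fun_prop) (by fun_prop)
    have m3 : MeasurableSet {p : ℝ × ℝ × ℝ | p.2.2 < p.2.1} :=
      measurableSet_lt (by fun_prop) (by fun_prop)
    have m4 : MeasurableSet {p : ℝ × ℝ × ℝ | p.2.1 < X - n * p.2.2 - p.1} :=
      measurableSet_lt (by fun_prop) (by fun_prop)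
    exact m1.inter (m2.inter (m3.inter m4))
  set I : ℝ × ℝ × ℝ → ℝ≥0∞ := T.indicator 1 with hI
  have hIm : Measurable I := measurable_one.indicator hTm
  have h1 : ∀ u w, ENNReal.ofReal (gain n X u w) = ∫⁻ s, I (u, w, s) := by
    intro u w
    have : (fun s => I (u, w, s)) = (Ioo 0 (min (min u w) ((X - u - w) / n))).indicator 1 := by
      ext s
      have : (u, w, s) ∈ T ↔ s ∈ Ioo 0 (min (min u w) ((X - u - w) / n)) := by
        simp only [hT, mem_ofPred_eq, mem_Ioo, lt_min_iff, lt_div_iff₀ hn]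
        constructor
        · rintro ⟨a, b, c, d⟩; exact ⟨a, ⟨b, c⟩, by linarith⟩
        · rintro ⟨a, ⟨b, c⟩, d⟩; exact ⟨a, b, c, by linarith⟩
      by_cases h : (u, w, s) ∈ T
      · simp [hI, h, this.1 h]
      · simp [hI, h, this.not.1 h]
    rw [this, lintegral_indicator_one measurableSet_Ioo, Real.volume_Ioo, sub_zero, gain,
      ENNReal.ofReal_max]
    simp
  simp_rw [h1]
  have h2 : ∀ u, ∫⁻ w, ∫⁻ s, I (u, w, s) = ∫⁻ s, ∫⁻ w, I (u, w, s) := fun u =>
    lintegral_lintegral_swap (Measurable.aemeasurable (by fun_prop))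
  simp_rw [h2]
  rw [lintegral_lintegral_swap (Measurable.aemeasurable
    (Measurable.lintegral_prod_right' (f := fun q : (ℝ × ℝ) × ℝ => I (q.1.1, q.2, q.1.2))
      (by fun_prop)))]
  have h3 : ∀ s, ∫⁻ u, ∫⁻ w, I (u, w, s) ≤
      (Ioi 0).indicator (fun s => ENNReal.ofReal (1 / 2) *
        ENNReal.ofReal (max (X - (n + 2) * s) 0 ^ 2)) s := by
    intro s
    by_cases hs : 0 < s
    · rw [indicator_of_mem (show s ∈ Ioi 0 from hs)]
      have h4 : ∀ u, ∫⁻ w, I (u, w, s) =
          (Ioi s).indicator (fun u => ENNReal.ofReal (max (X - (n + 1) * s - 1 * u) 0 ^ 1)) u := by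
        intro u
        by_cases hu : s < u
        · rw [indicator_of_mem (show u ∈ Ioi s from hu)]
          have : (fun w => I (u, w, s)) = (Ioo s (X - n * s - u)).indicator 1 := by
            ext w
            have : (u, w, s) ∈ T ↔ w ∈ Ioo s (X - n * s - u) := by
              simp only [hT, mem_ofPred_eq, mem_Ioo, hs, hu, true_and]
            by_cases h : (u, w, s) ∈ T
            · simp [hI, h, this.1 h]
            · simp [hI, h, this.not.1 h]
          rw [this, lintegral_indicator_one measurableSet_Ioo, Real.volume_Ioo, pow_one,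
            ENNReal.ofReal_max]
          simp only [ENNReal.ofReal_zero, zero_le, sup_of_le_left]
          congr 1; ring
        · rw [indicator_of_notMem (show u ∉ Ioi s from hu)]
          have : (fun w => I (u, w, s)) = fun _ => 0 := by
            ext w
            have : (u, w, s) ∉ T := fun h => hu h.2.1
            simp [hI, this]
          rw [this, lintegral_zero]
      simp_rw [h4]
      rw [lintegral_indicator measurableSet_Ioi]
      refine (lintegral_Ioi_posPart_pow _ s one_pos 1 one_ne_zero).trans (le_of_eq ?_)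
      rw [← ENNReal.ofReal_mul (by norm_num)]
      congr 1
      have : X - (n + 1) * s - 1 * s = X - (n + 2) * s := by ring
      rw [this]; push_cast; ring
    · have : (fun u => ∫⁻ w, I (u, w, s)) = fun _ => 0 := by
        ext u
        have : (fun w => I (u, w, s)) = fun _ => 0 := by
          ext w
          have : (u, w, s) ∉ T := fun h => hs h.1
          simp [hI, this]
        rw [this, lintegral_zero]
      rw [this, lintegral_zero]
      exact zero_le
  refine (lintegral_mono h3).trans ?_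
  rw [lintegral_indicator measurableSet_Ioi, lintegral_const_mul _ (by fun_prop)]
  refine (mul_le_mul_right (lintegral_Ioi_posPart_pow X 0 (m := n + 2) (by linarith) 2
    two_ne_zero) _).trans (le_of_eq ?_)
  rw [← ENNReal.ofReal_mul (by norm_num)]
  congr 1
  have : n + 2 ≠ 0 := by positivity
  simp only [mul_zero, sub_zero]
  push_cast
  field_simp
  ring

variable {E : Type*} [NormedAddCommGroup E] [InnerProductSpace ℝ E] [FiniteDimensional ℝ E]
  [MeasurableSpace E] [BorelSpace E]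

/-- integrate out one direction, bounding the density -/
lemma lintegral_le_fibre {Y : Type*} [MeasurableSpace Y] (e c : E) (he : ‖e‖ = 1)
    (hr : 0 < ⟪e, c⟫) (P : E → Y) (hP : Measurable P)
    (hPe : ∀ y (t : ℝ), P (y - ⟪y, e⟫ • e + t • e) = P y) {F : Y × ℝ → ℝ≥0∞}
    (hF : Measurable F) :
    ∫⁻ x, F (P x, ⟪x, c⟫) ∂(stdGaussian E) ≤
      ENNReal.ofReal (ph 0 * ⟪e, c⟫⁻¹) * ∫⁻ x, ∫⁻ s, F (P x, s) ∂volume ∂(stdGaussian E) := by
  rw [lintegral_fibre e he (F := fun x => F (P x, ⟪x, c⟫)) (by fun_prop),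
    ← lintegral_const_mul _ (Measurable.lintegral_prod_right'
      (f := fun q : E × ℝ => F (P q.1, q.2)) (by fun_prop))]
  refine lintegral_mono fun y => ?_
  simp only [hPe, inner_fibre']
  refine (lintegral_g1_le (by fun_prop)).trans (le_of_eq ?_)
  rw [lintegral_affine (F := fun s => F (P y, s)) (by fun_prop) _ hr, ← mul_assoc,
    ← ENNReal.ofReal_mul (ph_pos 0).le]

lemma integrable_posPart_cube (v : E) :
    Integrable (fun x : E => max ⟪x, v⟫ 0 ^ 3) (stdGaussian E) ∧
      ∫ x, max ⟪x, v⟫ 0 ^ 3 ∂(stdGaussian E) = ‖v‖ ^ 3 * (2 * ph 0) := by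
  rcases eq_or_ne v 0 with rfl | hv
  · simp
  have h : (fun x : E => max ⟪x, v⟫ 0 ^ 3) =
      fun x => ‖v‖ ^ 3 * max ⟪x, (‖v‖⁻¹ : ℝ) • v⟫ 0 ^ 3 := by
    ext x
    rw [inner_eq_norm_mul_unit hv, ← mul_pow, mul_max_of_nonneg _ _ (norm_nonneg v), mul_zero]
  have hp := measurePreserving_inner _ (norm_unit hv)
  have hi : Integrable (fun t : ℝ => max t 0 ^ 3) (gaussianReal 0 1) := by
    refine (integrable_g1_pow 3).norm.mono' (by fun_prop) (Eventually.of_forall fun t => ?_)
    rw [norm_pow, norm_pow]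
    gcongr
    rcases le_total t 0 with ht | ht
    · simp [ht]
    · simp [ht]
  rw [h]
  refine ⟨(hp.integrable_comp_of_integrable hi).const_mul _, ?_⟩
  rw [integral_const_mul, integral_comp_inner _ (norm_unit hv) (F := fun t => max t 0 ^ 3)
    (by fun_prop), integral_posPart_cube]

theorem T1_core (v a b a' b' : E) (hv : v ≠ 0) (α β : ℝ) (ha : a = α • v + a')
    (hb : b = β • v + b') (hav : ⟪a', v⟫ = 0) (hbv : ⟪b', v⟫ = 0) {n : ℝ} (hn : 0 < n)
    {W : ℝ} (hW0 : 0 ≤ W) (hW : W ^ 2 ≤ ‖a'‖ ^ 2 * ‖b'‖ ^ 2 - ⟪a', b'⟫ ^ 2) :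
    (∫ x, max (min (min ⟪x, a⟫ ⟪x, b⟫) ((⟪x, v⟫ - ⟪x, a⟫ - ⟪x, b⟫) / n)) 0 ∂(stdGaussian E)) *
      (6 * π * (n + 2) * W) ≤ ‖v‖ ^ 3 * ph 0 := by
  have hph := ph_pos 0
  rcases hW0.eq_or_lt with rfl | hW0
  · simp only [mul_zero]; positivity
  have ha0 : a' ≠ 0 := by
    rintro rfl
    simp only [norm_zero, inner_zero_left] at hW
    nlinarith
  have hA : 0 < ‖a'‖ := norm_pos_iff.2 ha0
  set b'' : E := b' - (⟪a', b'⟫ / ‖a'‖ ^ 2) • a' with hb''
  have hab : ⟪b'', a'⟫ = 0 := by
    rw [hb'', inner_sub_left, real_inner_smul_left, real_inner_self_eq_norm_sq,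
      real_inner_comm a' b']
    field_simp; ring
  have hbv' : ⟪b'', v⟫ = 0 := by
    rw [hb'', inner_sub_left, real_inner_smul_left, hav, hbv]; simp
  have hbb : ⟪b'', b'⟫ = ‖b''‖ ^ 2 := by
    rw [← real_inner_self_eq_norm_sq]
    conv_rhs => enter [3]; rw [hb'']
    rw [inner_sub_right, real_inner_smul_right, hab]; simp
  have hnorm : ‖a'‖ ^ 2 * ‖b''‖ ^ 2 = ‖a'‖ ^ 2 * ‖b'‖ ^ 2 - ⟪a', b'⟫ ^ 2 := by
    rw [← hbb, hb'', inner_sub_left, real_inner_smul_left, real_inner_self_eq_norm_sq]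
    field_simp
  have hWle : W ≤ ‖a'‖ * ‖b''‖ := by
    refine (pow_le_pow_iff_left₀ hW0.le (by positivity) two_ne_zero).1 ?_
    rw [mul_pow, hnorm]; exact hW
  have hB : 0 < ‖b''‖ := by
    by_contra h
    have : ‖b''‖ = 0 := le_antisymm (not_lt.1 h) (norm_nonneg _)
    rw [this] at hWle; linarith
  have hb0 : b'' ≠ 0 := norm_pos_iff.1 hB
  set e3 : E := (‖b''‖⁻¹ : ℝ) • b'' with he3
  set e2 : E := (‖a'‖⁻¹ : ℝ) • a' with he2
  have h3v : ⟪e3, v⟫ = 0 := by rw [he3, real_inner_smul_left, hbv']; simp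
  have h3a : ⟪e3, a⟫ = 0 := by
    rw [ha, inner_add_right, real_inner_smul_right, h3v, he3, real_inner_smul_left, hab]; simp
  have h3b : ⟪e3, b⟫ = ‖b''‖ := by
    rw [hb, inner_add_right, real_inner_smul_right, h3v, he3, real_inner_smul_left, hbb]
    field_simp; ring
  have h2v : ⟪e2, v⟫ = 0 := by rw [he2, real_inner_smul_left, hav]; simp
  have h2a : ⟪e2, a⟫ = ‖a'‖ := by
    rw [ha, inner_add_right, real_inner_smul_right, h2v, he2, real_inner_smul_left,
      real_inner_self_eq_norm_sq]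
    field_simp; ring
  have s1 := lintegral_le_fibre e3 b (norm_unit hb0) (by rw [h3b]; exact hB)
    (fun x : E => ((⟪x, v⟫ : ℝ), (⟪x, a⟫ : ℝ))) (by fun_prop)
    (fun y t => by simp only [inner_fibre', h3v, h3a]; simp)
    (F := fun q : (ℝ × ℝ) × ℝ => ENNReal.ofReal (gain n q.1.1 q.1.2 q.2)) (by fun_prop)
  have s2 := lintegral_le_fibre e2 a (norm_unit ha0) (by rw [h2a]; exact hA)
    (fun x : E => (⟪x, v⟫ : ℝ)) (by fun_prop)
    (fun y t => by simp only [inner_fibre', h2v]; simp)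
    (F := fun q : ℝ × ℝ => ∫⁻ w, ENNReal.ofReal (gain n q.1 q.2 w))
    (Measurable.lintegral_prod_right'
      (f := fun q : (ℝ × ℝ) × ℝ => ENNReal.ofReal (gain n q.1.1 q.1.2 q.2)) (by fun_prop))
  obtain ⟨hi, hval⟩ := integrable_posPart_cube v
  have s3 : ∫⁻ x, ∫⁻ u, ∫⁻ w, ENNReal.ofReal (gain n ⟪x, v⟫ u w) ∂volume ∂volume
      ∂(stdGaussian E) ≤ ENNReal.ofReal (‖v‖ ^ 3 * (2 * ph 0) / (6 * (n + 2))) := by
    refine (lintegral_mono fun x => lintegral_gain hn _).trans (le_of_eq ?_)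
    rw [← ofReal_integral_eq_lintegral_ofReal (hi.div_const _)
      (Eventually.of_forall fun x => by positivity), integral_div, hval]
  simp only [h3b, h2a] at s1 s2
  have s4 := s1.trans (mul_le_mul_right (s2.trans (mul_le_mul_right s3 _)) _)
  rw [← ENNReal.ofReal_mul (by positivity), ← ENNReal.ofReal_mul (by positivity)] at s4
  have s5 : ∫ x, max (min (min ⟪x, a⟫ ⟪x, b⟫) ((⟪x, v⟫ - ⟪x, a⟫ - ⟪x, b⟫) / n)) 0
      ∂(stdGaussian E) ≤
      ph 0 * ‖b''‖⁻¹ * (ph 0 * ‖a'‖⁻¹ * (‖v‖ ^ 3 * (2 * ph 0) / (6 * (n + 2)))) := by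
    change ∫ x, gain n ⟪x, v⟫ ⟪x, a⟫ ⟪x, b⟫ ∂(stdGaussian E) ≤ _
    rw [integral_eq_lintegral_of_nonneg_ae (f := fun x : E => gain n ⟪x, v⟫ ⟪x, a⟫ ⟪x, b⟫)
      (Eventually.of_forall fun x => le_max_right _ _)
      (Measurable.aestronglyMeasurable (by fun_prop))]
    exact ENNReal.toReal_le_of_le_ofReal (by positivity) s4
  have h2 := ph_zero_sq
  have hpi := Real.pi_pos
  calc _ ≤ ph 0 * ‖b''‖⁻¹ * (ph 0 * ‖a'‖⁻¹ * (‖v‖ ^ 3 * (2 * ph 0) / (6 * (n + 2)))) *
        (6 * π * (n + 2) * (‖a'‖ * ‖b''‖)) := by gcongr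
    _ = ‖v‖ ^ 3 * ph 0 * (ph 0 ^ 2 * (2 * π)) := by field_simp
    _ = _ := by rw [h2]; field_simp

end Vale.Agent.P226
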