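import Vale.Agent.P226.Tools

/-! TASK B2. Cameron-Martin bound and the balance condition of a large cell.

`cm_bound`: for `b ≠ 0` use the fibres along `e = b/‖b‖` and the one-dimensional shift of the normal
density: the measure of `A + b` is `∫_A exp (-⟪x,b⟫ - ‖b‖²/2)`; then
`exp (-u-β) - 1 + u + β ≥ 0` and its integral over the whole space is `β = ‖b‖²/2`.

`T3_core`: let `C` be the cell, `r = ‖z j‖`, `Y m x = ⟪x, z j - z m⟫`. For `t > 0`, `cm_bound` with `t • b`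
gives `t ⟪b, z j⟫ ≤ γ {x ∈ C | ∃ m ∈ S, Y m x < t} + t² ‖b‖² / 2`.
Fibres along `z j / r`: `Y m = β m * g - ⟪y, ξ m⟫`, `β m = r - ⟪z j, z m⟫ / r ≥ r`, `ξ m` the
projection of `z m` orthogonal to `z j`; with `ζ m = ⟪y, ξ m⟫ / β m` the fibre lies in an interval of
length `t / r` (`g1_Ico_le`) and is empty unless `ζ l < t / r + ζ m` for some `m ∈ S`.
Fibres along `ξ l / ‖ξ l‖` (if `ξ l = 0` the claim is trivial): `⟪ξ m, ξ l⟫ ≤ 0`, so the event has
probability at most `1/2 + ph 0 * (β l / ‖ξ l‖) * (t / r + M / r)` (`Ph_le_half_add`, apply `hM` to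
`u m = (r / β m) • (projection of ξ m orthogonal to ξ l)`), and `β l ≤ 3 r / 2`. Let `t → 0`. -/

open MeasureTheory ProbabilityTheory Set Filter Topology Real
open scoped RealInnerProductSpace

namespace Vale.Agent.P226

lemma cm_one {B : Set ℝ} (hB : MeasurableSet B) (r : ℝ) :
    (gaussianReal 0 1).real {t | t - r ∈ B} ≤
      (gaussianReal 0 1).real B - r * ∫ t in B, t ∂(gaussianReal 0 1) + r ^ 2 / 2 := by
  have hB' : MeasurableSet {t | t - r ∈ B} := hB.preimage (f := fun t => t - r) (by fun_prop)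
  have h1 : (gaussianReal 0 1).real {t | t - r ∈ B} = ∫ s in B, ph (s + r) := by
    rw [g1_real hB', ← integral_indicator hB', ← integral_indicator hB,
      ← integral_add_right_eq_self _ r]
    congr 1; ext s
    by_cases h : s ∈ B <;> simp [h]
  have i1 : Integrable fun s => ph (s + r) := integrable_ph.comp_add_right r
  have i2 : Integrable fun s => ph s * s := integrable_ph_mul integrable_g1_id
  have t0 : ∫ s, ph s = 1 := by
    have := g1_real MeasurableSet.univ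
    simpa using this.symm
  have t1 : ∫ s, ph (s + r) = 1 := by rw [integral_add_right_eq_self ph r, t0]
  have t2 : ∫ s, ph s * s = 0 := by
    rw [← integral_g1 (fun s => s)]; simp
  have hD : ∀ s, 0 ≤ ph (s + r) - ph s + r * (ph s * s) + r ^ 2 / 2 * ph s := by
    intro s
    have e1 : ph (s + r) = ph s * Real.exp (-(r * s) - r ^ 2 / 2) := by
      rw [ph_eq_mul (s + r), ph_eq_mul s, mul_assoc, ← Real.exp_add]
      congr 2; ring
    have e2 := Real.add_one_le_exp (-(r * s) - r ^ 2 / 2)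
    have := mul_le_mul_of_nonneg_left e2 (ph_pos s).le
    rw [e1]; nlinarith
  have iD : Integrable fun s => ph (s + r) - ph s + r * (ph s * s) + r ^ 2 / 2 * ph s :=
    ((i1.sub integrable_ph).add (i2.const_mul r)).add (integrable_ph.const_mul _)
  have key : ∀ μ : Measure ℝ, Integrable (fun s => ph (s + r)) μ → Integrable ph μ →
      Integrable (fun s => ph s * s) μ →
      ∫ s, (ph (s + r) - ph s + r * (ph s * s) + r ^ 2 / 2 * ph s) ∂μ =
        ∫ s, ph (s + r) ∂μ - ∫ s, ph s ∂μ + r * ∫ s, ph s * s ∂μ + r ^ 2 / 2 * ∫ s, ph s ∂μ := by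
    intro μ a1 a2 a3
    have b1 : Integrable (fun s => ph (s + r) - ph s) μ := a1.sub a2
    have b2 : Integrable (fun s => ph (s + r) - ph s + r * (ph s * s)) μ := b1.add (a3.const_mul r)
    rw [integral_add b2 (a2.const_mul _), integral_add b1 (a3.const_mul r), integral_sub a1 a2,
      integral_const_mul, integral_const_mul]
  have hle := setIntegral_le_integral (s := B) iD (Eventually.of_forall hD)
  rw [key _ i1 integrable_ph i2, key _ i1.integrableOn integrable_ph.integrableOn i2.integrableOn,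
    t0, t1, t2] at hle
  rw [h1, g1_real hB, setIntegral_g1 _ hB]
  have : 0 ≤ ∫ s in B, ph s := integral_nonneg fun s => (ph_pos s).le
  nlinarith [sq_nonneg r]

variable {E : Type*} [NormedAddCommGroup E] [InnerProductSpace ℝ E] [FiniteDimensional ℝ E]
  [MeasurableSpace E] [BorelSpace E]

lemma integrable_fibre (e : E) (he : ‖e‖ = 1) {F : E → ℝ} (hF : Integrable F (stdGaussian E)) :
    Integrable (fun y => ∫ t, F (y - ⟪y, e⟫ • e + t • e) ∂(gaussianReal 0 1)) (stdGaussian E) :=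
  ((measurePreserving_fibre e he).integrable_comp_of_integrable hF).integral_prod_left

theorem cm_bound {A : Set E} (hA : MeasurableSet A) (b : E) :
    (stdGaussian E).real {x | x - b ∈ A} ≤
      (stdGaussian E).real A - ⟪∫ x in A, x ∂(stdGaussian E), b⟫ + ‖b‖ ^ 2 / 2 := by
  rcases eq_or_ne b 0 with rfl | hb
  · simp
  set e : E := (‖b‖⁻¹ : ℝ) • b with he_def
  have he : ‖e‖ = 1 := norm_unit hb
  have hbe : b = ‖b‖ • e := by
    rw [he_def, smul_smul, mul_inv_cancel₀ (norm_ne_zero_iff.2 hb), one_smul]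
  have hA' : MeasurableSet {x | x - b ∈ A} := hA.preimage (f := fun x => x - b) (by fun_prop)
  have hm : ∀ y : E, MeasurableSet {t : ℝ | y - ⟪y, e⟫ • e + t • e ∈ A} := fun y =>
    hA.preimage (f := fun t : ℝ => y - ⟪y, e⟫ • e + t • e) (by fun_prop)
  have i1 : Integrable (A.indicator (1 : E → ℝ)) (stdGaussian E) :=
    (integrable_const 1).indicator hA
  have i2 : Integrable (A.indicator (fun x : E => (⟪x, e⟫ : ℝ))) (stdGaussian E) :=
    (integrable_inner e).indicator hA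
  have f1 : ∀ y : E, ∫ t, A.indicator (1 : E → ℝ) (y - ⟪y, e⟫ • e + t • e) ∂(gaussianReal 0 1) =
      (gaussianReal 0 1).real {t : ℝ | y - ⟪y, e⟫ • e + t • e ∈ A} := fun y => by
    rw [← integral_indicator_one (hm y)]; rfl
  have f2 : ∀ y : E, ∫ t, A.indicator (fun x : E => (⟪x, e⟫ : ℝ)) (y - ⟪y, e⟫ • e + t • e)
      ∂(gaussianReal 0 1) =
      ∫ t in {t : ℝ | y - ⟪y, e⟫ • e + t • e ∈ A}, t ∂(gaussianReal 0 1) := fun y => by
    rw [← integral_indicator (hm y)]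
    congr 1; ext t
    by_cases h : y - ⟪y, e⟫ • e + t • e ∈ A
    · rw [indicator_of_mem h, indicator_of_mem (by exact h), inner_fibre e he]
    · rw [indicator_of_notMem h, indicator_of_notMem (by exact h)]
  have j1 := integrable_fibre e he i1
  have j2 := integrable_fibre e he i2
  have k2 := integral_fibre e he i2
  simp only [f1] at j1
  simp only [f2] at j2 k2
  have := measureReal_le_of_fibre e he hA'
    (G := fun y => (gaussianReal 0 1).real {t : ℝ | y - ⟪y, e⟫ • e + t • e ∈ A} -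
      ‖b‖ * ∫ t in {t : ℝ | y - ⟪y, e⟫ • e + t • e ∈ A}, t ∂(gaussianReal 0 1) + ‖b‖ ^ 2 / 2)
    ((j1.sub (j2.const_mul _)).add (integrable_const _)) (fun y => by
      refine le_trans (le_of_eq ?_) (cm_one (hm y) ‖b‖)
      congr 1; ext t
      simp only [mem_ofPred_eq]
      have : y - ⟪y, e⟫ • e + t • e - b = y - ⟪y, e⟫ • e + (t - ‖b‖) • e := by
        conv_lhs => rw [hbe]
        rw [sub_smul]; abel
      rw [this])
  refine this.trans (le_of_eq ?_)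
  have j3 : Integrable (fun y => (gaussianReal 0 1).real {t : ℝ | y - ⟪y, e⟫ • e + t • e ∈ A} -
      ‖b‖ * ∫ t in {t : ℝ | y - ⟪y, e⟫ • e + t • e ∈ A}, t ∂(gaussianReal 0 1)) (stdGaussian E) :=
    j1.sub (j2.const_mul _)
  rw [integral_add j3 (integrable_const _),
    integral_sub j1 (j2.const_mul _), integral_const_mul, ← k2, ← measureReal_fibre e he hA,
    integral_indicator hA, setIntegral_inner]
  congr 1
  · congr 1
    conv_rhs => rw [hbe, real_inner_smul_right]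
  · simp

omit [FiniteDimensional ℝ E] [MeasurableSpace E] [BorelSpace E] in
lemma norm_proj_sq (e w : E) (he : ‖e‖ = 1) :
    ‖w - ⟪e, w⟫ • e‖ ^ 2 = ‖w‖ ^ 2 - ⟪e, w⟫ ^ 2 := by
  rw [@norm_sub_sq_real, norm_smul, real_inner_smul_right, he, real_inner_comm e w]
  simp only [Real.norm_eq_abs, mul_one, sq_abs]
  ring

omit [FiniteDimensional ℝ E] [MeasurableSpace E] [BorelSpace E] in
lemma norm_proj_le (e w : E) (he : ‖e‖ = 1) : ‖w - ⟪e, w⟫ • e‖ ≤ ‖w‖ := by
  refine (pow_le_pow_iff_left₀ (norm_nonneg _) (norm_nonneg _) two_ne_zero).1 ?_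
  rw [norm_proj_sq e w he]; nlinarith [sq_nonneg ⟪e, w⟫]

/-- second fibre step -/
lemma T3_second {ι : Type*} (ξ : ι → E) (β : ι → ℝ) (l : ι) (S : Finset ι) {r t M : ℝ}
    (hr : 0 < r) (ht : 0 < t) (hβ : ∀ m ∈ S, r ≤ β m) (hβl : 0 < β l) (hξ : ξ l ≠ 0)
    (hneg : ∀ m ∈ S, ⟪ξ l, ξ m⟫ ≤ 0) (G : E → ℝ) (hG : Integrable G (stdGaussian E))
    (hG0 : ∀ x, 0 ≤ G x)
    (hGu : ∀ x, ∀ m ∈ S, ⟪x, (r / β m) • (ξ m - ⟪(‖ξ l‖⁻¹ : ℝ) • ξ l, ξ m⟫ •
      (‖ξ l‖⁻¹ : ℝ) • ξ l)⟫ ≤ G x) (hM : ∫ x, G x ∂(stdGaussian E) ≤ M) :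
    (stdGaussian E).real {y | ∃ m ∈ S, ⟪y, ξ l⟫ / β l < t / r + ⟪y, ξ m⟫ / β m} ≤
      1 / 2 + ph 0 * (β l / ‖ξ l‖ * ((t + M) / r)) := by
  set f : E := (‖ξ l‖⁻¹ : ℝ) • ξ l with hf_def
  have hf : ‖f‖ = 1 := norm_unit hξ
  have hN : 0 < ‖ξ l‖ := norm_pos_iff.2 hξ
  have hmeas : MeasurableSet {y : E | ∃ m ∈ S, ⟪y, ξ l⟫ / β l < t / r + ⟪y, ξ m⟫ / β m} := by
    have : {y : E | ∃ m ∈ S, ⟪y, ξ l⟫ / β l < t / r + ⟪y, ξ m⟫ / β m} =
        ⋃ m ∈ S, {y : E | ⟪y, ξ l⟫ / β l < t / r + ⟪y, ξ m⟫ / β m} := by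
      ext y; simp
    rw [this]
    exact S.measurableSet_biUnion fun m _ => measurableSet_lt (by fun_prop) (by fun_prop)
  have := measureReal_le_of_fibre f hf hmeas
    (G := fun y => 1 / 2 + ph 0 * (β l / ‖ξ l‖ * ((t + G y) / r)))
    ((integrable_const _).add
      (((((integrable_const t).add hG).div_const r).const_mul _).const_mul _)) (fun y => by
      have hx : 0 ≤ β l / ‖ξ l‖ * ((t + G y) / r) := by have := hG0 y; positivity
      refine le_trans ?_ (Ph_le_half_add hx)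
      refine measureReal_mono (fun s hs => ?_)
      simp only [mem_ofPred_eq] at hs
      obtain ⟨m, hmS, hlt⟩ := hs
      rw [mem_Iic]
      by_contra hcon
      have hs0 : 0 < s := lt_of_le_of_lt hx (not_le.1 hcon)
      apply hcon
      rw [inner_eq_norm_mul_unit hξ, ← hf_def, inner_fibre f hf, inner_fibre'] at hlt
      have hβm : 0 < β m := hr.trans_le (hβ m hmS)
      have h1 : ⟪f, ξ m⟫ ≤ 0 := by
        rw [hf_def, real_inner_smul_left]
        exact mul_nonpos_of_nonneg_of_nonpos (by positivity) (hneg m hmS)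
      have h2 := hGu y m hmS
      rw [real_inner_smul_right] at h2
      have h3 : (⟪y, ξ m - ⟪f, ξ m⟫ • f⟫ + s * ⟪f, ξ m⟫) / β m ≤ G y / r := by
        have h4 : (⟪y, ξ m - ⟪f, ξ m⟫ • f⟫ + s * ⟪f, ξ m⟫) / β m ≤
            ⟪y, ξ m - ⟪f, ξ m⟫ • f⟫ / β m := by
          gcongr
          nlinarith
        refine h4.trans ?_
        rw [le_div_iff₀ hr]
        refine le_trans (le_of_eq ?_) h2
        field_simp
      have h5 : ‖ξ l‖ * s / β l ≤ (t + G y) / r := by rw [add_div]; linarith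
      calc s = β l / ‖ξ l‖ * (‖ξ l‖ * s / β l) := by field_simp
        _ ≤ _ := by gcongr)
  refine this.trans ?_
  have i1 : Integrable (fun y => ph 0 * (β l / ‖ξ l‖ * ((t + G y) / r))) (stdGaussian E) :=
    ((((integrable_const t).add hG).div_const r).const_mul _).const_mul _
  rw [integral_add (integrable_const _) i1, integral_const_mul,
    integral_const_mul, integral_div r, integral_add (integrable_const t) hG]
  have := ph_pos 0
  simp only [integral_const, probReal_univ, smul_eq_mul, one_mul]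
  gcongr

/-- first fibre step -/
lemma T3_first {ι : Type*} [Fintype ι] [DecidableEq ι] (z : ι → E) (j l : ι) (S : Finset ι)
    (hlj : l ≠ j) (hjS : j ∉ S) {e : E} (he : ‖e‖ = 1) {r t : ℝ} (hr : 0 < r) (ht : 0 < t)
    (hz : z j = r • e) (hβ : ∀ m, m ≠ j → r ≤ r - ⟪e, z m⟫) :
    (stdGaussian E).real {x | (∀ m, ⟪x, z m⟫ ≤ ⟪x, z j⟫) ∧ ∃ m ∈ S, ⟪x, z j⟫ - ⟪x, z m⟫ < t} ≤
      ph 0 * (t / r) * (stdGaussian E).real {y | ∃ m ∈ S,
        ⟪y, z l - ⟪e, z l⟫ • e⟫ / (r - ⟪e, z l⟫) <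
          t / r + ⟪y, z m - ⟪e, z m⟫ • e⟫ / (r - ⟪e, z m⟫)} := by
  set U : Set E := {y | ∃ m ∈ S, ⟪y, z l - ⟪e, z l⟫ • e⟫ / (r - ⟪e, z l⟫) <
          t / r + ⟪y, z m - ⟪e, z m⟫ • e⟫ / (r - ⟪e, z m⟫)} with hU
  have hUm : MeasurableSet U := by
    have : U = ⋃ m ∈ S, {y : E | ⟪y, z l - ⟪e, z l⟫ • e⟫ / (r - ⟪e, z l⟫) <
          t / r + ⟪y, z m - ⟪e, z m⟫ • e⟫ / (r - ⟪e, z m⟫)} := by
      ext y; simp [hU]
    rw [this]
    exact S.measurableSet_biUnion fun m _ => measurableSet_lt (by fun_prop) (by fun_prop)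
  have hmeas : MeasurableSet
      {x : E | (∀ m, ⟪x, z m⟫ ≤ ⟪x, z j⟫) ∧ ∃ m ∈ S, ⟪x, z j⟫ - ⟪x, z m⟫ < t} := by
    have : {x : E | (∀ m, ⟪x, z m⟫ ≤ ⟪x, z j⟫) ∧ ∃ m ∈ S, ⟪x, z j⟫ - ⟪x, z m⟫ < t} =
        (⋂ m, {x : E | ⟪x, z m⟫ ≤ ⟪x, z j⟫}) ∩ ⋃ m ∈ S, {x : E | ⟪x, z j⟫ - ⟪x, z m⟫ < t} := by
      ext y; simp
    rw [this]
    exact (MeasurableSet.iInter fun m => measurableSet_le (by fun_prop) (by fun_prop)).inter
      (S.measurableSet_biUnion fun m _ => measurableSet_lt (by fun_prop) (by fun_prop))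
  have hph := ph_pos 0
  have := measureReal_le_of_fibre e he hmeas
    (G := U.indicator fun _ => ph 0 * (t / r)) ((integrable_const _).indicator hUm) (fun y => by
      set ζ : ι → ℝ := fun m => ⟪y, z m - ⟪e, z m⟫ • e⟫ / (r - ⟪e, z m⟫) with hζ
      obtain ⟨m0, hm0, hmax⟩ := (Finset.univ.erase j).exists_max_image ζ
        ⟨l, Finset.mem_erase.2 ⟨hlj, Finset.mem_univ _⟩⟩
      have hj : ∀ s : ℝ, ⟪y - ⟪y, e⟫ • e + s • e, z j⟫ = r * s := fun s => by
        rw [hz, real_inner_smul_right, inner_fibre e he]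
      have hsub : ∀ s : ℝ, y - ⟪y, e⟫ • e + s • e ∈
          {x : E | (∀ m, ⟪x, z m⟫ ≤ ⟪x, z j⟫) ∧ ∃ m ∈ S, ⟪x, z j⟫ - ⟪x, z m⟫ < t} →
          (∀ m, m ≠ j → ζ m ≤ s) ∧ ∃ m ∈ S, s < t / r + ζ m := by
        rintro s ⟨h1, m, hmS, h2⟩
        refine ⟨fun m hm => ?_, m, hmS, ?_⟩
        · have h3 := h1 m
          rw [hj, inner_fibre'] at h3
          have hb : 0 < r - ⟪e, z m⟫ := hr.trans_le (hβ m hm)
          simp only [hζ]
          rw [div_le_iff₀ hb]; linarith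
        · have hm : m ≠ j := fun h => hjS (h ▸ hmS)
          rw [hj, inner_fibre'] at h2
          have hb : 0 < r - ⟪e, z m⟫ := hr.trans_le (hβ m hm)
          have h4 : s < t / (r - ⟪e, z m⟫) + ζ m := by
            simp only [hζ]
            rw [← add_div, lt_div_iff₀ hb]; linarith
          have h5 : t / (r - ⟪e, z m⟫) ≤ t / r := by
            gcongr; exact hβ m hm
          linarith
      by_cases hy : y ∈ U
      · rw [indicator_of_mem hy]
        refine le_trans (measureReal_mono (fun s hs => ?_)) (g1_Ico_le (ζ m0) (t / r) (by positivity))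
        obtain ⟨h1, m, hmS, h2⟩ := hsub s hs
        have hm : m ≠ j := fun h => hjS (h ▸ hmS)
        have h3 := hmax m (Finset.mem_erase.2 ⟨hm, Finset.mem_univ _⟩)
        exact ⟨h1 m0 (Finset.mem_erase.1 hm0).1, by linarith⟩
      · rw [indicator_of_notMem hy]
        refine le_trans (measureReal_mono (s₂ := ∅) (fun s hs => hy ?_)) (by simp)
        obtain ⟨h1, m, hmS, h2⟩ := hsub s hs
        exact ⟨m, hmS, (h1 l hlj).trans_lt h2⟩)
  refine this.trans (le_of_eq ?_)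
  rw [integral_indicator hUm]
  simp [mul_comm]

theorem T3_core {ι : Type*} [Fintype ι] [DecidableEq ι] (z : ι → E) (j l : ι) (S : Finset ι)
    (hlj : l ≠ j) (hjS : j ∉ S) (hlS : l ∉ S) (hz : z j ≠ 0)
    (hneg : ∀ p q, p ≠ q → ⟪z p, z q⟫ ≤ 0)
    (hcen : ∫ x in {x | ∀ m, ⟪x, z m⟫ ≤ ⟪x, z j⟫}, x ∂(stdGaussian E) = z j)
    (b : E) (hb : ∀ m, m ≠ j → ⟪b, z j - z m⟫ = if m ∈ S then 1 else 0)
    (hw : -⟪z j, z l⟫ ≤ ‖z j‖ ^ 2 / 2) (M : ℝ)
    (hM : ∀ u : ι → E, (∀ m, ‖u m‖ ≤ ‖z m‖) → ∃ G : E → ℝ, Integrable G (stdGaussian E) ∧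
      (∀ x, 0 ≤ G x) ∧ (∀ x, ∀ m ∈ S, ⟪x, u m⟫ ≤ G x) ∧ ∫ x, G x ∂(stdGaussian E) ≤ M) :
    (‖z j‖ * ⟪b, z j⟫ / ph 0 - 1 / 2) * √(‖z l‖ ^ 2 - ⟪z j, z l⟫ ^ 2 / ‖z j‖ ^ 2) ≤
      3 / 2 * ph 0 * M := by
  have hph := ph_pos 0
  set r := ‖z j‖ with hr_def
  have hr : 0 < r := norm_pos_iff.2 hz
  set e : E := (r⁻¹ : ℝ) • z j with he_def
  have he : ‖e‖ = 1 := norm_unit hz
  have hze : z j = r • e := by rw [he_def, smul_smul, mul_inv_cancel₀ hr.ne', one_smul]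
  have hez : ∀ m, ⟪e, z m⟫ = ⟪z j, z m⟫ / r := fun m => by
    rw [he_def, real_inner_smul_left]; field_simp
  have hez0 : ∀ m, m ≠ j → ⟪e, z m⟫ ≤ 0 := fun m hm => by
    rw [hez]; exact div_nonpos_of_nonpos_of_nonneg (hneg j m hm.symm) hr.le
  set ξ : ι → E := fun m => z m - ⟪e, z m⟫ • e with hξ_def
  set β : ι → ℝ := fun m => r - ⟪e, z m⟫ with hβ_def
  have hβ : ∀ m, m ≠ j → r ≤ β m := fun m hm => by
    have := hez0 m hm
    simp only [hβ_def]; linarith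
  have hsq : √(‖z l‖ ^ 2 - ⟪z j, z l⟫ ^ 2 / r ^ 2) = ‖ξ l‖ := by
    rw [← div_pow, ← hez, ← norm_proj_sq e (z l) he, Real.sqrt_sq (norm_nonneg _)]
  rw [hsq]
  set f : E := (‖ξ l‖⁻¹ : ℝ) • ξ l with hf_def
  have hM0 : 0 ≤ M := by
    obtain ⟨G, -, hG0, -, hG⟩ := hM z fun _ => le_rfl
    exact (integral_nonneg hG0).trans hG
  rcases eq_or_ne (ξ l) 0 with hξ | hξ
  · rw [hξ, norm_zero, mul_zero]; positivity
  have hN : 0 < ‖ξ l‖ := norm_pos_iff.2 hξ
  have hf : ‖f‖ = 1 := norm_unit hξ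
  have hSj : ∀ m ∈ S, m ≠ j := fun m hm h => hjS (h ▸ hm)
  obtain ⟨G, hG, hG0, hGu, hGM⟩ := hM
    (fun m => if m ∈ S then (r / β m) • (ξ m - ⟪f, ξ m⟫ • f) else 0) (fun m => by
      by_cases hm : m ∈ S
      · simp only [hm, if_true]
        have h1 := hβ m (hSj m hm)
        have h2 : 0 < β m := hr.trans_le h1
        rw [norm_smul, Real.norm_eq_abs, abs_of_pos (div_pos hr h2)]
        have h3 : r / β m ≤ 1 := (div_le_one h2).2 h1
        have h4 := (norm_proj_le f (ξ m) hf).trans (norm_proj_le e (z m) he)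
        calc _ ≤ 1 * ‖z m‖ := by gcongr
          _ = _ := one_mul _
      · simp [hm])
  have hξneg : ∀ m ∈ S, ⟪ξ l, ξ m⟫ ≤ 0 := fun m hm => by
    have hml : l ≠ m := fun h => hlS (h ▸ hm)
    have h1 : ⟪ξ l, ξ m⟫ = ⟪z l, z m⟫ - ⟪e, z l⟫ * ⟪e, z m⟫ := by
      simp only [hξ_def, inner_sub_left, inner_sub_right, real_inner_smul_left,
        real_inner_smul_right, real_inner_self_eq_norm_sq, he, real_inner_comm e (z l)]
      ring
    rw [h1]
    have := mul_nonneg_of_nonpos_of_nonpos (hez0 l hlj) (hez0 m (hSj m hm))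
    linarith [hneg l m hml]
  set C : Set E := {x | ∀ m, ⟪x, z m⟫ ≤ ⟪x, z j⟫} with hC
  have hCm : MeasurableSet C := by
    have : C = ⋂ m, {x : E | ⟪x, z m⟫ ≤ ⟪x, z j⟫} := by ext y; simp [hC]
    rw [this]
    exact MeasurableSet.iInter fun m => measurableSet_le (by fun_prop) (by fun_prop)
  have hβl : β l ≤ 3 / 2 * r := by
    simp only [hβ_def]
    rw [hez]
    have : -⟪z j, z l⟫ / r ≤ r / 2 := by rw [div_le_iff₀ hr]; nlinarith
    rw [neg_div] at this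
    linarith
  have hβl0 : 0 < β l := hr.trans_le (hβ l hlj)
  -- the bound for a fixed `t > 0`
  have main : ∀ t : ℝ, 0 < t → ⟪b, z j⟫ ≤
      ph 0 / r * (1 / 2 + ph 0 * (3 / 2 * r / ‖ξ l‖ * ((t + M) / r))) + t * ‖b‖ ^ 2 / 2 := by
    intro t ht
    have c1 := cm_bound hCm (t • b)
    rw [hcen, real_inner_smul_right, norm_smul, Real.norm_eq_abs, abs_of_pos ht,
      real_inner_comm b (z j)] at c1
    have c2 := T3_first z j l S hlj hjS he hr ht hze hβ
    have c3 := T3_second ξ β l S (M := M) hr ht (fun m hm => hβ m (hSj m hm)) hβl0 hξ hξneg G hG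
      hG0 (fun x m hm => by simpa only [hm, if_true] using hGu x m hm) hGM
    have c4 : (stdGaussian E).real C ≤ (stdGaussian E).real {x | x - t • b ∈ C} +
        (stdGaussian E).real
          {x | (∀ m, ⟪x, z m⟫ ≤ ⟪x, z j⟫) ∧ ∃ m ∈ S, ⟪x, z j⟫ - ⟪x, z m⟫ < t} := by
      refine le_trans (measureReal_mono (fun x hx => ?_)) (measureReal_union_le _ _)
      by_cases h : ∃ m ∈ S, ⟪x, z j⟫ - ⟪x, z m⟫ < t
      · exact Or.inr ⟨hx, h⟩
      · refine Or.inl fun m => ?_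
        rcases eq_or_ne m j with rfl | hm
        · exact le_rfl
        have h1 := hb m hm
        rw [inner_sub_right] at h1
        simp only [inner_sub_left, real_inner_smul_left]
        by_cases hmS : m ∈ S
        · rw [if_pos hmS] at h1
          have h2 : t ≤ ⟪x, z j⟫ - ⟪x, z m⟫ := not_lt.1 fun h' => h ⟨m, hmS, h'⟩
          have h3 : ⟪b, z j⟫ = 1 + ⟪b, z m⟫ := by linarith
          rw [h3]; linarith
        · rw [if_neg hmS] at h1
          have h2 := hx m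
          have h3 : ⟪b, z j⟫ = ⟪b, z m⟫ := by linarith
          rw [h3]; linarith
    have c5 : (stdGaussian E).real
          {x | (∀ m, ⟪x, z m⟫ ≤ ⟪x, z j⟫) ∧ ∃ m ∈ S, ⟪x, z j⟫ - ⟪x, z m⟫ < t} ≤
        ph 0 * (t / r) * (1 / 2 + ph 0 * (3 / 2 * r / ‖ξ l‖ * ((t + M) / r))) := by
      refine c2.trans ?_
      gcongr
      refine c3.trans ?_
      gcongr
    have c6 : t * ⟪b, z j⟫ ≤ t * (ph 0 / r * (1 / 2 + ph 0 * (3 / 2 * r / ‖ξ l‖ * ((t + M) / r))) +
        t * ‖b‖ ^ 2 / 2) := by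
      have : t * (ph 0 / r * (1 / 2 + ph 0 * (3 / 2 * r / ‖ξ l‖ * ((t + M) / r))) +
        t * ‖b‖ ^ 2 / 2) = ph 0 * (t / r) * (1 / 2 + ph 0 * (3 / 2 * r / ‖ξ l‖ * ((t + M) / r))) +
          (t * ‖b‖) ^ 2 / 2 := by ring
      rw [this]; linarith
    exact le_of_mul_le_mul_left c6 ht
  have hlim : ⟪b, z j⟫ ≤ ph 0 / r * (1 / 2 + ph 0 * (3 / 2 * r / ‖ξ l‖ * ((0 + M) / r))) +
      0 * ‖b‖ ^ 2 / 2 := by
    have hc : Continuous fun t : ℝ =>
        ph 0 / r * (1 / 2 + ph 0 * (3 / 2 * r / ‖ξ l‖ * ((t + M) / r))) + t * ‖b‖ ^ 2 / 2 := by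
      fun_prop
    have h1 := (hc.tendsto 0).mono_left (nhdsWithin_le_nhds (s := Ioi 0))
    exact ge_of_tendsto h1 (eventually_nhdsWithin_of_forall fun t ht => main t ht)
  have h2 : r * ⟪b, z j⟫ / ph 0 - 1 / 2 ≤ 3 / 2 * ph 0 * M / ‖ξ l‖ := by
    have : r * ⟪b, z j⟫ / ph 0 ≤ r * (ph 0 / r * (1 / 2 + ph 0 *
        (3 / 2 * r / ‖ξ l‖ * ((0 + M) / r))) + 0 * ‖b‖ ^ 2 / 2) / ph 0 := by gcongr
    have h3 : r * (ph 0 / r * (1 / 2 + ph 0 *
        (3 / 2 * r / ‖ξ l‖ * ((0 + M) / r))) + 0 * ‖b‖ ^ 2 / 2) / ph 0 =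
        1 / 2 + 3 / 2 * ph 0 * M / ‖ξ l‖ := by field_simp; ring
    linarith
  rwa [le_div_iff₀ hN] at h2

end Vale.Agent.P226
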