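import Vale.Agent.P226.Main

/-! The density of the standard Gaussian measure, and the value of the propeller. -/

open MeasureTheory ProbabilityTheory Set Filter Topology Real
open scoped RealInnerProductSpace

namespace Vale.Agent.P226

lemma withDensity_eq_std (d : ℕ) :
    (volume : Measure (EuclideanSpace ℝ (Fin d))).withDensity
      (fun x => ENNReal.ofReal ((2 * π) ^ (-(d : ℝ) / 2) * Real.exp (-‖x‖ ^ 2 / 2))) =
      stdGaussian (EuclideanSpace ℝ (Fin d)) := by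
  have hb : 0 < ((1 / 2 : ℝ) : ℂ).re := by simp
  have hi : Integrable (fun x : EuclideanSpace ℝ (Fin d) =>
      (2 * π) ^ (-(d : ℝ) / 2) * Real.exp (-‖x‖ ^ 2 / 2)) := by
    refine Integrable.const_mul ?_ _
    have := (GaussianFourier.integrable_cexp_neg_mul_sq_norm_add hb 0
      (0 : EuclideanSpace ℝ (Fin d))).norm
    refine this.congr (Eventually.of_forall fun x => ?_)
    simp only [zero_mul, add_zero, Complex.norm_exp]
    congr 1
    rw [← Complex.ofReal_pow, ← Complex.ofReal_neg, ← Complex.ofReal_mul, Complex.ofReal_re]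
    ring
  have := isFiniteMeasure_withDensity_ofReal hi.hasFiniteIntegral
  apply Measure.ext_of_charFun
  ext t
  rw [charFun_stdGaussian, charFun_apply, integral_withDensity_eq_integral_toReal_smul
    (by fun_prop) (Eventually.of_forall fun _ => ENNReal.ofReal_lt_top)]
  have h1 : ∀ x : EuclideanSpace ℝ (Fin d),
      (ENNReal.ofReal ((2 * π) ^ (-(d : ℝ) / 2) * Real.exp (-‖x‖ ^ 2 / 2))).toReal •
        Complex.exp ((⟪x, t⟫ : ℝ) * Complex.I) =
      (((2 * π) ^ (-(d : ℝ) / 2) : ℝ) : ℂ) *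
        Complex.exp (-((1 / 2 : ℝ) : ℂ) * ‖x‖ ^ 2 + Complex.I * (⟪t, x⟫ : ℝ)) := fun x => by
    rw [ENNReal.toReal_ofReal (by positivity), Complex.real_smul, Complex.exp_add, real_inner_comm]
    push_cast
    ring_nf
  simp_rw [h1]
  rw [integral_const_mul, GaussianFourier.integral_cexp_neg_mul_sq_norm_add hb, ← mul_assoc]
  have h2 : ((π : ℂ) / ((1 / 2 : ℝ) : ℂ)) ^ ((Module.finrank ℝ (EuclideanSpace ℝ (Fin d)) : ℂ) / 2) =
      (((2 * π) ^ ((d : ℝ) / 2) : ℝ) : ℂ) := by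
    rw [Complex.ofReal_cpow (by positivity), finrank_euclideanSpace_fin]
    push_cast
    congr 1
    ring
  rw [h2, ← Complex.ofReal_mul, ← Real.rpow_add (by positivity),
    show -(d : ℝ) / 2 + d / 2 = 0 by ring, Real.rpow_zero, Complex.ofReal_one, one_mul, Complex.I_sq]
  congr 1
  push_cast
  ring

variable {E : Type*} [NormedAddCommGroup E] [InnerProductSpace ℝ E] [FiniteDimensional ℝ E]
  [MeasurableSpace E] [BorelSpace E]

lemma exists_propeller {a b : E} (ha : ‖a‖ = 1) (hb : ‖b‖ = 1) (hab : ⟪a, b⟫ = 0) :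
    ∃ A : Fin 3 → Set E, IsPart A ∧
      9 / (8 * π) ≤ ∑ i, ‖∫ x in A i, x ∂(stdGaussian E)‖ ^ 2 := by
  have s3 : √3 ^ 2 = 3 := Real.sq_sqrt (by norm_num)
  have nm : ∀ s t : ℝ, ‖s • a + t • b‖ ^ 2 = s ^ 2 + t ^ 2 := fun s t => by
    rw [@norm_add_sq_real E, norm_smul, norm_smul, real_inner_smul_left, real_inner_smul_right, ha, hb,
      hab]
    simp
  have nm' : ∀ s t : ℝ, s ^ 2 + t ^ 2 = 3 → ‖s • a + t • b‖ = √3 := fun s t h => by
    rw [← h, ← nm, Real.sqrt_sq (norm_nonneg _)]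
  set v : Fin 3 → E := ![(1 : ℝ) • a + (0 : ℝ) • b, (-1 / 2 : ℝ) • a + (√3 / 2) • b,
    (-1 / 2 : ℝ) • a + (-√3 / 2) • b] with hv
  have d01 : ‖v 0 - v 1‖ = √3 := by
    rw [← nm' (3 / 2) (-√3 / 2) (by nlinarith)]
    congr 1; simp only [hv, Matrix.cons_val]; module
  have d12 : ‖v 1 - v 2‖ = √3 := by
    rw [← nm' 0 √3 (by nlinarith)]
    congr 1; simp only [hv, Matrix.cons_val]; module
  have d20 : ‖v 2 - v 0‖ = √3 := by
    rw [← nm' (-3 / 2) (-√3 / 2) (by nlinarith)]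
    congr 1; simp only [hv, Matrix.cons_val]; module
  have p3 : (0 : ℝ) < √3 := by positivity
  have n01 : v 0 ≠ v 1 := fun h => by rw [h, sub_self, norm_zero] at d01; linarith
  have n12 : v 1 ≠ v 2 := fun h => by rw [h, sub_self, norm_zero] at d12; linarith
  have n20 : v 2 ≠ v 0 := fun h => by rw [h, sub_self, norm_zero] at d20; linarith
  have hinj : Function.Injective v := fun i j h => by
    fin_cases i <;> fin_cases j <;>
      first | rfl | exact absurd h n01 | exact absurd h n12 | exact absurd h n20 |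
        exact absurd h.symm n01 | exact absurd h.symm n12 | exact absurd h.symm n20
  have hS : ∑ i, ‖v i‖ ^ 2 = 3 := by
    rw [Fin.sum_univ_three]
    simp only [hv, Matrix.cons_val, nm]
    nlinarith
  have h1 : ph 0 * (√3 + √3 + √3) / 2 ≤ hh v := by
    have := integral_max3 (v 0) (v 1) (v 2)
    rw [d01, d12, d20] at this
    rw [← this]
    exact integral_mono (((integrable_inner _).sup (integrable_inner _)).sup (integrable_inner _))
      (integrable_mxf v) fun x => max_le (max_le (le_mxf v x 0) (le_mxf v x 1)) (le_mxf v x 2)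
  refine ⟨cell v, isPart_cell hinj, ?_⟩
  rw [hh_eq_sum hinj] at h1
  set z : Fin 3 → E := fun i => ∫ x in cell v i, x ∂(stdGaussian E) with hz
  have e4 : 0 ≤ ∑ i, ‖z i - (ph 0 * √3 / 2) • v i‖ ^ 2 := Finset.sum_nonneg fun i _ => sq_nonneg _
  simp_rw [@norm_sub_sq_real E, real_inner_smul_right, norm_smul, mul_pow, Real.norm_eq_abs,
    sq_abs] at e4
  rw [Finset.sum_add_distrib, Finset.sum_sub_distrib, ← Finset.mul_sum, ← Finset.mul_sum,
    ← Finset.mul_sum, hS] at e4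
  have a4 : 9 / (8 * π) = 9 / 4 * ph 0 ^ 2 := by rw [ph_zero_sq]; field_simp; norm_num
  have h0 := ph_pos 0
  have h2 := mul_le_mul_of_nonneg_left h1 (show 0 ≤ ph 0 * √3 by positivity)
  have h3 : ph 0 ^ 2 * √3 ^ 2 = ph 0 ^ 2 * 3 := by rw [s3]
  rw [a4]
  change 9 / 4 * ph 0 ^ 2 ≤ ∑ i, ‖z i‖ ^ 2
  change ph 0 * √3 * _ ≤ ph 0 * √3 * ∑ i, ⟪z i, v i⟫ at h2
  nlinarith

omit [BorelSpace E] in
lemma IsPart.extend {A : Fin 3 → Set E} (h : IsPart A) {k : ℕ} (hk : 3 ≤ k) :
    ∃ B : Fin k → Set E, IsPart B ∧ ∑ i, ‖∫ x in B i, x ∂(stdGaussian E)‖ ^ 2 =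
      ∑ i, ‖∫ x in A i, x ∂(stdGaussian E)‖ ^ 2 := by
  have hi := Fin.castLE_injective hk
  have h1 : ∀ i, Function.extend (Fin.castLE hk) A (fun _ => ∅) (Fin.castLE hk i) = A i :=
    fun i => hi.extend_apply _ _ i
  have h2 : ∀ j, (∃ i, Fin.castLE hk i = j) ∨
      Function.extend (Fin.castLE hk) A (fun _ => ∅) j = ∅ := fun j => by
    by_cases hj : ∃ i, Fin.castLE hk i = j
    · exact Or.inl hj
    · exact Or.inr (Function.extend_apply' _ _ _ hj)
  refine ⟨Function.extend (Fin.castLE hk) A (fun _ => ∅), ⟨fun j => ?_, fun i j hij => ?_, ?_⟩, ?_⟩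
  · rcases h2 j with ⟨i, rfl⟩ | h3
    · rw [h1]; exact h.meas i
    · rw [h3]; exact MeasurableSet.empty.nullMeasurableSet
  · unfold Function.onFun AEDisjoint
    rcases h2 i with ⟨i, rfl⟩ | h3
    · rcases h2 j with ⟨j, rfl⟩ | h4
      · rw [h1, h1]; exact h.disj fun h5 => hij (by rw [h5])
      · simp [h4]
    · simp [h3]
  · filter_upwards [h.cover] with x hx
    obtain ⟨i, hi⟩ := mem_iUnion.1 hx
    exact mem_iUnion.2 ⟨Fin.castLE hk i, by rwa [h1]⟩
  · exact (Fintype.sum_of_injective (Fin.castLE hk) hi _ _ (fun j hj => by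
      rw [Function.extend_apply' _ _ _ hj]; simp) fun i => by rw [h1]).symm

theorem exists_extremal {d k : ℕ} (hd : 2 ≤ d) (hk : 3 ≤ k) :
    ∃ B : Fin k → Set (EuclideanSpace ℝ (Fin d)), IsPart B ∧
      ∑ i, ‖∫ x in B i, x ∂(stdGaussian (EuclideanSpace ℝ (Fin d)))‖ ^ 2 = 9 / (8 * π) := by
  obtain ⟨A, hA, h1⟩ := exists_propeller (E := EuclideanSpace ℝ (Fin d))
    (a := EuclideanSpace.single ⟨0, by omega⟩ 1) (b := EuclideanSpace.single ⟨1, by omega⟩ 1)
    (by simp) (by simp) (by simp [EuclideanSpace.inner_single_left])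
  obtain ⟨B, hB, h2⟩ := hA.extend hk
  exact ⟨B, hB, le_antisymm (propeller hB) (h2 ▸ h1)⟩

end Vale.Agent.P226
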